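import Vale.Agent.P277.Defs
import Vale.Agent.P267.H175.RLoc
import Vale.Agent.P267.H928.Int.Cplx

/-!
# P277: the statements of the packages of the proof (blueprint)
-/

open scoped Manifold ContDiff Topology
open Vale.Agent.P272.K Vale.Agent.P285.H281.FD Vale.Agent.P267.H175 Set

noncomputable section

namespace Vale.Agent.P277

/-- linear combination of sections -/
def lin {T ι : Type} {M : ℕ} (w : Fin M → ℂ) (u : Fin M → ι → T → ℂ) : ι → T → ℂ :=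
  fun i x => ∑ m, w m * u m i x

/-- zero set of a section -/
def Zs {T : Type} (L : Bd T) (s : L.ι → T → ℂ) : Set T := {x | ∃ i, x ∈ L.U i ∧ s i x = 0}

/-- Jacobian determinant of four functions on `X`, read in the chart `e` of `Y` through `v`. -/
def Jac {Y T : Type} [TopologicalSpace Y] (v : Y → T) (G : Fin 4 → T → ℂ) (e : Chart 4 Y)
    (z : Cm 4) : ℂ :=
  (Matrix.of fun i j => fderiv ℂ (fun z => G i (v (e.symm z))) z (Pi.single j 1)).det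

/-! ### B: dimension theory -/

/-- (B1) hypersurfaces are countable unions of images of open subsets of `ℂ^n`. -/
def StB1 : Prop :=
  ∀ (n : ℕ) (Ω : Set (Cm (n + 1))) (J : Cm (n + 1) → ℂ), IsOpen Ω → (∀ z ∈ Ω, AnalyticAt ℂ J z) →
    (∀ z ∈ Ω, ¬ J =ᶠ[𝓝 z] 0) →
    ∃ (W : ℕ → Set (Cm n)) (g : ℕ → Cm n → Cm (n + 1)), (∀ k, IsOpen (W k)) ∧
      (∀ k, ∀ p ∈ W k, AnalyticAt ℂ (g k) p ∧ g k p ∈ Ω) ∧
      {z | z ∈ Ω ∧ J z = 0} ⊆ ⋃ k, g k '' W k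

/-- (B2) complements of thin sets in balls of `ℂ⁴` are connected and dense. -/
def StB2 : Prop :=
  ∀ (c : Cm 4) (r : ℝ) (W : ℕ → Set (Cm 3)) (g : ℕ → Cm 3 → Cm 4), 0 < r → (∀ k, IsOpen (W k)) →
    (∀ k, ContDiffOn ℝ 1 (g k) (W k)) →
    IsPreconnected (Metric.ball c r \ ⋃ k, g k '' W k) ∧
      Metric.ball c r ⊆ closure (Metric.ball c r \ ⋃ k, g k '' W k)

/-- (B3) Krull: three functions on a four-dimensional space have uncountably many common zeros. -/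
def StB3 : Prop :=
  ∀ (Y : Type) [TopologicalSpace Y] [T2Space Y] [CompactSpace Y] [ChartedSpace (Cm 4) Y]
    [IsManifold 𝓘(ℂ, Cm 4) ω Y] (X : CSp) (O : Set Y) (v : Y → X.pt) (_ : IsOpenEmb X O v)
    (_ : Dense (v '' O)) (_ : DimLe X 2 (v '' O)ᶜ) (G : Fin 4 → X.pt → ℂ) (x : X.pt)
    (V : Set X.pt) (_ : IsOpen V) (_ : x ∈ V) (_ : ∀ i, ∀ y ∈ V, X.Hol (G i) y)
    (_ : ∀ i, G i x = 0)
    (_ : ∀ W : Set X.pt, IsOpen W → W ⊆ V → W.Nonempty → ∃ y ∈ O, v y ∈ W ∧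
      ∀ e : Chart 4 Y, At e y → Jac v G e (e y) ≠ 0),
    ¬ {y | y ∈ V ∧ G 0 y = 0 ∧ G 1 y = 0 ∧ G 2 y = 0}.Countable

/-! ### C: generic sections -/

/-- (C1) a generic section cuts down the dimension. -/
def StC1 : Prop :=
  ∀ (X : CSp) (P : Bd X.pt) (_ : IsLBx X P) (V : Set X.pt) (_ : IsOpen V) (M : ℕ)
    (u : Fin M → P.ι → X.pt → ℂ) (_ : ∀ m, IsSecx X V P (u m)) (d : ℕ) (S : Set X.pt) (_ : S ⊆ V)
    (_ : DimLe X (d + 1) S) (x₀ : X.pt) (_ : ∀ x ∈ S, x ≠ x₀ → ∃ m i, x ∈ P.U i ∧ u m i x ≠ 0),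
    ∃ H : ℕ → Submodule ℂ (Fin M → ℂ), (∀ k, H k ≠ ⊤) ∧
      ∀ w, (∀ k, w ∉ H k) → DimLe X d (S ∩ Zs P (lin w u))

/-- (C2) countably many proper subspaces do not cover. -/
def StC2 : Prop :=
  ∀ (M : ℕ) (H : ℕ → Submodule ℂ (Fin M → ℂ)), (∀ k, H k ≠ ⊤) → ∃ w, ∀ k, w ∉ H k

/-! ### D: geometry of one flip -/

/-- The output of the geometry of a flip: sections `s, s'` of `P` and `σ, σ'` of `Q` over `G`. -/
structure FlipOut {Y : Type} [TopologicalSpace Y] [ChartedSpace (Cm 4) Y] (X : CSp) (O : Set Y)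
    (v : Y → X.pt) (P Q : Bd X.pt) (G : Set X.pt) (s s' : P.ι → X.pt → ℂ)
    (σ σ' : Q.ι → X.pt → ℂ) (x₀ : X.pt) : Prop where
  isOpen : IsOpen G
  lbP : IsLBx X P
  lbQ : IsLBx X Q
  sec : IsSecx X G P s
  sec' : IsSecx X G P s'
  secσ : IsSecx X G Q σ
  secσ' : IsSecx X G Q σ'
  closed : IsClosed (G ∩ Zs Q σ ∩ Zs Q σ')
  mem : x₀ ∈ G ∩ Zs Q σ ∩ Zs Q σ'
  zero : x₀ ∈ Zs P s ∩ Zs P s'
  nocommon : G ∩ Zs P s ∩ Zs P s' ⊆ v '' O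
  count : (G ∩ Zs Q σ ∩ Zs Q σ' ∩ (Zs P s ∩ Zs P s')).Countable
  jac : ∃ i j, x₀ ∈ P.U i ∧ x₀ ∈ Q.U j ∧ ∀ W : Set X.pt, IsOpen W → x₀ ∈ W →
    ∃ y ∈ O, v y ∈ W ∩ G ∩ (P.U i ∩ Q.U j) ∧ ∀ e : Chart 4 Y, At e y →
      Jac v ![s i, s' i, σ j, σ' j] e (e y) ≠ 0

/-- (D) -/
def StD : Prop :=
  ∀ (Y : Type) [TopologicalSpace Y] [T2Space Y] [CompactSpace Y] [ChartedSpace (Cm 4) Y]
    [IsManifold 𝓘(ℂ, Cm 4) ω Y] (X Z X' : CSp) (f : X.pt → Z.pt) (f' : X'.pt → Z.pt)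
    (A : Set Z.pt) (L : Bd X.pt) (L' : Bd X'.pt) (_ : IsFlip X Z X' f f' A L L')
    (O : Set Y) (v : Y → X.pt) (_ : IsOpenEmb X O v) (_ : DimLe X 1 (v '' O)ᶜ)
    (_ : DimLe X' 1 (f' ⁻¹' A)),
    ∃ (P Q : Bd X.pt) (G : Set X.pt) (s s' : P.ι → X.pt → ℂ) (σ σ' : Q.ι → X.pt → ℂ) (x₀ : X.pt),
      FlipOut X O v P Q G s s' σ σ' x₀ ∧ G ∩ Zs Q σ ∩ Zs Q σ' ⊆ f ⁻¹' A

/-! ### F: differential forms -/

/-- real `k`-forms on `Y` (the value at `y` is read in the preferred chart `chartAt`) -/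
abbrev Fm (k : ℕ) (Y : Type) [TopologicalSpace Y] [ChartedSpace (Cm 4) Y] : Type :=
  Y → Cm 4 [⋀^Fin k]→L[ℝ] ℝ

/-- (F) a closed form `η` with compact support in `O`, and functionals on forms. -/
def StF : Prop :=
  ∀ (Y : Type) [TopologicalSpace Y] [T2Space Y] [CompactSpace Y] [ChartedSpace (Cm 4) Y]
    [IsManifold 𝓘(ℂ, Cm 4) ω Y] (X : CSp) (O : Set Y) (v : Y → X.pt) (_ : IsOpenEmb X O v)
    (_ : DimLe X 1 (v '' O)ᶜ) (P Q : Bd X.pt) (G : Set X.pt) (s s' : P.ι → X.pt → ℂ)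
    (σ σ' : Q.ι → X.pt → ℂ) (x₀ : X.pt) (_ : FlipOut X O v P Q G s s' σ σ' x₀),
    ∃ η : Fm 4 Y, (∀ y, SmAt η y ∧ dF η y = 0) ∧
      (∃ C₀ ⊆ O, IsCompact C₀ ∧ ∀ y ∉ C₀, η y = 0) ∧
      ∀ C ⊆ O, IsCompact C → Disjoint (v '' C) (G ∩ Zs Q σ ∩ Zs Q σ') →
        ∃ T : Fm 4 Y → ℝ,
          (∀ a b : Fm 4 Y, (∀ y, SmAt a y) → (∀ y, SmAt b y) → T (a + b) = T a + T b) ∧
          (∀ (c : ℝ) (a : Fm 4 Y), (∀ y, SmAt a y) → T (c • a) = c * T a) ∧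
          (∀ β : Fm 3 Y, (∀ y, SmAt β y) → T (dF β) = 0) ∧
          (∀ a : Fm 4 Y, (∀ y, SmAt a y) → (∀ y ∉ C, a y = 0) → T a = 0) ∧
          T η ≠ 0

/-! ### E: finiteness of de Rham cohomology -/

/-- (E) `H^{k+1}` of a compact manifold has finite dimension. -/
def StE : Prop :=
  ∀ (E : Type) [NormedAddCommGroup E] [NormedSpace ℝ E] [FiniteDimensional ℝ E] (Y : Type)
    [TopologicalSpace Y] [T2Space Y] [CompactSpace Y] [ChartedSpace E Y]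
    [IsManifold 𝓘(ℝ, E) ∞ Y] (k : ℕ),
    ∃ (b : ℕ) (a : Fin b → Y → E [⋀^Fin (k + 1)]→L[ℝ] ℝ),
      (∀ i y, SmAt (a i) y ∧ dF (a i) y = 0) ∧
      ∀ c : Y → E [⋀^Fin (k + 1)]→L[ℝ] ℝ, (∀ y, SmAt c y ∧ dF c y = 0) →
        ∃ (t : Fin b → ℝ) (β : Y → E [⋀^Fin k]→L[ℝ] ℝ), (∀ y, SmAt β y) ∧
          ∀ y, c y = ∑ i, t i • a i y + dF β y

/-! ### R: main theorem -/

/-- Theorem R: a sequence of `N` flips with flipped loci of dimension `≤ 1`, starting with a space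
`X 0` which contains an open subset `O` of the compact complex fourfold `Y` with complement of
dimension `≤ 1`: then `N` is at most the dimension of the fourth de Rham cohomology of `Y`. -/
def StR : Prop :=
  ∀ (Y : Type) [TopologicalSpace Y] [T2Space Y] [CompactSpace Y] [ChartedSpace (Cm 4) Y]
    [IsManifold 𝓘(ℂ, Cm 4) ω Y] (b : ℕ) (a : Fin b → Fm 4 Y)
    (_ : ∀ c : Fm 4 Y, (∀ y, SmAt c y ∧ dF c y = 0) → ∃ (t : Fin b → ℝ) (β : Fm 3 Y),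
      (∀ y, SmAt β y) ∧ ∀ y, c y = ∑ i, t i • a i y + dF β y)
    (N : ℕ) (X Z : ℕ → CSp) (O : Set Y) (v : Y → (X 0).pt) (_ : IsOpenEmb (X 0) O v)
    (_ : DimLe (X 0) 1 (v '' O)ᶜ) (f : ∀ j, (X j).pt → (Z j).pt)
    (f' : ∀ j, (X (j + 1)).pt → (Z j).pt) (A : ∀ j, Set (Z j).pt) (L : ∀ j, Bd (X j).pt)
    (L' : ∀ j, Bd (X (j + 1)).pt)
    (_ : ∀ j < N, IsFlip (X j) (Z j) (X (j + 1)) (f j) (f' j) (A j) (L j) (L' j))
    (_ : ∀ j < N, DimLe (X (j + 1)) 1 (f' j ⁻¹' A j)), N ≤ b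

end Vale.Agent.P277
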