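import Vale.Agent.P277.Stmts3
import Vale.Agent.P277.A.Basic
import Mathlib.LinearAlgebra.Vandermonde

/-!
# P277: the modules of the proof of `StTX False` (arbitrary normal `X'`)
-/

open scoped Manifold ContDiff ComplexOrder Topology
open Vale.Agent.P272.K Vale.Agent.P285.H281.FD Vale.Agent.P267.H175 Set Metric MeasureTheory

noncomputable section

namespace Vale.Agent.P277.TX

/-- `E` is closed in the open set `D ⊆ ℂⁿ` and `D ∩ E` is covered by countably many holomorphic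
images of open subsets of `ℂ^k`. -/
def Thin (k : ℕ) {n : ℕ} (D E : Set (Cm n)) : Prop :=
  IsOpen (D \ E) ∧ ∃ (Ω : ℕ → Set (Cm k)) (g : ℕ → Cm k → Cm n), (∀ l, IsOpen (Ω l)) ∧
    (∀ l, ∀ p ∈ Ω l, AnalyticAt ℂ (g l) p) ∧ D ∩ E ⊆ ⋃ l, g l '' Ω l

/-- (TX-RE) Riemann extension across thin sets. -/
def StRE : Prop :=
  ∀ (c : Cm 4) (r : ℝ) (E : Set (Cm 4)) (_ : Thin 3 (ball c r) E) (f : Cm 4 → ℂ)
    (_ : ∀ z ∈ ball c r \ E, AnalyticAt ℂ f z)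
    (_ : ∀ z ∈ ball c r, ∃ C : ℝ, ∀ᶠ w in 𝓝 z, w ∉ E → ‖f w‖ ≤ C),
    ∃ F : Cm 4 → ℂ, (∀ z ∈ ball c r, AnalyticAt ℂ F z) ∧ ∀ z ∈ ball c r \ E, F z = f z

/-- `x` enumerates the fibre of `G` over `z` in `V` (exactly `d` points). -/
def Enum {X : CSp} (V : Set X.pt) (G : X.pt → Cm 4) {d : ℕ} (z : Cm 4) (x : Fin d → X.pt) : Prop :=
  Function.Injective x ∧ ∀ y, (∃ k, x k = y) ↔ y ∈ V ∧ G y = z

/-- `G : V → ball c r` is a branched covering with `d` sheets, unbranched over `{θ ≠ 0}`, where `lam`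
separates the sheets. -/
structure IsCov (X : CSp) (V : Set X.pt) (G : X.pt → Cm 4) (c : Cm 4) (r : ℝ) (d : ℕ)
    (lam : X.pt → ℂ) (θ : Cm 4 → ℂ) : Prop where
  isOpen : IsOpen V
  pos : 0 < r
  dpos : 1 ≤ d
  holo : ∀ x ∈ V, ∀ i, X.Hol (fun y => G y i) x
  maps : ∀ x ∈ V, G x ∈ ball c r
  proper : ∀ r' < r, IsCompact {x | x ∈ V ∧ G x ∈ closedBall c r'}
  openMap : ∀ W ⊆ V, IsOpen W → IsOpen (G '' W)
  finite : ∀ z ∈ ball c r, {x | x ∈ V ∧ G x = z}.Finite ∧ {x | x ∈ V ∧ G x = z}.Nonempty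
  lamHol : ∀ x ∈ V, X.Hol lam x
  an : ∀ z ∈ ball c r, AnalyticAt ℂ θ z
  ne : ∀ z ∈ ball c r, ¬ θ =ᶠ[𝓝 z] 0
  enum : ∀ z ∈ ball c r, θ z ≠ 0 → ∃ x : Fin d → X.pt, Enum V G z x
  sep : ∀ z ∈ ball c r, θ z ≠ 0 → InjOn lam {x | x ∈ V ∧ G x = z}
  etale : ∀ x ∈ V, θ (G x) ≠ 0 → ∃ N, IsOpen N ∧ x ∈ N ∧ N ⊆ V ∧ InjOn G N ∧
    (∀ y ∈ N, θ (G y) ≠ 0) ∧ ∀ y ∈ N, ∀ h : X.pt → ℂ,
      X.Hol h y ↔ ∃ g : Cm 4 → ℂ, AnalyticAt ℂ g (G y) ∧ h =ᶠ[𝓝 y] g ∘ G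
  sym : ∀ h : X.pt → ℂ, (∀ x ∈ V, X.Hol h x) → ∃ P : Cm 4 → Polynomial ℂ,
    (∀ z ∈ ball c r, (P z).Monic ∧ (P z).natDegree = d ∧
      ∀ i, AnalyticAt ℂ (fun w => (P w).coeff i) z) ∧
    (∀ x ∈ V, (P (G x)).eval (h x) = 0) ∧
    ∀ z ∈ ball c r, θ z ≠ 0 → ∀ x : Fin d → X.pt, Enum V G z x →
      P z = ∏ k, (Polynomial.X - Polynomial.C (h (x k)))

/-- (TX-COV p) a proper nondegenerate map from an open subset to a ball is a branched covering. -/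
def StCovP : Prop :=
  ∀ (Y : Type) [TopologicalSpace Y] [T2Space Y] [CompactSpace Y] [ChartedSpace (Cm 4) Y]
    [IsManifold 𝓘(ℂ, Cm 4) ω Y] (X : CSp) (_ : IsNormal 4 X) (O : Set Y) (v : Y → X.pt)
    (_ : IsOpenEmb X O v) (_ : DimLe X 2 (v '' O)ᶜ) (G : X.pt → Cm 4) (c : Cm 4) (r : ℝ)
    (_ : 0 < r) (V : Set X.pt) (_ : IsOpen V) (_ : V.Nonempty)
    (_ : ∀ x ∈ V, ∀ i, X.Hol (fun y => G y i) x) (_ : ∀ x ∈ V, G x ∈ ball c r)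
    (_ : ∀ r' < r, IsCompact {x | x ∈ V ∧ G x ∈ closedBall c r'})
    (_ : ∀ W : Set X.pt, IsOpen W → W ⊆ V → W.Nonempty → ∃ y ∈ O, v y ∈ W ∧
      ∀ e : Chart 4 Y, At e y → Jac v (fun i x => G x i) e (e y) ≠ 0)
    (n : ℕ) (ζ : Fin n → X.pt → ℂ) (_ : IsCoord X V ζ),
    ∃ (d : ℕ) (lam : X.pt → ℂ) (θ : Cm 4 → ℂ), IsCov X V G c r d lam θ

/-- (TX-COV r) restriction of a branched covering to a smaller ball. -/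
def StCovRes : Prop :=
  ∀ (X : CSp) (V : Set X.pt) (G : X.pt → Cm 4) (c : Cm 4) (r : ℝ) (d : ℕ) (lam : X.pt → ℂ)
    (θ : Cm 4 → ℂ) (_ : IsCov X V G c r d lam θ) (c' : Cm 4) (r' : ℝ) (_ : 0 < r')
    (_ : ball c' r' ⊆ ball c r), IsCov X {x | x ∈ V ∧ G x ∈ ball c' r'} G c' r' d lam θ

/-- (TX-RANK) a holomorphic map with vanishing Jacobian has an uncountable fibre. -/
def StRank : Prop :=
  ∀ (n m : ℕ) (W : Set (Cm n)) (_ : IsOpen W) (_ : W.Nonempty) (F : Cm n → Cm m)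
    (_ : ∀ z ∈ W, AnalyticAt ℂ F z)
    (_ : ∀ z ∈ W, ¬ Function.Injective (fderiv ℂ F z)), ∃ z ∈ W, ¬ {w | w ∈ W ∧ F w = F z}.Countable

/-- (TX-COV a) existence of branched coverings. `X` has dimension four, `v` identifies `O ⊆ Y` with
an open subset, `G` is nondegenerate with countable fibre through `p`. -/
def StCov : Prop :=
  ∀ (Y : Type) [TopologicalSpace Y] [T2Space Y] [CompactSpace Y] [ChartedSpace (Cm 4) Y]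
    [IsManifold 𝓘(ℂ, Cm 4) ω Y] (X : CSp) (_ : IsNormal 4 X) (O : Set Y) (v : Y → X.pt)
    (_ : IsOpenEmb X O v) (_ : DimLe X 2 (v '' O)ᶜ) (G : X.pt → Cm 4) (p : X.pt)
    (V₀ : Set X.pt) (_ : IsOpen V₀) (_ : p ∈ V₀) (_ : ∀ x ∈ V₀, ∀ i, X.Hol (fun y => G y i) x)
    (_ : ∀ W : Set X.pt, IsOpen W → W ⊆ V₀ → W.Nonempty → ∃ y ∈ O, v y ∈ W ∧
      ∀ e : Chart 4 Y, At e y → Jac v (fun i x => G x i) e (e y) ≠ 0)
    (_ : {x | x ∈ V₀ ∧ G x = G p}.Countable) (N : Set X.pt) (_ : N ∈ 𝓝 p),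
    ∃ (V : Set X.pt) (r : ℝ) (d : ℕ) (lam : X.pt → ℂ) (θ : Cm 4 → ℂ),
      IsCov X V G (G p) r d lam θ ∧ p ∈ V ∧ V ⊆ N ∩ V₀ ∧ ∀ x ∈ V, G x = G p → x = p

/-- (TX-COV b) localisation: over a small ball the covering is the disjoint union of coverings
around the points of the fibre, and the degrees add up. -/
def StCovLoc : Prop :=
  ∀ (X : CSp) (V : Set X.pt) (G : X.pt → Cm 4) (c : Cm 4) (r : ℝ) (d : ℕ) (lam : X.pt → ℂ)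
    (θ : Cm 4 → ℂ) (_ : IsCov X V G c r d lam θ) (z : Cm 4) (_ : z ∈ ball c r) (m : ℕ)
    (p : Fin m → X.pt) (_ : Function.Injective p) (_ : ∀ y, (∃ k, p k = y) ↔ y ∈ V ∧ G y = z)
    (N : Fin m → Set X.pt) (_ : ∀ k, N k ∈ 𝓝 (p k)),
    ∃ (r' : ℝ) (V' : Fin m → Set X.pt) (d' : Fin m → ℕ), 0 < r' ∧ ball z r' ⊆ ball c r ∧
      (∀ k, IsCov X (V' k) G z r' (d' k) lam θ ∧ p k ∈ V' k ∧ V' k ⊆ N k ∩ V ∧
        ∀ x ∈ V' k, G x = z → x = p k) ∧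
      (∀ k l, k ≠ l → Disjoint (V' k) (V' l)) ∧
      (∀ x ∈ V, G x ∈ ball z r' → ∃ k, x ∈ V' k) ∧ ∑ k, d' k = d

/-- (TX-COV c) the squared determinant of `d` functions on the fibres is holomorphic. -/
def StDet : Prop :=
  ∀ (X : CSp) (V : Set X.pt) (G : X.pt → Cm 4) (c : Cm 4) (r : ℝ) (d : ℕ) (lam : X.pt → ℂ)
    (θ : Cm 4 → ℂ) (_ : IsCov X V G c r d lam θ) (a : Fin d → X.pt → ℂ)
    (_ : ∀ i, ∀ x ∈ V, X.Hol (a i) x),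
    ∃ κ : Cm 4 → ℂ, (∀ z ∈ ball c r, AnalyticAt ℂ κ z) ∧
      ∀ z ∈ ball c r, θ z ≠ 0 → ∀ x : Fin d → X.pt, Enum V G z x →
        κ z = (Matrix.of fun i k => a i (x k)).det ^ 2

/-- A branched covering adapted to the surface `S = {G 0 = G 1 = 0}`: `S` has one point in each
fibre, and all functions which vanish on `S` are `O(|G 0| + |G 1|)`. -/
structure IsGood (X : CSp) (S V : Set X.pt) (G : X.pt → Cm 4) (c : Cm 4) (r : ℝ) (d : ℕ)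
    (lam : X.pt → ℂ) (θ : Cm 4 → ℂ) : Prop extends IsCov X V G c r d lam θ where
  c0 : c 0 = 0
  c1 : c 1 = 0
  memS : ∀ x ∈ V, x ∈ S ↔ G x 0 = 0 ∧ G x 1 = 0
  uniq : ∀ x ∈ V, x ∈ S → ∀ y ∈ V, G y = G x → y = x
  red : ∀ x ∈ V, x ∈ S → ∀ h : X.pt → ℂ, X.Hol h x → (∀ᶠ y in 𝓝 x, y ∈ S → h y = 0) →
    ∃ C : ℝ, ∀ᶠ y in 𝓝 x, ‖h y‖ ≤ C * (‖G y 0‖ + ‖G y 1‖)

/-- (TX-MIN) existence of good coverings. -/
def StMin : Prop :=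
  ∀ (Y : Type) [TopologicalSpace Y] [T2Space Y] [CompactSpace Y] [ChartedSpace (Cm 4) Y]
    [IsManifold 𝓘(ℂ, Cm 4) ω Y] (X : CSp) (_ : IsNormal 4 X) (O : Set Y) (v : Y → X.pt)
    (_ : IsOpenEmb X O v) (_ : DimLe X 2 (v '' O)ᶜ) (S : Set X.pt) (_ : IsAn X univ S)
    (_ : S ⊆ (v '' O)ᶜ) (_ : ¬ DimLe X 1 S),
    ∃ (V : Set X.pt) (G : X.pt → Cm 4) (c : Cm 4) (r : ℝ) (d : ℕ) (lam : X.pt → ℂ)
      (θ : Cm 4 → ℂ) (n : ℕ) (ζ : Fin n → X.pt → ℂ),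
      IsGood X S V G c r d lam θ ∧ IsCoord X V ζ

/-- (TX-ALG) near a good covering the ring of holomorphic functions is generated by `d` functions
as a module over the functions of `G`, after multiplication by a function `b` which does not vanish
identically on `{z 0 = z 1 = 0}`. -/
def StAlg : Prop :=
  ∀ (X : CSp) (_ : IsNormal 4 X) (S : Set X.pt) (_ : IsAn X univ S) (_ : DimLe X 2 S)
    (V : Set X.pt) (G : X.pt → Cm 4) (c : Cm 4) (r : ℝ) (d : ℕ) (lam : X.pt → ℂ)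
    (θ : Cm 4 → ℂ) (_ : IsGood X S V G c r d lam θ) (n : ℕ) (ζ : Fin n → X.pt → ℂ)
    (_ : IsCoord X V ζ),
    ∃ (r₁ : ℝ) (a : Fin d → X.pt → ℂ) (b : Cm 4 → ℂ), 0 < r₁ ∧ r₁ ≤ r ∧
      (∀ i, ∀ x ∈ V, G x ∈ ball c r₁ → X.Hol (a i) x) ∧ (∀ z ∈ ball c r₁, AnalyticAt ℂ b z) ∧
      (∀ ε > 0, ∃ z ∈ ball c ε, z 0 = 0 ∧ z 1 = 0 ∧ b z ≠ 0) ∧
      ∀ h : X.pt → ℂ, (∀ x ∈ V, X.Hol h x) → ∃ r₂ : ℝ, 0 < r₂ ∧ r₂ ≤ r₁ ∧
        ∃ ρ : Fin d → Cm 4 → ℂ, (∀ i, ∀ z ∈ ball c r₂, AnalyticAt ℂ (ρ i) z) ∧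
          ∀ x ∈ V, G x ∈ ball c r₂ → b (G x) * h x = ∑ i, ρ i (G x) * a i x

/-- `G` has rank at least three at the point `v y`. -/
def RankGe3 {Y : Type} [TopologicalSpace Y] [ChartedSpace (Cm 4) Y] {X : CSp} (v : Y → X.pt)
    (G : X.pt → Cm 4) (y : Y) : Prop :=
  ∀ e : Chart 4 Y, At e y →
    3 ≤ Module.finrank ℂ
      (LinearMap.range (fderiv ℂ (fun z => G (v (e.symm z))) (e y) : Cm 4 →ₗ[ℂ] Cm 4))

/-- (TX-THIN) the image of the points outside `v O` and of the points where the rank of `G` is at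
most two is a closed set of dimension `≤ 2`. -/
def StThin : Prop :=
  ∀ (Y : Type) [TopologicalSpace Y] [T2Space Y] [CompactSpace Y] [ChartedSpace (Cm 4) Y]
    [IsManifold 𝓘(ℂ, Cm 4) ω Y] (X : CSp) (O : Set Y) (v : Y → X.pt)
    (_ : IsOpenEmb X O v) (_ : DimLe X 2 (v '' O)ᶜ) (V : Set X.pt) (G : X.pt → Cm 4) (c : Cm 4)
    (r : ℝ) (d : ℕ) (lam : X.pt → ℂ) (θ : Cm 4 → ℂ) (_ : IsCov X V G c r d lam θ),
    Thin 2 (ball c r) (G '' {x | x ∈ V ∧ ¬ ∃ y ∈ O, v y = x ∧ RankGe3 v G y})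

/-- (TX-BR) near a value `z₀` over which all points are in `v O` with rank `≥ 3`, the product of the
Jacobians of `G` at the sheets is bounded by the discriminant of a linear combination of the
coordinates `ζ`. -/
def StBr : Prop :=
  ∀ (Y : Type) [TopologicalSpace Y] [T2Space Y] [CompactSpace Y] [ChartedSpace (Cm 4) Y]
    [IsManifold 𝓘(ℂ, Cm 4) ω Y] (X : CSp) (O : Set Y) (v : Y → X.pt)
    (_ : IsOpenEmb X O v) (V : Set X.pt) (G : X.pt → Cm 4) (c : Cm 4)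
    (r : ℝ) (d : ℕ) (lam : X.pt → ℂ) (θ : Cm 4 → ℂ) (_ : IsCov X V G c r d lam θ)
    (n : ℕ) (ζ : Fin n → X.pt → ℂ) (_ : IsCoord X V ζ) (z₀ : Cm 4) (_ : z₀ ∈ ball c r)
    (_ : ∀ x ∈ V, G x = z₀ → ∃ y ∈ O, v y = x ∧ RankGe3 v G y)
    (J : X.pt → ℝ) (_ : ∀ x, 0 ≤ J x)
    (_ : ∀ x ∈ V, G x = z₀ → ∃ y ∈ O, v y = x ∧ ∃ e : Chart 4 Y, At e y ∧ ∃ C : ℝ,
      ∀ᶠ y' in 𝓝 y, J (v y') ≤ C * ‖(fderiv ℂ (fun z => G (v (e.symm z))) (e y')).det‖),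
    ∃ (w : Fin n → ℂ) (C : ℝ), ∀ᶠ z in 𝓝 z₀, θ z ≠ 0 → ∀ x : Fin d → X.pt, Enum V G z x →
      ∏ k, J (x k) ≤ C * ‖(Matrix.vandermonde fun k => ∑ j, w j * ζ j (x k)).det‖ ^ 2

/-- (TX-PUI) parametrisation of the sheets along the lines through `{z 0 = z 1 = 0}` (blow-up chart
`bl`). -/
def StPui : Prop :=
  ∀ (X : CSp) (V : Set X.pt) (G : X.pt → Cm 4) (c : Cm 4)
    (r : ℝ) (d : ℕ) (lam : X.pt → ℂ) (θ : Cm 4 → ℂ) (_ : IsCov X V G c r d lam θ)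
    (w₀ : Cm 4) (_ : w₀ 0 = 0) (_ : bl w₀ ∈ ball c r) (m : ℕ) (Φ : Cm 4 → ℂ)
    (_ : AnalyticAt ℂ Φ w₀) (_ : Φ w₀ ≠ 0) (_ : ∀ᶠ w in 𝓝 w₀, θ (bl w) = w 0 ^ m * Φ w),
    ∃ (N : ℕ) (s : Fin d → ℕ) (ε : ℝ) (φ : Fin d → Cm 4 → X.pt), 1 ≤ N ∧ 0 < ε ∧ ε ≤ 1 ∧
      (∀ k, 1 ≤ s k ∧ s k ≤ d ∧ s k ∣ N) ∧
      (∀ k, ∀ w ∈ ball w₀ ε, HolAt X (φ k) w ∧ φ k w ∈ V ∧
        G (φ k w) = ![w 0 ^ s k, w 1 * w 0 ^ s k, w 2, w 3]) ∧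
      ∀ w ∈ ball w₀ ε, w 0 ≠ 0 →
        Enum V G ![w 0 ^ N, w 1 * w 0 ^ N, w 2, w 3]
          (fun k => φ k ![w 0 ^ (N / s k), w 1, w 2, w 3])

section
variable {Y : Type} [TopologicalSpace Y] [ChartedSpace (Cm 4) Y]

/-- The Jacobian matrix of `G` at `v y` in the chart `e`. -/
def jacG {X : CSp} (v : Y → X.pt) (G : X.pt → Cm 4) (e : Chart 4 Y) (y : Y) :
    Matrix (Fin 4) (Fin 4) ℂ :=
  Matrix.of fun i j => fderiv ℂ (fun z => G (v (e.symm z)) i) (e y) (Pi.single j 1)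

/-- The Kähler form `χ` at the point `v y`, in the coordinates `G`. -/
def upH {X : CSp} (χ : Chart 4 Y → Cm 4 → Matrix (Fin 4) (Fin 4) ℂ) (v : Y → X.pt)
    (G : X.pt → Cm 4) (y : Y) : Matrix (Fin 4) (Fin 4) ℂ :=
  let e := chartAt (Cm 4) y
  ((jacG v G e y)⁻¹).transpose * χ e (e y) * ((jacG v G e y)⁻¹).map (starRingEnd ℂ)

/-- The push-forward of the Kähler form by `G`. -/
def pushH {X : CSp} (χ : Chart 4 Y → Cm 4 → Matrix (Fin 4) (Fin 4) ℂ) (O : Set Y) (v : Y → X.pt)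
    (V : Set X.pt) (G : X.pt → Cm 4) (z : Cm 4) : Matrix (Fin 4) (Fin 4) ℂ :=
  ∑ᶠ y ∈ {y | y ∈ O ∧ v y ∈ V ∧ G (v y) = z}, upH χ v G y

end

/-- (TX-PUSH) the push-forward of the Kähler form: smooth, closed and positive on the unbranched
part, locally integrable and closed in the sense of distributions outside the thin set `E`. -/
def StPush : Prop :=
  ∀ (Y : Type) [TopologicalSpace Y] [T2Space Y] [CompactSpace Y] [ChartedSpace (Cm 4) Y]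
    [IsManifold 𝓘(ℂ, Cm 4) ω Y] (χ : Chart 4 Y → Cm 4 → Matrix (Fin 4) (Fin 4) ℂ)
    (_ : IsKahler χ) (X : CSp) (O : Set Y) (v : Y → X.pt)
    (_ : IsOpenEmb X O v) (V : Set X.pt) (G : X.pt → Cm 4) (c : Cm 4)
    (r : ℝ) (d : ℕ) (lam : X.pt → ℂ) (θ : Cm 4 → ℂ) (_ : IsCov X V G c r d lam θ)
    (E : Set (Cm 4)) (_ : E = G '' (V \ v '' O)),
    (∀ z ∈ ball c r \ E, θ z ≠ 0 → (∀ i j, ContDiffAt ℝ 1 (fun w => pushH χ O v V G w i j) z) ∧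
      (∀ i j k, dz k (fun w => pushH χ O v V G w i j) z = dz i (fun w => pushH χ O v V G w k j) z) ∧
      (pushH χ O v V G z).PosSemidef) ∧
    (∀ z ∈ ball c r \ E, ∃ U ∈ 𝓝 z, ∀ i j, IntegrableOn (fun w => pushH χ O v V G w i j) U) ∧
    ∀ a : Cm 4 → ℝ, ContDiff ℝ ∞ a → HasCompactSupport a → tsupport a ⊆ ball c r \ E →
      ∀ i j k, ∫ z, pushH χ O v V G z i j * dz k (fun w => (a w : ℂ)) z =
        ∫ z, pushH χ O v V G z k j * dz i (fun w => (a w : ℂ)) z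

/-- `φ` is locally bounded above near every point of the ball outside `E`. -/
def LocBdAbove (c : Cm 4) (r : ℝ) (θ : Cm 4 → ℂ) (E : Set (Cm 4)) (φ : Cm 4 → ℝ) : Prop :=
  ∀ z : Cm 4, z ∈ ball c r \ E → ∃ C : ℝ, ∀ᶠ w : Cm 4 in 𝓝 z, (w ∉ E ∧ θ w ≠ 0) → φ w ≤ C

/-- (TX-CORE) analytic half (no manifold): `TD.StCore` with a branch divisor `{θ = 0}`. -/
def StCoreX : Prop :=
  ∀ (c : Cm 4) (r : ℝ) (_ : 0 < r) (θ : Cm 4 → ℂ) (_ : ∀ z ∈ ball c r, AnalyticAt ℂ θ z)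
    (_ : ∀ z ∈ ball c r, ¬ θ =ᶠ[𝓝 z] 0) (E : Set (Cm 4)) (_ : Thin 2 (ball c r) E)
    (H : Cm 4 → Matrix (Fin 4) (Fin 4) ℂ)
    (_ : ∀ z ∈ ball c r \ E, θ z ≠ 0 → (∀ i j, ContDiffAt ℝ 1 (fun w => H w i j) z) ∧
      (∀ i j k, dz k (fun w => H w i j) z = dz i (fun w => H w k j) z) ∧ (H z).PosSemidef)
    (_ : ∀ z ∈ ball c r \ E, ∃ U ∈ 𝓝 z, ∀ i j, IntegrableOn (fun w => H w i j) U)
    (_ : ∀ a : Cm 4 → ℝ, ContDiff ℝ ∞ a → HasCompactSupport a → tsupport a ⊆ ball c r \ E →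
      ∀ i j k, ∫ z, H z i j * dz k (fun w => (a w : ℂ)) z =
        ∫ z, H z k j * dz i (fun w => (a w : ℂ)) z)
    (w₀ : Cm 4) (_ : w₀ 0 = 0) (_ : bl w₀ ∈ ball c r)
    (_ : ∃ C : ℝ, ∀ᶠ w in 𝓝 w₀, w 0 ≠ 0 → bl w ∉ E → θ (bl w) ≠ 0 →
      ∀ i j, ‖H (bl w) i j‖ ≤ C / ‖w 0‖ ^ 2)
    (_ : ∀ᶠ w in 𝓝 w₀, w 0 ≠ 0 → θ (bl w) ≠ 0)
    (κ : ℝ) (_ : 0 < κ)
    (_ : ∀ δ : ℝ, 0 < δ → ∃ φ : Cm 4 → ℝ,
      (∀ z ∈ ball c r \ E, θ z ≠ 0 → ContDiffAt ℝ 2 φ z ∧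
        (cHess φ z + (δ : ℂ) • H z).PosSemidef) ∧ LocBdAbove c r θ E φ ∧
      ∃ C' : ℝ, ∀ᶠ w : Cm 4 in 𝓝 w₀, (w 0 : ℂ) ≠ (0 : ℂ) → bl w ∉ E →
        κ * Real.log (1 / ‖(w 0 : ℂ)‖) - C' ≤ φ (bl w)), False

end Vale.Agent.P277.TX
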