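import Vale.Agent.P277.Stmts2

/-!
# P277: the common interface of the discrepancy part of Theorem T1
-/

open scoped Manifold ContDiff Topology
open Vale.Agent.P272.K Vale.Agent.P285.H281.FD Vale.Agent.P267.H175 Set

noncomputable section

namespace Vale.Agent.P277

/-- (TX s) Let `X'` be normal, `v'` identify `O' ⊆ Y` with an open subset of `X'` with complement of
dimension `≤ 2`, and `L'` a line bundle on `X'` isomorphic on `O'` to `(K^m M)^Q`, `M` nef. For every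
two-dimensional analytic set `S` in the complement of `v' O'` there is a wedge `φ` centred in `S`
(a holomorphic map from an open set of `ℂ⁴` mapping `{w 0 = 0}` to `S`) which has no lift `γ₀` to
`Y` such that both the Jacobian of `γ₀` and the function `F` comparing the frames of `L'` and of
`(K^m M)^Q` vanish along `{w 0 = 0}`. With `s = True` it is assumed that `X'` is smooth in
codimension two. -/
def StTX (s : Prop) : Prop :=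
  ∀ (Y : Type) [TopologicalSpace Y] [T2Space Y] [CompactSpace Y] [ChartedSpace (Cm 4) Y]
    [IsManifold 𝓘(ℂ, Cm 4) ω Y] (χ : Chart 4 Y → Cm 4 → Matrix (Fin 4) (Fin 4) ℂ)
    (_ : IsKahler χ) (M : Bd Y) (_ : IsLB 4 M) (_ : Nef χ M) (m : ℕ) (_ : 1 ≤ m)
    (X' : CSp) (_ : IsNormal 4 X') (_ : s → DimLe X' 1 {x | ¬ IsReg 4 X' x})
    (O' : Set Y) (v' : Y → X'.pt) (_ : IsOpenEmb X' O' v') (_ : DimLe X' 2 (v' '' O')ᶜ)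
    (S : Set X'.pt) (_ : IsAn X' univ S) (_ : S ⊆ (v' '' O')ᶜ) (_ : ¬ DimLe X' 1 S)
    (L' : Bd X'.pt) (_ : IsLBx X' L') (Q : ℕ) (_ : 1 ≤ Q)
    (T : L'.ι → ((((Bd.can 4 Y).pow m).mul M).pow Q).ι → Y → ℂ)
    (_ : IsIsoY O' v' L' ((((Bd.can 4 Y).pow m).mul M).pow Q) T),
    ∃ (W : Set (Cm 4)) (w₀ : Cm 4) (φ : Cm 4 → X'.pt), IsOpen W ∧ w₀ ∈ W ∧ w₀ 0 = 0 ∧
      (∀ w ∈ W, HolAt X' φ w) ∧ (∀ w ∈ W, w 0 = 0 → φ w ∈ S) ∧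
      W ⊆ closure {w | w ∈ W ∧ φ w ∈ v' '' O'} ∧
      ∀ w₁ ∈ W, w₁ 0 = 0 → ∀ (γ₀ : Cm 4 → Y) (e : Chart 4 Y) (F : Cm 4 → ℂ) (i : L'.ι)
        (j : ((((Bd.can 4 Y).pow m).mul M).pow Q).ι), ContinuousAt γ₀ w₁ → At e (γ₀ w₁) →
        AnalyticAt ℂ (fun w => e (γ₀ w)) w₁ →
        (∀ᶠ w in 𝓝 w₁, φ w ∈ v' '' O' → γ₀ w ∈ O' ∧ v' (γ₀ w) = φ w) →
        φ w₁ ∈ L'.U i → γ₀ w₁ ∈ ((((Bd.can 4 Y).pow m).mul M).pow Q).U j → AnalyticAt ℂ F w₁ →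
        ∀ K : ℕ, 1 ≤ K → (∀ᶠ w in 𝓝 w₁, γ₀ w ∈ O' → F w = T i j (γ₀ w) ^ K) →
        (∀ᶠ w in 𝓝 w₁, w 0 = 0 → F w = 0) →
        (∀ᶠ w in 𝓝 w₁, w 0 = 0 → (fderiv ℂ (fun w => e (γ₀ w)) w).det = 0) → False

/-- (T1 s) Theorem T1; with `s = True` it is assumed that the `X j` are smooth in codimension
two. -/
def StT (s : Prop) : Prop :=
  ∀ (Y : Type) [TopologicalSpace Y] [T2Space Y] [CompactSpace Y] [ChartedSpace (Cm 4) Y]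
    [IsManifold 𝓘(ℂ, Cm 4) ω Y] (χ : Chart 4 Y → Cm 4 → Matrix (Fin 4) (Fin 4) ℂ)
    (_ : IsKahler χ) (M : Bd Y) (_ : IsLB 4 M) (_ : Nef χ M) (m : ℕ) (_ : 1 ≤ m)
    (b : ℕ) (a : Fin b → Fm 4 Y)
    (_ : ∀ c : Fm 4 Y, (∀ y, SmAt c y ∧ dF c y = 0) → ∃ (t : Fin b → ℝ) (β : Fm 3 Y),
      (∀ y, SmAt β y) ∧ ∀ y, c y = ∑ i, t i • a i y + dF β y)
    (N : ℕ) (X Z : ℕ → CSp) (v : Y → (X 0).pt) (_ : IsOpenEmb (X 0) univ v)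
    (_ : Function.Surjective v) (f : ∀ j, (X j).pt → (Z j).pt)
    (f' : ∀ j, (X (j + 1)).pt → (Z j).pt) (A : ∀ j, Set (Z j).pt) (L : ∀ j, Bd (X j).pt)
    (_ : ∃ c : ℕ, 1 ≤ c ∧ ∃ t, IsIsoY univ v (L 0) ((((Bd.can 4 Y).pow m).mul M).pow c) t)
    (_ : ∀ j < N, ∃ p q : ℕ, 1 ≤ p ∧ 1 ≤ q ∧
      IsFlip (X j) (Z j) (X (j + 1)) (f j) (f' j) (A j) ((L j).pow p) ((L (j + 1)).pow q))
    (_ : s → ∀ j ≤ N, DimLe (X j) 1 {x | ¬ IsReg 4 (X j) x}), N ≤ b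

end Vale.Agent.P277
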