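import Vale.Agent.P277.Stmts3

/-!
# P277, Theorem T2 (generalized terminal pairs): the statements of the discrepancy half
-/

open scoped Manifold ContDiff Topology
open Vale.Agent.P272.K Vale.Agent.P285.H281.FD Vale.Agent.P267.H175 Set Metric Filter

noncomputable section

namespace Vale.Agent.P277.T2

section
variable {Y : Type} [TopologicalSpace Y] [ChartedSpace (Cm 4) Y]

/-- `ξ` is a holomorphic local coordinate system of `Y`, defined on the ball with centre `w₀` and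
radius `r`, in which `G` is the hyperplane `{w 0 = 0}`. -/
structure IsPar (G : Set Y) (ξ : Cm 4 → Y) (w₀ : Cm 4) (r : ℝ) : Prop where
  pos : 0 < r
  zero : w₀ 0 = 0
  inj : InjOn ξ (ball w₀ r)
  openMap : ∀ W ⊆ ball w₀ r, IsOpen W → IsOpen (ξ '' W)
  cont : ∀ w ∈ ball w₀ r, ContinuousAt ξ w
  an : ∀ w ∈ ball w₀ r, ∀ e : Chart 4 Y, At e (ξ w) →
    AnalyticAt ℂ (fun w => e (ξ w)) w ∧ (fderiv ℂ (fun w => e (ξ w)) w).det ≠ 0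
  mem : ∀ w ∈ ball w₀ r, ξ w ∈ G ↔ w 0 = 0

/-- `G` is a smooth hypersurface. -/
def IsHyp (G : Set Y) : Prop := ∀ y ∈ G, ∃ (ξ : Cm 4 → Y) (w₀ : Cm 4) (r : ℝ),
  IsPar G ξ w₀ r ∧ ξ w₀ = y

/-- `S ⊆ Y` is covered by countably many holomorphic images of open subsets of `ℂ²`. -/
def ThinY (S : Set Y) : Prop :=
  ∃ (Ω : ℕ → Set (Cm 2)) (g : ℕ → Cm 2 → Y), (∀ k, IsOpen (Ω k)) ∧
    (∀ k, ∀ p ∈ Ω k, ContinuousAt (g k) p ∧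
      ∀ e : Chart 4 Y, At e (g k p) → AnalyticAt ℂ (fun p => e (g k p)) p) ∧ S ⊆ ⋃ k, g k '' Ω k

/-- `p ∘ v : Y → X` is a log resolution: `v` identifies the manifold `Y` with the complex space `W`,
`p : W → X` is bimeromorphic, an isomorphism over the complement of an analytic set of dimension
`≤ 2`, whose preimage is the union of the smooth connected hypersurfaces `G 0, …, G (r - 1)`, and `p`
is projective: `P` is `p`-ample, and `P⁻¹` is, locally over `X`, defined by an effective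
`p`-exceptional divisor. -/
structure IsRes {W X : CSp} {r : ℕ} (v : Y → W.pt) (p : W.pt → X.pt) (P : Bd W.pt)
    (G : Fin r → Set Y) : Prop where
  emb : IsOpenEmb W univ v
  surj : Function.Surjective v
  cont : Continuous p
  holo : ∀ x g, X.Hol g (p x) → W.Hol (g ∘ p) x
  psurj : Function.Surjective p
  closed : ∀ l, IsClosed (G l)
  conn : ∀ l, IsPreconnected (G l)
  hyp : ∀ l, IsHyp (G l)
  emb' : IsOpenEmb X (⋃ l, G l)ᶜ (fun y => p (v y))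
  inj : ∀ y x, y ∉ ⋃ l, G l → p x = p (v y) → x = v y
  an : IsAn X univ ((fun y => p (v y)) '' ⋃ l, G l)
  dim : DimLe X 2 ((fun y => p (v y)) '' ⋃ l, G l)
  lb : IsLBx W P
  ample : RelAmple W X p P
  eff : ∀ z, ∃ (V : Set X.pt) (τ : P.ι → W.pt → ℂ), IsOpen V ∧ z ∈ V ∧
    IsSecx W (p ⁻¹' V) (Bd.inv P) τ ∧
    ∀ y i, p (v y) ∈ V → y ∉ ⋃ l, G l → v y ∈ P.U i → τ i (v y) ≠ 0

/-- `t` compares the frames of the line bundles `v^* L` and `M` on `Y` (frame of `L` = `t` times the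
frame of `M`); it is holomorphic, and vanishes exactly on `D`. -/
structure IsCmp {X : CSp} (v : Y → X.pt) (L : Bd X.pt) (M : Bd Y) (D : Set Y)
    (t : L.ι → M.ι → Y → ℂ) : Prop where
  holo : ∀ y i j (e : Chart 4 Y), At e y → v y ∈ L.U i → y ∈ M.U j →
    AnalyticAt ℂ (fun z => t i j (e.symm z)) (e y) ∧ (t i j y = 0 ↔ y ∈ D)
  change : ∀ y i i₁ j j₁, v y ∈ L.U i → v y ∈ L.U i₁ → y ∈ M.U j → y ∈ M.U j₁ →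
    t i₁ j₁ y = L.g i i₁ (v y) * t i j y * M.g j₁ j y

end

/-- (TBr) `StTB` with control of the bad set: the wedge lifts near all points `w₁` of `{w 0 = 0}` in
a ball around `w₀` where a certain function `g` (not identically `0` on `{w 0 = 0}`) is not zero. -/
def StTBr : Prop :=
  ∀ (X Z X' : CSp) (f : X.pt → Z.pt) (f' : X'.pt → Z.pt) (A : Set Z.pt) (L : Bd X.pt)
    (L' : Bd X'.pt) (_ : IsFlip X Z X' f f' A L L') (_ : A = Amin f)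
    (t : L.ι → L'.ι → Z.pt → ℂ) (_ : IsIso f f' A L L' t)
    (W : Set (Cm 4)) (_ : IsOpen W) (w₀ : Cm 4) (_ : w₀ ∈ W) (_ : w₀ 0 = 0)
    (γ' : Cm 4 → X'.pt) (_ : ∀ w ∈ W, HolAt X' γ' w)
    (_ : W ⊆ closure {w | w ∈ W ∧ f' (γ' w) ∉ A}),
    ∃ (r : ℝ) (g : Cm 4 → ℂ), 0 < r ∧ ball w₀ r ⊆ W ∧ (∀ w ∈ ball w₀ r, AnalyticAt ℂ g w) ∧
      (∃ w₁ ∈ ball w₀ r, w₁ 0 = 0 ∧ g w₁ ≠ 0) ∧
      ∀ w₁ ∈ ball w₀ r, w₁ 0 = 0 → g w₁ ≠ 0 →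
        ∃ (W₁ : Set (Cm 4)) (γ : Cm 4 → X.pt) (k : ℕ), IsOpen W₁ ∧ w₁ ∈ W₁ ∧
        W₁ ⊆ W ∧ (∀ w ∈ W₁, HolAt X γ w ∧ f (γ w) = f' (γ' w)) ∧ 1 ≤ k ∧
        ∀ W₂ ⊆ W₁, ∀ i j, (∀ w ∈ W₂, γ w ∈ L.U i) → (∀ w ∈ W₂, γ' w ∈ L'.U j) →
          ∃ H : Cm 4 → ℂ, (∀ w ∈ W₂, AnalyticAt ℂ H w) ∧
            (∀ w ∈ W₂, f (γ w) ∉ A → H w * t i j (f (γ w)) ^ k = 1) ∧
            ((∀ w ∈ W, w 0 = 0 → f' (γ' w) ∈ A) → ∀ w ∈ W₂, w 0 = 0 → H w = 0)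

/-- (L0) wedges of `X` lift to the resolution `Y`. -/
def StL0 : Prop :=
  ∀ (Y : Type) [TopologicalSpace Y] [T2Space Y] [CompactSpace Y] [ChartedSpace (Cm 4) Y]
    [IsManifold 𝓘(ℂ, Cm 4) ω Y] (W X : CSp) (_ : IsNormal 4 X) (r : ℕ) (v : Y → W.pt)
    (p : W.pt → X.pt) (P : Bd W.pt) (G : Fin r → Set Y) (_ : IsRes v p P G)
    (B : Set (Cm 4)) (_ : IsOpen B) (w₀ : Cm 4) (_ : w₀ ∈ B) (_ : w₀ 0 = 0)
    (γ : Cm 4 → X.pt) (_ : ∀ w ∈ B, HolAt X γ w)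
    (_ : B ⊆ closure {w | w ∈ B ∧ γ w ∈ (fun y => p (v y)) '' (⋃ l, G l)ᶜ}),
    ∃ w₁ ∈ B, w₁ 0 = 0 ∧ ∃ (B₁ : Set (Cm 4)) (γ₀ : Cm 4 → Y), IsOpen B₁ ∧ w₁ ∈ B₁ ∧ B₁ ⊆ B ∧
      ∀ w ∈ B₁, ContinuousAt γ₀ w ∧ p (v (γ₀ w)) = γ w ∧
        ∀ e : Chart 4 Y, At e (γ₀ w) → AnalyticAt ℂ (fun w => e (γ₀ w)) w

/-- (DIS) integrality: let `n` be a section without zeros of `ρ^* M^q` outside a thin set of a ball;
then its order along the exceptional divisor of the blow-up is divisible by `q`. -/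
def StDis : Prop :=
  ∀ (Y : Type) [TopologicalSpace Y] [T2Space Y] [CompactSpace Y] [ChartedSpace (Cm 4) Y]
    [IsManifold 𝓘(ℂ, Cm 4) ω Y] (M : Bd Y) (_ : IsLB 4 M) (q : ℕ) (_ : 1 ≤ q) (r : ℝ) (_ : 0 < r)
    (E₀ : Set (Cm 4)) (_ : IsOpen (ball (0 : Cm 4) r \ E₀))
    (Ω : ℕ → Set (Cm 2)) (g : ℕ → Cm 2 → Cm 4) (_ : ∀ k, IsOpen (Ω k))
    (_ : ∀ k, ∀ p ∈ Ω k, AnalyticAt ℂ (g k) p) (_ : E₀ ⊆ ⋃ k, g k '' Ω k)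
    (ρ : Cm 4 → Y) (_ : ∀ x ∈ ball (0 : Cm 4) r \ E₀, ContinuousAt ρ x ∧
      ∀ e : Chart 4 Y, At e (ρ x) → AnalyticAt ℂ (fun z => e (ρ z)) x)
    (n : M.ι → Cm 4 → ℂ) (_ : ∀ i, ∀ x ∈ ball (0 : Cm 4) r \ E₀, ρ x ∈ M.U i →
      AnalyticAt ℂ (n i) x ∧ n i x ≠ 0)
    (_ : ∀ i j, ∀ x ∈ ball (0 : Cm 4) r \ E₀, ρ x ∈ M.U i → ρ x ∈ M.U j →
      n i x = M.g i j (ρ x) ^ q * n j x)
    (w₀ : Cm 4) (_ : w₀ 0 = 0) (_ : bl w₀ ∈ ball (0 : Cm 4) r) (γ₀ : Cm 4 → Y)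
    (_ : ContinuousAt γ₀ w₀) (_ : ∀ e : Chart 4 Y, At e (γ₀ w₀) →
      AnalyticAt ℂ (fun z => e (γ₀ z)) w₀)
    (_ : ∀ᶠ w in 𝓝 w₀, bl w ∉ E₀ → γ₀ w = ρ (bl w)) (i : M.ι) (_ : γ₀ w₀ ∈ M.U i)
    (κ : ℕ) (Φ : Cm 4 → ℂ) (_ : ContinuousAt Φ w₀) (_ : Φ w₀ ≠ 0)
    (_ : ∀ᶠ w in 𝓝 w₀, bl w ∉ E₀ → n i (bl w) * w 0 ^ κ = Φ w), q ∣ κ

/-- (TX2) a wedge centred in the surface `S` of the space `X'` (smooth in codimension two), such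
that all lifts `γ₀` with `F = 0` on `{w 0 = 0}` are local isomorphisms at the generic points of
`{w 0 = 0}`, and the order of `F` along `{w 0 = 0}` is `a * (Q * K)` with an integer `a ≤ m`. -/
def StTX2 : Prop :=
  ∀ (Y : Type) [TopologicalSpace Y] [T2Space Y] [CompactSpace Y] [ChartedSpace (Cm 4) Y]
    [IsManifold 𝓘(ℂ, Cm 4) ω Y] (χ : Chart 4 Y → Cm 4 → Matrix (Fin 4) (Fin 4) ℂ)
    (_ : IsKahler χ) (M : Bd Y) (_ : IsLB 4 M) (_ : Nef χ M) (m : ℕ) (_ : 1 ≤ m)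
    (X' : CSp) (_ : IsNormal 4 X') (_ : DimLe X' 1 {x | ¬ IsReg 4 X' x})
    (O' : Set Y) (v' : Y → X'.pt) (_ : IsOpenEmb X' O' v') (_ : DimLe X' 2 (v' '' O')ᶜ)
    (S : Set X'.pt) (_ : IsAn X' univ S) (_ : S ⊆ (v' '' O')ᶜ) (_ : ¬ DimLe X' 1 S)
    (L' : Bd X'.pt) (_ : IsLBx X' L') (Q : ℕ) (_ : 1 ≤ Q)
    (T : L'.ι → ((((Bd.can 4 Y).pow m).mul M).pow Q).ι → Y → ℂ)
    (_ : IsIsoY O' v' L' ((((Bd.can 4 Y).pow m).mul M).pow Q) T),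
    ∃ (W : Set (Cm 4)) (w₀ : Cm 4) (φ : Cm 4 → X'.pt), IsOpen W ∧ w₀ ∈ W ∧ w₀ 0 = 0 ∧
      (∀ w ∈ W, HolAt X' φ w) ∧ (∀ w ∈ W, w 0 = 0 → φ w ∈ S) ∧
      W ⊆ closure {w | w ∈ W ∧ φ w ∈ v' '' O'} ∧
      ∀ w₁ ∈ W, w₁ 0 = 0 → ∀ (γ₀ : Cm 4 → Y) (e : Chart 4 Y) (F : Cm 4 → ℂ) (i : L'.ι)
        (j : ((((Bd.can 4 Y).pow m).mul M).pow Q).ι), ContinuousAt γ₀ w₁ → At e (γ₀ w₁) →
        AnalyticAt ℂ (fun w => e (γ₀ w)) w₁ →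
        (∀ᶠ w in 𝓝 w₁, φ w ∈ v' '' O' → γ₀ w ∈ O' ∧ v' (γ₀ w) = φ w) →
        φ w₁ ∈ L'.U i → γ₀ w₁ ∈ ((((Bd.can 4 Y).pow m).mul M).pow Q).U j → AnalyticAt ℂ F w₁ →
        ∀ K : ℕ, 1 ≤ K → (∀ᶠ w in 𝓝 w₁, γ₀ w ∈ O' → F w = T i j (γ₀ w) ^ K) →
        (∀ᶠ w in 𝓝 w₁, w 0 = 0 → F w = 0) →
        (∃ᶠ w in 𝓝 w₁, w 0 = 0 ∧ (fderiv ℂ (fun w => e (γ₀ w)) w).det ≠ 0) ∧
        ∀ (ν : ℕ) (Φ : Cm 4 → ℂ), ContinuousAt Φ w₁ → Φ w₁ ≠ 0 →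
          (fderiv ℂ (fun w => e (γ₀ w)) w₁).det ≠ 0 →
          (∀ᶠ w in 𝓝 w₁, F w = w 0 ^ ν * Φ w) → Q * K ∣ ν ∧ ν ≤ m * (Q * K)

/-- (CONN) the complement of a closed thin subset of a connected smooth hypersurface is dense and
connected. -/
def StConn : Prop :=
  ∀ (Y : Type) [TopologicalSpace Y] [T2Space Y] [CompactSpace Y] [ChartedSpace (Cm 4) Y]
    [IsManifold 𝓘(ℂ, Cm 4) ω Y] (G : Set Y) (_ : IsHyp G) (_ : IsPreconnected G) (B : Set Y)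
    (_ : ThinY (G ∩ B)), G ⊆ closure (G \ B) ∧
      ((∀ y ∈ G \ B, ∃ U, IsOpen U ∧ y ∈ U ∧ U ∩ G ⊆ Bᶜ) → IsPreconnected (G \ B))

/-- (P7) at most `m r` flips have a flipped locus of dimension two. -/
def StP7 : Prop :=
  ∀ (Y : Type) [TopologicalSpace Y] [T2Space Y] [CompactSpace Y] [ChartedSpace (Cm 4) Y]
    [IsManifold 𝓘(ℂ, Cm 4) ω Y] (χ : Chart 4 Y → Cm 4 → Matrix (Fin 4) (Fin 4) ℂ)
    (_ : IsKahler χ) (M : Bd Y) (_ : IsLB 4 M) (_ : Nef χ M) (m : ℕ) (_ : 1 ≤ m)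
    (N : ℕ) (W : CSp) (X Z : ℕ → CSp) (_ : IsNormal 4 (X 0)) (r : ℕ) (v : Y → W.pt)
    (p : W.pt → (X 0).pt) (P : Bd W.pt) (G : Fin r → Set Y) (_ : IsRes v p P G)
    (f : ∀ j, (X j).pt → (Z j).pt) (f' : ∀ j, (X (j + 1)).pt → (Z j).pt)
    (A : ∀ j, Set (Z j).pt) (L : ∀ j, Bd (X j).pt)
    (_ : ∃ c : ℕ, 1 ≤ c ∧ ∃ t, IsCmp (fun y => p (v y)) (L 0)
      ((((Bd.can 4 Y).pow m).mul M).pow c) (⋃ l, G l) t)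
    (_ : ∀ j < N, ∃ p q : ℕ, 1 ≤ p ∧ 1 ≤ q ∧
      IsFlip (X j) (Z j) (X (j + 1)) (f j) (f' j) (A j) ((L j).pow p) ((L (j + 1)).pow q))
    (_ : ∀ j ≤ N, DimLe (X j) 1 {x | ¬ IsReg 4 (X j) x}),
    {j | j < N ∧ ¬ DimLe (X (j + 1)) 1 (f' j ⁻¹' Amin (f j))}.ncard ≤ m * r

/-- (REG) (for the version without the hypothesis of smoothness in codimension two) the spaces `X j`
are smooth in codimension two. -/
def StReg : Prop :=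
  ∀ (Y : Type) [TopologicalSpace Y] [T2Space Y] [CompactSpace Y] [ChartedSpace (Cm 4) Y]
    [IsManifold 𝓘(ℂ, Cm 4) ω Y] (χ : Chart 4 Y → Cm 4 → Matrix (Fin 4) (Fin 4) ℂ)
    (_ : IsKahler χ) (M : Bd Y) (_ : IsLB 4 M) (_ : Nef χ M) (m : ℕ) (_ : 1 ≤ m)
    (N : ℕ) (W : CSp) (X Z : ℕ → CSp) (_ : IsNormal 4 (X 0)) (r : ℕ) (v : Y → W.pt)
    (p : W.pt → (X 0).pt) (P : Bd W.pt) (G : Fin r → Set Y) (_ : IsRes v p P G)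
    (f : ∀ j, (X j).pt → (Z j).pt) (f' : ∀ j, (X (j + 1)).pt → (Z j).pt)
    (A : ∀ j, Set (Z j).pt) (L : ∀ j, Bd (X j).pt)
    (_ : ∃ c : ℕ, 1 ≤ c ∧ ∃ t, IsCmp (fun y => p (v y)) (L 0)
      ((((Bd.can 4 Y).pow m).mul M).pow c) (⋃ l, G l) t)
    (_ : ∀ j < N, ∃ p q : ℕ, 1 ≤ p ∧ 1 ≤ q ∧
      IsFlip (X j) (Z j) (X (j + 1)) (f j) (f' j) (A j) ((L j).pow p) ((L (j + 1)).pow q)),
    ∀ j ≤ N, DimLe (X j) 1 {x | ¬ IsReg 4 (X j) x}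

/-- (T2 s) Theorem T2: there is no infinite sequence of flips starting with a generalized terminal
pair `(X 0, M)` (`B = 0`), `M` nef on the log resolution `Y`. With `s = True` it is assumed that the
`X j` are smooth in codimension two. -/
def StT2 (s : Prop) : Prop :=
  ∀ (Y : Type) [TopologicalSpace Y] [T2Space Y] [CompactSpace Y] [ChartedSpace (Cm 4) Y]
    [IsManifold 𝓘(ℂ, Cm 4) ω Y] (χ : Chart 4 Y → Cm 4 → Matrix (Fin 4) (Fin 4) ℂ)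
    (_ : IsKahler χ) (M : Bd Y) (_ : IsLB 4 M) (_ : Nef χ M) (m : ℕ) (_ : 1 ≤ m)
    (W : CSp) (X Z : ℕ → CSp) (r : ℕ) (v : Y → W.pt)
    (p : W.pt → (X 0).pt) (P : Bd W.pt) (G : Fin r → Set Y) (_ : IsRes v p P G)
    (f : ∀ j, (X j).pt → (Z j).pt) (f' : ∀ j, (X (j + 1)).pt → (Z j).pt)
    (A : ∀ j, Set (Z j).pt) (L : ∀ j, Bd (X j).pt)
    (_ : ∃ c : ℕ, 1 ≤ c ∧ ∃ t, IsCmp (fun y => p (v y)) (L 0)
      ((((Bd.can 4 Y).pow m).mul M).pow c) (⋃ l, G l) t)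
    (_ : ∀ j, ∃ p q : ℕ, 1 ≤ p ∧ 1 ≤ q ∧
      IsFlip (X j) (Z j) (X (j + 1)) (f j) (f' j) (A j) ((L j).pow p) ((L (j + 1)).pow q))
    (_ : s → ∀ j, DimLe (X j) 1 {x | ¬ IsReg 4 (X j) x}), False

end Vale.Agent.P277.T2
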