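import Vale.Agent.P277.Stmts5
import Vale.Agent.P277.Stmts6
import Vale.Agent.P277.H29.PH.Defs

/-!
# P277, Theorem T3 (boundary): the statements of the topological half (contracted surfaces in the
strict transforms of a smooth hypersurface `H ⊆ Y`)
-/

open scoped Manifold ContDiff Topology
open Vale.Agent.P272.K Vale.Agent.P285.H281.FD Vale.Agent.P267.H175 Set Metric Filter
open Vale.Agent.P277.PH

noncomputable section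

namespace Vale.Agent.P277.T3

section
variable {M : Type} [TopologicalSpace M]

/-- `S ⊆ M` is covered by countably many holomorphic images of open subsets of `ℂ^k`. -/
def ThinM (n k : ℕ) [ChartedSpace (Cm n) M] (S : Set M) : Prop :=
  ∃ (Ω : ℕ → Set (Cm k)) (g : ℕ → Cm k → M), (∀ l, IsOpen (Ω l)) ∧
    (∀ l, ∀ p ∈ Ω l, ContinuousAt (g l) p ∧
      ∀ e : Chart n M, At e (g l p) → AnalyticAt ℂ (fun p => e (g l p)) p) ∧ S ⊆ ⋃ l, g l '' Ω l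

/-- `E` is near `y` a smooth hypersurface through `y`. -/
def IsHypAt (n : ℕ) [ChartedSpace (Cm n) M] (E : Set M) (y : M) : Prop :=
  ∃ e : Chart n M, At e y ∧ ∃ g : Cm n → ℂ, AnalyticAt ℂ g (e y) ∧ g (e y) = 0 ∧
    fderiv ℂ g (e y) ≠ 0 ∧ ∀ᶠ y' in 𝓝 y, y' ∈ E ↔ g (e y') = 0

/-- `E` is near `y` the set of common zeros of finitely many holomorphic functions. -/
def IsAnAt (n : ℕ) [ChartedSpace (Cm n) M] (E : Set M) (y : M) : Prop :=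
  ∃ (k : ℕ) (h : Fin k → M → ℂ), (∀ i, HolF n (h i) y) ∧ ∀ᶠ y' in 𝓝 y, y' ∈ E ↔ ∀ i, h i y' = 0

/-- `w` is near `y` equal to `log ‖h‖` up to a bounded function, `h` holomorphic with zero set
`D`. -/
def LogAt (n : ℕ) [ChartedSpace (Cm n) M] (D : Set M) (w : M → ℝ) (y : M) : Prop :=
  ∃ (h : M → ℂ) (C : ℝ), HolF n h y ∧ (∃ᶠ y' in 𝓝 y, h y' ≠ 0) ∧
    ∀ᶠ y' in 𝓝 y, (y' ∈ D ↔ h y' = 0) ∧ (y' ∉ D → |w y' - Real.log ‖h y'‖| ≤ C)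

/-- the function `u` on `O \ D ⊆ M` is bounded near the point `x` of `X`, through `b : M → X` -/
def BdAt {T : Type} [TopologicalSpace T] (O D : Set M) (b : M → T) (u : M → ℝ) (x : T) : Prop :=
  ∃ C : ℝ, ∀ᶠ x' in 𝓝 x, ∀ y ∈ O, y ∉ D → b y = x' → |u y| ≤ C

end

/-! ### HYP: generic smoothness of hypersurfaces -/

/-- (HYP) a nowhere dense analytic subset of a threefold is a smooth hypersurface outside a set of
dimension `≤ 1`. -/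
def StHyp : Prop :=
  ∀ (H : Type) [TopologicalSpace H] [T2Space H] [SecondCountableTopology H] [Nonempty H]
    [ChartedSpace (Cm 3) H] [IsManifold 𝓘(ℂ, Cm 3) ω H] (U E : Set H) (_ : IsOpen U)
    (_ : ∀ y ∈ U, IsAnAt 3 E y) (_ : U ⊆ closure Eᶜ),
    ThinM 3 1 {y | y ∈ U ∧ y ∈ E ∧ ¬ IsHypAt 3 E y}

/-! ### GL: maps from threefolds lift through flips outside sets of dimension one -/

/-- `q : H → X` is holomorphic outside the closed set `Θ` of dimension `≤ 1`. -/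
structure QMap {H : Type} [TopologicalSpace H] [ChartedSpace (Cm 3) H] (X : CSp) (Θ : Set H)
    (q : H → X.pt) : Prop where
  closed : IsClosed Θ
  thin : ThinM 3 1 Θ
  cont : ∀ y ∉ Θ, ContinuousAt q y
  holo : ∀ y ∉ Θ, ∀ g : X.pt → ℂ, X.Hol g (q y) → HolF 3 (fun y => g (q y)) y

/-- (GL) -/
def StLift : Prop :=
  ∀ (H : Type) [TopologicalSpace H] [T2Space H] [SecondCountableTopology H]
    [ChartedSpace (Cm 3) H] [IsManifold 𝓘(ℂ, Cm 3) ω H]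
    (X Z X' : CSp) (f : X.pt → Z.pt) (f' : X'.pt → Z.pt) (A : Set Z.pt) (L : Bd X.pt)
    (L' : Bd X'.pt) (_ : IsFlip X Z X' f f' A L L') (Θ : Set H) (q : H → X.pt) (_ : QMap X Θ q)
    (_ : Dense {y | y ∉ Θ ∧ f (q y) ∉ A}),
    ∃ (Θ' : Set H) (q' : H → X'.pt), QMap X' Θ' q' ∧ Θ ⊆ Θ' ∧ (∀ y ∉ Θ', f' (q' y) = f (q y)) ∧
      ∀ y ∉ Θ, f (q y) ∉ A → y ∉ Θ'

/-! ### CL: closures of hypersurfaces -/

/-- (CL) the closure of a smooth hypersurface of the complement of a closed set of dimension `≤ 1`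
in a compact threefold is the zero set of a section of a line bundle. -/
def StCl : Prop :=
  ∀ (H : Type) [TopologicalSpace H] [T2Space H] [CompactSpace H]
    [ChartedSpace (Cm 3) H] [IsManifold 𝓘(ℂ, Cm 3) ω H] (Θ E : Set H) (_ : IsClosed Θ)
    (_ : ThinM 3 1 Θ) (_ : Disjoint E Θ) (_ : IsClosed (E ∪ Θ)) (_ : ∀ y ∈ E, IsHypAt 3 E y),
    ∃ (L : Bd H) (s : L.ι → H → ℂ), IsLB 3 L ∧ IsSec 3 L s ∧
      ∀ i, ∀ y ∈ L.U i, (s i y = 0 ↔ y ∈ closure E) ∧ ∃ᶠ y' in 𝓝 y, s i y' ≠ 0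

/-! ### PLACE: Puiseux parametrisation of hypersurfaces of `ℂ⁴` along a surface -/

/-- Near `x`, the hypersurface `{σ = 0}` outside `{z 0 = z 1 = 0}` is covered by the images of the
holomorphic maps `γ k` (from a ball of `ℂ³`, with coordinates `w 0`, `w 1 = z 2`, `w 2 = z 3`). -/
def PlaceAt (σ : Cm 4 → ℂ) (x : Cm 4) : Prop :=
  ∃ (d : ℕ) (r : ℝ) (γ : Fin d → Cm 3 → Cm 4), 0 < r ∧
    (∀ k, ∀ w ∈ ball (![0, x 2, x 3] : Cm 3) r, AnalyticAt ℂ (γ k) w ∧ σ (γ k w) = 0 ∧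
      γ k w 2 = w 1 ∧ γ k w 3 = w 2 ∧ (w 0 = 0 ↔ γ k w 0 = 0 ∧ γ k w 1 = 0)) ∧
    ∀ x' ∈ ball x r, x' 0 = 0 → x' 1 = 0 → ∀ ε > 0, ∀ᶠ y in 𝓝 x', σ y = 0 →
      ¬ (y 0 = 0 ∧ y 1 = 0) → ∃ k, ∃ w ∈ ball (![0, x' 2, x' 3] : Cm 3) ε, γ k w = y

/-- (PLACE) -/
def StPlace : Prop :=
  ∀ (D : Set (Cm 4)) (_ : IsOpen D) (σ : Cm 4 → ℂ) (_ : ∀ z ∈ D, AnalyticAt ℂ σ z)
    (_ : ∀ z ∈ D, ¬ σ =ᶠ[𝓝 z] 0),
    ∃ (Ω : ℕ → Set (Cm 1)) (g : ℕ → Cm 1 → Cm 4), (∀ l, IsOpen (Ω l)) ∧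
      (∀ l, ∀ p ∈ Ω l, AnalyticAt ℂ (g l) p) ∧
      {x | x ∈ D ∧ x 0 = 0 ∧ x 1 = 0 ∧ ¬ PlaceAt σ x} ⊆ ⋃ l, g l '' Ω l

/-! ### LIFTS: wedges of `X` lift to `Y` outside thin sets -/

section
variable {Y : Type} [TopologicalSpace Y] [ChartedSpace (Cm 4) Y]

/-- Near `w` the map `γ` from `ℂ⁴` to `X` lifts to a holomorphic map to `Y`. -/
def LiftAt {X : CSp} (O : Set Y) (v : Y → X.pt) (γ : Cm 4 → X.pt) (w : Cm 4) : Prop :=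
  ∃ γ₀ : Cm 4 → Y, ContinuousAt γ₀ w ∧
    (∀ e : Chart 4 Y, At e (γ₀ w) → AnalyticAt ℂ (fun w => e (γ₀ w)) w) ∧
    ∀ᶠ w' in 𝓝 w, γ w' ∈ v '' O → γ₀ w' ∈ O ∧ v (γ₀ w') = γ w'

/-- The wedges of `X` lift to `Y` outside thin sets. -/
def Lifts (X : CSp) (O : Set Y) (v : Y → X.pt) : Prop :=
  ∀ (W : Set (Cm 4)) (_ : IsOpen W) (γ : Cm 4 → X.pt) (_ : ∀ w ∈ W, HolAt X γ w)
    (_ : W ⊆ closure {w | w ∈ W ∧ γ w ∈ v '' O}),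
    ∃ (Ω : ℕ → Set (Cm 2)) (g : ℕ → Cm 2 → Cm 4), (∀ l, IsOpen (Ω l)) ∧
      (∀ l, ∀ p ∈ Ω l, AnalyticAt ℂ (g l) p) ∧
      {w | w ∈ W ∧ w 0 = 0 ∧ ¬ LiftAt O v γ w} ⊆ ⋃ l, g l '' Ω l

end

/-- (LIFTS 0) for a log resolution `Y → X` -/
def StLifts0 : Prop :=
  ∀ (Y : Type) [TopologicalSpace Y] [T2Space Y] [CompactSpace Y] [ChartedSpace (Cm 4) Y]
    [IsManifold 𝓘(ℂ, Cm 4) ω Y] (W X : CSp) (_ : IsNormal 4 X) (r : ℕ) (v : Y → W.pt)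
    (p : W.pt → X.pt) (P : Bd W.pt) (G : Fin r → Set Y) (_ : T2.IsRes v p P G),
    Lifts X (⋃ l, G l)ᶜ (fun y => p (v y))

/-- (LIFTS 1) through a flip -/
def StLifts1 : Prop :=
  ∀ (Y : Type) [TopologicalSpace Y] [T2Space Y] [CompactSpace Y] [ChartedSpace (Cm 4) Y]
    [IsManifold 𝓘(ℂ, Cm 4) ω Y] (X Z X' : CSp) (f : X.pt → Z.pt) (f' : X'.pt → Z.pt)
    (A : Set Z.pt) (L : Bd X.pt) (L' : Bd X'.pt) (_ : IsFlip X Z X' f f' A L L') (O : Set Y)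
    (v : Y → X.pt) (_ : IsOpenEmb X O v) (_ : DimLe X 2 (v '' O)ᶜ) (_ : Lifts X O v) (O' : Set Y)
    (v' : Y → X'.pt) (_ : IsOpenEmb X' O' v') (_ : O' = O \ v ⁻¹' (f ⁻¹' A))
    (_ : ∀ y ∈ O', f' (v' y) = f (v y)), Lifts X' O' v'

/-! ### EX: the finitely many linear conditions at the extracted surfaces -/

/-- `ι : H → Y` is a closed holomorphic embedding. -/
structure IsSub {H Y : Type} [TopologicalSpace H] [TopologicalSpace Y] [ChartedSpace (Cm 3) H]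
    [ChartedSpace (Cm 4) Y] (ι : H → Y) : Prop where
  cont : Continuous ι
  inj : Function.Injective ι
  holo : ∀ (y : H) (e : Chart 3 H) (e' : Chart 4 Y), At e y → At e' (ι y) →
    AnalyticAt ℂ (fun z => e' (ι (e.symm z))) (e y) ∧
      Function.Injective (fderiv ℂ (fun z => e' (ι (e.symm z))) (e y))

/-- (EX0) on the threefold itself. -/
def StEx0 : Prop :=
  ∀ (H : Type) [TopologicalSpace H] [T2Space H] [CompactSpace H] [Nonempty H]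
    [ChartedSpace (Cm 3) H] [IsManifold 𝓘(ℂ, Cm 3) ω H] (S : Set H)
    (_ : ∀ y, IsAnAt 3 S y) (_ : Dense Sᶜ),
    ∃ K : ℕ, ∀ (N : ℕ) (D : Fin N → Set H) (w : Fin N → H → ℝ) (_ : ∀ i y, LogAt 3 (D i) (w i) y),
      ∃ Λ : (Fin N → ℝ) →ₗ[ℝ] (Fin K → ℝ), ∀ c, Λ c = 0 →
        ThinM 3 1 {y | y ∈ S ∧ ¬ BdAt univ (⋃ i, D i) id (fun y => ∑ i, c i * w i y) y}

/-- (EX) on the strict transform `B` of `H` in `X`, at the surface `S ⊆ B`. -/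
def StEx : Prop :=
  ∀ (Y : Type) [TopologicalSpace Y] [T2Space Y] [CompactSpace Y] [ChartedSpace (Cm 4) Y]
    [IsManifold 𝓘(ℂ, Cm 4) ω Y] (H : Type) [TopologicalSpace H] [T2Space H] [CompactSpace H]
    [ChartedSpace (Cm 3) H] [IsManifold 𝓘(ℂ, Cm 3) ω H] (ι : H → Y) (_ : IsSub ι)
    (X : CSp) (O : Set Y) (v : Y → X.pt) (_ : IsOpenEmb X O v) (_ : DimLe X 2 (v '' O)ᶜ)
    (_ : Lifts X O v) (B : Set X.pt) (_ : IsClosed B)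
    (_ : ∀ x, ∃ σ, X.Hol σ x ∧ ∀ᶠ x' in 𝓝 x, x' ∈ B ↔ σ x' = 0)
    (_ : ∀ y ∈ O, v y ∈ B ↔ y ∈ range ι) (S : Set X.pt) (_ : IsAn X univ S) (_ : DimLe X 2 S)
    (_ : S ⊆ B) (_ : S ⊆ (v '' O)ᶜ) (_ : DimLe X 1 {x | x ∈ S ∧ ¬ IsReg 4 X x}),
    ∃ K : ℕ, ∀ (N : ℕ) (D : Fin N → Set H) (w : Fin N → H → ℝ) (_ : ∀ i y, LogAt 3 (D i) (w i) y),
      ∃ Λ : (Fin N → ℝ) →ₗ[ℝ] (Fin K → ℝ), ∀ c, Λ c = 0 →
        DimLe X 1 {x | x ∈ S ∧ ¬ BdAt (ι ⁻¹' O) (⋃ i, D i) (fun y => v (ι y))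
          (fun y => ∑ i, c i * w i y) x}

/-! ### the result -/

/-- The common open subsets `O j` of `Y` and of the spaces `X j` of a sequence of flips. -/
structure IsSeq {Y : Type} [TopologicalSpace Y] [ChartedSpace (Cm 4) Y] (X Z : ℕ → CSp)
    (f : ∀ j, (X j).pt → (Z j).pt) (f' : ∀ j, (X (j + 1)).pt → (Z j).pt) (A : ∀ j, Set (Z j).pt)
    (O : ℕ → Set Y) (v : ∀ j, Y → (X j).pt) : Prop where
  emb : ∀ j, IsOpenEmb (X j) (O j) (v j)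
  dim : ∀ j, DimLe (X j) 2 (v j '' O j)ᶜ
  step : ∀ j, O (j + 1) = O j \ v j ⁻¹' (f j ⁻¹' A j)
  comp : ∀ j, ∀ y ∈ O (j + 1), f' j (v (j + 1) y) = f j (v j y)

/-- `B j ⊆ X j` is the strict transform of `H ⊆ Y`; it has local equations. -/
structure IsStr {H Y : Type} [TopologicalSpace Y] (X : ℕ → CSp) (O : ℕ → Set Y)
    (v : ∀ j, Y → (X j).pt) (ι : H → Y) (B : ∀ j, Set (X j).pt) : Prop where
  closed : ∀ j, IsClosed (B j)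
  eqn : ∀ j x, ∃ σ, (X j).Hol σ x ∧ ∀ᶠ x' in 𝓝 x, x' ∈ B j ↔ σ x' = 0
  mem : ∀ j, ∀ y ∈ O j, v j y ∈ B j ↔ y ∈ range ι

/-- (CONTR) if only finitely many flipped surfaces are contained in the strict transforms of `H`,
then only finitely many surfaces of `H` are contracted. -/
def StContr : Prop :=
  ∀ (Y : Type) [TopologicalSpace Y] [T2Space Y] [CompactSpace Y] [ChartedSpace (Cm 4) Y]
    [IsManifold 𝓘(ℂ, Cm 4) ω Y] (W : CSp) (X Z : ℕ → CSp) (r : ℕ) (v₀ : Y → W.pt)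
    (p : W.pt → (X 0).pt) (P : Bd W.pt) (G : Fin r → Set Y) (_ : T2.IsRes v₀ p P G)
    (f : ∀ j, (X j).pt → (Z j).pt) (f' : ∀ j, (X (j + 1)).pt → (Z j).pt)
    (A : ∀ j, Set (Z j).pt) (L : ∀ j, Bd (X j).pt) (L' : ∀ j, Bd (X (j + 1)).pt)
    (_ : ∀ j, IsFlip (X j) (Z j) (X (j + 1)) (f j) (f' j) (A j) (L j) (L' j))
    (O : ℕ → Set Y) (v : ∀ j, Y → (X j).pt) (_ : IsSeq X Z f f' A O v)
    (_ : O 0 = (⋃ l, G l)ᶜ) (_ : v 0 = fun y => p (v₀ y))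
    (H : Type) [TopologicalSpace H] [T2Space H] [CompactSpace H] [ConnectedSpace H]
    [ChartedSpace (Cm 3) H] [IsManifold 𝓘(ℂ, Cm 3) ω H] (ι : H → Y) (_ : IsSub ι)
    (_ : (ι ⁻¹' O 0).Nonempty) (B : ∀ j, Set (X j).pt) (_ : IsStr X O v ι B)
    (_ : ∀ j, DimLe (X (j + 1)) 1 {x | f' j x ∈ A j ∧ x ∈ B (j + 1) ∧ ¬ IsReg 4 (X (j + 1)) x})
    (_ : ∃ J, ∀ j ≥ J, DimLe (X (j + 1)) 1 {x | f' j x ∈ A j ∧ x ∈ B (j + 1)}),
    ∃ J, ∀ j ≥ J, ThinM 3 1 (ι ⁻¹' O j \ ι ⁻¹' O (j + 1))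

end Vale.Agent.P277.T3
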