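import Vale.Agent.P277.Stmts16

/-!
# P277, (G) and (K): which flipped surfaces occur in an infinite sequence of flips of an NQC pair

There are no conditions on the singularities of the pair and on the coefficients. Let `a l` be the
discrepancy of `G l`, and `b i` the coefficient of `H i`. In an infinite sequence of flips there is a
flipped surface `S ⊆ X (j + 1)` such that the place of the blow-up of `S` is exceptional over `Y` and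
centred on `Y` in a `G l` with `a l < 0` or in an `H i` with `b i ≥ 1`, or such that `X (j + 1)` is
singular along `S`, and `S` is
(G) contained in the total transform of the `G l` with `a l < 0` and of the `H i` with `b i > 1`;
(K) the centre of a `G l` with `-1 ≤ a l < 0`, if the `G l` with `a l < 0` and the `H i` are disjoint,
`a l ≥ -1` and `b i ≤ 1` (in general: for some `l ∈ K`, or as in (G) for `l ∉ K`).
-/

open scoped Manifold ContDiff Topology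
open Vale.Agent.P272.K Vale.Agent.P285.H281.FD Vale.Agent.P267.H175 Set Metric Filter

noncomputable section

namespace Vale.Agent.P277.T3

/-- The point `y` of `Y \ D` corresponds to the point `x` of `X j`, under the maps
`Y → X 0 ⇢ X 1 ⇢ ⋯ ⇢ X j`: the step `x ∈ X j`, `x' ∈ X (j + 1)` is `f x = f' x'`, and `f` is injective
at `x`. -/
def Cor {Y : Type} {X Z : ℕ → CSp} (D : Set Y) (v : Y → (X 0).pt) (f : ∀ j, (X j).pt → (Z j).pt)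
    (f' : ∀ j, (X (j + 1)).pt → (Z j).pt) : ∀ j, Y → (X j).pt → Prop
  | 0, y, x => y ∉ D ∧ v y = x
  | j + 1, y, x' => ∃ x, Cor D v f f' j y x ∧ f j x = f' j x' ∧ f j x ∉ Amin (f j)

section

variable {Y : Type} [TopologicalSpace Y] [ChartedSpace (Cm 4) Y] {X : CSp}

/-- Near the point `x ∈ S` the place `E` of the blow-up of the surface `S` is exceptional over `Y`, and
centred in `Bad`. Here `ξ` is a coordinate system of `X` with `ξ {z | z 0 = z 1 = 0} ⊆ S`, `bl` is the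
blow-up of `{z | z 0 = z 1 = 0}`, with the exceptional divisor `{w | w 0 = 0}`, and `γ` is the
extension to `W` of the correspondence `Cr` between the points of `Y` and of `X`. -/
def BadPt (S : Set X.pt) (Cr : Y → X.pt → Prop) (Bad : Set Y) (x : X.pt) : Prop :=
  ∃ (ξ : Cm 4 → X.pt) (r : ℝ) (W : Set (Cm 4)) (w₀ : Cm 4) (γ : Cm 4 → Y) (ch : Chart 4 Y),
    0 < r ∧ InjOn ξ (ball 0 r) ∧ (∀ W ⊆ ball 0 r, IsOpen W → IsOpen (ξ '' W)) ∧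
    (∀ z ∈ ball (0 : Cm 4) r, ContinuousAt ξ z ∧
      ∀ f : X.pt → ℂ, X.Hol f (ξ z) ↔ AnalyticAt ℂ (f ∘ ξ) z) ∧
    (∀ z ∈ ball (0 : Cm 4) r, z 0 = 0 → z 1 = 0 → ξ z ∈ S) ∧
    IsOpen W ∧ w₀ ∈ W ∧ w₀ 0 = 0 ∧ ξ (bl w₀) = x ∧
    ∀ w ∈ W, bl w ∈ ball (0 : Cm 4) r ∧ (∀ y, Cr y (ξ (bl w)) → γ w = y) ∧
      ContinuousAt γ w ∧ At ch (γ w) ∧ AnalyticAt ℂ (fun w => ch (γ w)) w ∧
      (w 0 = 0 → γ w ∈ Bad ∧ (fderiv ℂ (fun w => ch (γ w)) w).det = 0)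

/-- the total transform in `X` of the set `B ⊆ Y`, under the closure of the correspondence `Cr` -/
def Tot (Cr : Y → X.pt → Prop) (B : Set Y) : Set X.pt :=
  {x | ∃ y ∈ B, (y, x) ∈ closure {q : Y × X.pt | Cr q.1 q.2}}

/-- the values `x ∈ X` of the correspondence `Cr` at the points `y ∈ B` where it is continuous -/
def Val (Cr : Y → X.pt → Prop) (B : Set Y) : Set X.pt :=
  {x | ∃ y ∈ B, ∀ U ∈ 𝓝 x, ∀ᶠ y' in 𝓝 y, ∀ x', Cr y' x' → x' ∈ U}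

end

/-- A sequence of flips starting with an NQC generalized pair `(X 0, B + M)` (no conditions on the
singularities and the coefficients). -/
structure IsPG {Y : Type} [TopologicalSpace Y] [ChartedSpace (Cm 4) Y]
    (χ : Chart 4 Y → Cm 4 → Matrix (Fin 4) (Fin 4) ℂ) {k s : ℕ} (M : Fin (k + s) → Bd Y)
    (m : Fin (k + s) → ℕ) (ρ : Fin (k + s) → ℝ) {H : Fin s → Type} [∀ i, TopologicalSpace (H i)]
    [∀ i, ChartedSpace (Cm 3) (H i)] (ι : ∀ i, H i → Y)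
    (sg : ∀ i : Fin s, (M (Fin.natAdd k i)).ι → Y → ℂ) {W : CSp} {X Z : ℕ → CSp} {r : ℕ}
    (v₀ : Y → W.pt) (p : W.pt → (X 0).pt) (P : Bd W.pt) (G : Fin r → Set Y)
    (f : ∀ j, (X j).pt → (Z j).pt) (f' : ∀ j, (X (j + 1)).pt → (Z j).pt)
    (A : ∀ j, Set (Z j).pt) (L : ∀ j, Fin (k + s) → Bd (X j).pt) (c : ℕ → Fin (k + s) → ℕ)
    (σ : ∀ j, ∀ i : Fin s, (L j (Fin.natAdd k i)).ι → (X j).pt → ℂ)
    (n : Fin (k + s) → Fin r → ℤ) (t : ∀ e, (L 0 e).ι →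
      ((((Bd.can 4 Y).pow (m e)).mul (M e)).pow (c 0 e)).ι → Y → ℂ) :
    Prop where
  kahler : IsKahler χ
  lb : ∀ e, IsLB 4 (M e)
  nef : ∀ e : Fin k, Nef χ (M (Fin.castAdd s e))
  pos : ∀ e : Fin k, 1 ≤ m (Fin.castAdd s e)
  m0 : ∀ i : Fin s, m (Fin.natAdd k i) = 0
  rho : ∀ e, 0 < ρ e
  sum : ∑ e, ρ e * m e = 1
  bd : ∀ i, IsBd (ι i) (M (Fin.natAdd k i)) (sg i)
  disj : Pairwise fun i j => Disjoint (range (ι i)) (range (ι j))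
  res : T2.IsRes v₀ p P G
  ne : ∀ i, ¬ range (ι i) ⊆ ⋃ l, G l
  c1 : ∀ j e, 1 ≤ c j e
  cmp : T2.IsCmpV (fun y => p (v₀ y)) (L 0)
    (fun e => (((Bd.can 4 Y).pow (m e)).mul (M e)).pow (c 0 e)) G n t
  corr : ∀ i a ch b y, y ∉ ⋃ l, G l → p (v₀ y) ∈ (L 0 (Fin.natAdd k i)).U a → At ch y →
    y ∈ (M (Fin.natAdd k i)).U b →
      σ 0 i a (p (v₀ y)) * t (Fin.natAdd k i) a (ch, b) y = sg i b y ^ c 0 (Fin.natAdd k i)
  flip : ∀ j, IsFlipB (X j) (Z j) (X (j + 1)) (f j) (f' j) (A j) (L j) (L (j + 1)) (c j)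
    (c (j + 1)) ρ (σ j) (σ (j + 1))

/-- (T4G) There is no infinite sequence of flips such that the generic points of the flipped surfaces
are regular points, and the places of the blow-ups of the flipped surfaces, if exceptional over `Y`,
are not centred in the `G l` with `l ∈ I` or in the `H i` with `i ∈ I'`. -/
def StT4G : Prop :=
  ∀ (Y : Type) [TopologicalSpace Y] [T2Space Y] [CompactSpace Y] [ChartedSpace (Cm 4) Y]
    [IsManifold 𝓘(ℂ, Cm 4) ω Y] (χ : Chart 4 Y → Cm 4 → Matrix (Fin 4) (Fin 4) ℂ) (k s : ℕ)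
    (M : Fin (k + s) → Bd Y) (m : Fin (k + s) → ℕ) (ρ : Fin (k + s) → ℝ) (H : Fin s → Type)
    [∀ i, TopologicalSpace (H i)] [∀ i, T2Space (H i)] [∀ i, CompactSpace (H i)]
    [∀ i, ConnectedSpace (H i)] [∀ i, ChartedSpace (Cm 3) (H i)]
    [∀ i, IsManifold 𝓘(ℂ, Cm 3) ω (H i)] (ι : ∀ i, H i → Y)
    (sg : ∀ i : Fin s, (M (Fin.natAdd k i)).ι → Y → ℂ) (W : CSp) (X Z : ℕ → CSp) (r : ℕ)
    (v₀ : Y → W.pt) (p : W.pt → (X 0).pt) (P : Bd W.pt) (G : Fin r → Set Y)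
    (f : ∀ j, (X j).pt → (Z j).pt) (f' : ∀ j, (X (j + 1)).pt → (Z j).pt)
    (A : ∀ j, Set (Z j).pt) (L : ∀ j, Fin (k + s) → Bd (X j).pt) (c : ℕ → Fin (k + s) → ℕ)
    (σ : ∀ j, ∀ i : Fin s, (L j (Fin.natAdd k i)).ι → (X j).pt → ℂ)
    (n : Fin (k + s) → Fin r → ℤ) (t : ∀ e, (L 0 e).ι →
      ((((Bd.can 4 Y).pow (m e)).mul (M e)).pow (c 0 e)).ι → Y → ℂ)
    (_ : IsPG χ M m ρ ι sg v₀ p P G f f' A L c σ n t)
    (I : Set (Fin r)) (I' : Set (Fin s)) (_ : ∀ l ∉ I, 0 ≤ ∑ e, ρ e * n e l / c 0 e)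
    (_ : ∀ i ∉ I', ρ (Fin.natAdd k i) < 1)
    (_ : ∀ j, DimLe (X (j + 1)) 1 {x | x ∈ f' j ⁻¹' Amin (f j) ∧ ¬ IsReg 4 (X (j + 1)) x})
    (_ : ∀ j, DimLe (X (j + 1)) 1 {x | BadPt (f' j ⁻¹' Amin (f j))
      (Cor (⋃ l, G l) (fun y => p (v₀ y)) f f' (j + 1)) (bad ι G I I') x}), False

/-- (REGG) the generic points of the flipped surfaces are regular points, if this is true for the
surfaces in the total transform of the `G l`, `l ∈ I`, and the `H i`, `i ∈ I'`. -/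
def StRegG : Prop :=
  ∀ (Y : Type) [TopologicalSpace Y] [T2Space Y] [CompactSpace Y] [ChartedSpace (Cm 4) Y]
    [IsManifold 𝓘(ℂ, Cm 4) ω Y] (χ : Chart 4 Y → Cm 4 → Matrix (Fin 4) (Fin 4) ℂ) (k s : ℕ)
    (M : Fin (k + s) → Bd Y) (m : Fin (k + s) → ℕ) (ρ : Fin (k + s) → ℝ) (H : Fin s → Type)
    [∀ i, TopologicalSpace (H i)] [∀ i, T2Space (H i)] [∀ i, CompactSpace (H i)]
    [∀ i, ConnectedSpace (H i)] [∀ i, ChartedSpace (Cm 3) (H i)]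
    [∀ i, IsManifold 𝓘(ℂ, Cm 3) ω (H i)] (ι : ∀ i, H i → Y)
    (sg : ∀ i : Fin s, (M (Fin.natAdd k i)).ι → Y → ℂ) (W : CSp) (X Z : ℕ → CSp) (r : ℕ)
    (v₀ : Y → W.pt) (p : W.pt → (X 0).pt) (P : Bd W.pt) (G : Fin r → Set Y)
    (f : ∀ j, (X j).pt → (Z j).pt) (f' : ∀ j, (X (j + 1)).pt → (Z j).pt)
    (A : ∀ j, Set (Z j).pt) (L : ∀ j, Fin (k + s) → Bd (X j).pt) (c : ℕ → Fin (k + s) → ℕ)
    (σ : ∀ j, ∀ i : Fin s, (L j (Fin.natAdd k i)).ι → (X j).pt → ℂ)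
    (n : Fin (k + s) → Fin r → ℤ) (t : ∀ e, (L 0 e).ι →
      ((((Bd.can 4 Y).pow (m e)).mul (M e)).pow (c 0 e)).ι → Y → ℂ)
    (_ : IsPG χ M m ρ ι sg v₀ p P G f f' A L c σ n t)
    (I : Set (Fin r)) (I' : Set (Fin s)) (_ : ∀ l ∉ I, 0 ≤ ∑ e, ρ e * n e l / c 0 e)
    (_ : ∀ i ∉ I', ρ (Fin.natAdd k i) ≤ 1)
    (_ : ∀ j, DimLe (X (j + 1)) 1 {x | x ∈ f' j ⁻¹' Amin (f j) ∧ ¬ IsReg 4 (X (j + 1)) x ∧
      x ∈ Tot (Cor (⋃ l, G l) (fun y => p (v₀ y)) f f' (j + 1)) (bad ι G I I')}),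
    ∀ j, DimLe (X (j + 1)) 1 {x | x ∈ f' j ⁻¹' Amin (f j) ∧ ¬ IsReg 4 (X (j + 1)) x}

/-- (REGK) The generic points of the flipped surfaces are regular points, if this is true for the
surfaces in the total transform of the `G l`, `l ∈ I`, and the `H i`, `i ∈ I'`, and for the surfaces
in the centres of the `G l`, `l ∈ K`. -/
def StRegK : Prop :=
  ∀ (Y : Type) [TopologicalSpace Y] [T2Space Y] [CompactSpace Y] [ChartedSpace (Cm 4) Y]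
    [IsManifold 𝓘(ℂ, Cm 4) ω Y] (χ : Chart 4 Y → Cm 4 → Matrix (Fin 4) (Fin 4) ℂ) (k s : ℕ)
    (M : Fin (k + s) → Bd Y) (m : Fin (k + s) → ℕ) (ρ : Fin (k + s) → ℝ) (H : Fin s → Type)
    [∀ i, TopologicalSpace (H i)] [∀ i, T2Space (H i)] [∀ i, CompactSpace (H i)]
    [∀ i, ConnectedSpace (H i)] [∀ i, ChartedSpace (Cm 3) (H i)]
    [∀ i, IsManifold 𝓘(ℂ, Cm 3) ω (H i)] (ι : ∀ i, H i → Y)
    (sg : ∀ i : Fin s, (M (Fin.natAdd k i)).ι → Y → ℂ) (W : CSp) (X Z : ℕ → CSp) (r : ℕ)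
    (v₀ : Y → W.pt) (p : W.pt → (X 0).pt) (P : Bd W.pt) (G : Fin r → Set Y)
    (f : ∀ j, (X j).pt → (Z j).pt) (f' : ∀ j, (X (j + 1)).pt → (Z j).pt)
    (A : ∀ j, Set (Z j).pt) (L : ∀ j, Fin (k + s) → Bd (X j).pt) (c : ℕ → Fin (k + s) → ℕ)
    (σ : ∀ j, ∀ i : Fin s, (L j (Fin.natAdd k i)).ι → (X j).pt → ℂ)
    (n : Fin (k + s) → Fin r → ℤ) (t : ∀ e, (L 0 e).ι →
      ((((Bd.can 4 Y).pow (m e)).mul (M e)).pow (c 0 e)).ι → Y → ℂ)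
    (_ : IsPG χ M m ρ ι sg v₀ p P G f f' A L c σ n t)
    (I K : Set (Fin r)) (I' : Set (Fin s))
    (_ : ∀ l, l ∉ I → l ∉ K → 0 ≤ ∑ e, ρ e * n e l / c 0 e)
    (_ : ∀ i ∉ I', ρ (Fin.natAdd k i) ≤ 1) (_ : ∀ l ∈ K, -1 ≤ ∑ e, ρ e * n e l / c 0 e)
    (_ : ∀ l ∈ K, ∀ l' ∈ K, l ≠ l' → Disjoint (G l) (G l'))
    (_ : ∀ l ∈ K, ∀ i ∉ I', Disjoint (G l) (range (ι i)))
    (_ : ∀ j, DimLe (X (j + 1)) 1 {x | x ∈ f' j ⁻¹' Amin (f j) ∧ ¬ IsReg 4 (X (j + 1)) x ∧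
      (x ∈ Tot (Cor (⋃ l, G l) (fun y => p (v₀ y)) f f' (j + 1)) (bad ι G I I') ∨
        x ∈ closure (Val (Cor (⋃ l, G l) (fun y => p (v₀ y)) f f' (j + 1)) (⋃ l ∈ K, G l)))}),
    ∀ j, DimLe (X (j + 1)) 1 {x | x ∈ f' j ⁻¹' Amin (f j) ∧ ¬ IsReg 4 (X (j + 1)) x}

/-- (P7G) Let `β` be a real number. If the surfaces of `H μ` are eventually not contracted, for all
`μ ∉ I'` with `b μ > β`, then the flipped surfaces are eventually not contained in `B ν`, for all `ν`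
with `b ν ≥ β`, and, if `β ≤ 0`, there are eventually no flipped surfaces. -/
def StP7G : Prop :=
  ∀ (Y : Type) [TopologicalSpace Y] [T2Space Y] [CompactSpace Y] [ChartedSpace (Cm 4) Y]
    [IsManifold 𝓘(ℂ, Cm 4) ω Y] (χ : Chart 4 Y → Cm 4 → Matrix (Fin 4) (Fin 4) ℂ) (k s : ℕ)
    (M : Fin (k + s) → Bd Y) (m : Fin (k + s) → ℕ) (ρ : Fin (k + s) → ℝ) (H : Fin s → Type)
    [∀ i, TopologicalSpace (H i)] [∀ i, T2Space (H i)] [∀ i, CompactSpace (H i)]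
    [∀ i, ConnectedSpace (H i)] [∀ i, ChartedSpace (Cm 3) (H i)]
    [∀ i, IsManifold 𝓘(ℂ, Cm 3) ω (H i)] (ι : ∀ i, H i → Y)
    (sg : ∀ i : Fin s, (M (Fin.natAdd k i)).ι → Y → ℂ) (W : CSp) (X Z : ℕ → CSp) (r : ℕ)
    (v₀ : Y → W.pt) (p : W.pt → (X 0).pt) (P : Bd W.pt) (G : Fin r → Set Y)
    (f : ∀ j, (X j).pt → (Z j).pt) (f' : ∀ j, (X (j + 1)).pt → (Z j).pt)
    (A : ∀ j, Set (Z j).pt) (L : ∀ j, Fin (k + s) → Bd (X j).pt) (c : ℕ → Fin (k + s) → ℕ)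
    (σ : ∀ j, ∀ i : Fin s, (L j (Fin.natAdd k i)).ι → (X j).pt → ℂ)
    (n : Fin (k + s) → Fin r → ℤ) (t : ∀ e, (L 0 e).ι →
      ((((Bd.can 4 Y).pow (m e)).mul (M e)).pow (c 0 e)).ι → Y → ℂ)
    (_ : IsPG χ M m ρ ι sg v₀ p P G f f' A L c σ n t)
    (I : Set (Fin r)) (I' : Set (Fin s)) (_ : ∀ l ∉ I, 0 ≤ ∑ e, ρ e * n e l / c 0 e)
    (_ : ∀ i ∉ I', ρ (Fin.natAdd k i) < 1)
    (_ : ∀ j, DimLe (X (j + 1)) 1 {x | x ∈ f' j ⁻¹' Amin (f j) ∧ ¬ IsReg 4 (X (j + 1)) x})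
    (_ : ∀ j, DimLe (X (j + 1)) 1 {x | BadPt (f' j ⁻¹' Amin (f j))
      (Cor (⋃ l, G l) (fun y => p (v₀ y)) f f' (j + 1)) (bad ι G I I') x})
    (O : ℕ → Set Y) (v : ∀ j, Y → (X j).pt) (_ : IsSeq X Z f f' (fun j => Amin (f j)) O v)
    (_ : O 0 = (⋃ l, G l)ᶜ) (_ : v 0 = fun y => p (v₀ y)) (β : ℝ)
    (_ : ∀ μ : Fin s, μ ∉ I' → β < ρ (Fin.natAdd k μ) →
      ∃ J, ∀ j ≥ J, ThinM 3 1 (ι μ ⁻¹' O j \ ι μ ⁻¹' O (j + 1))),
    ∃ J, ∀ j ≥ J, DimLe (X (j + 1)) 1 {x | x ∈ f' j ⁻¹' Amin (f j) ∧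
      (β ≤ 0 ∨ ∃ ν : Fin s, β ≤ ρ (Fin.natAdd k ν) ∧
        x ∈ zer (L (j + 1) (Fin.natAdd k ν)) (σ (j + 1) ν))}

/-- (T4GF) In every infinite sequence of flips of `K + B + M`, starting with an NQC generalized pair
`(X 0, B + M)` (no condition on the singularities and the coefficients), there is a flipped surface
`S ⊆ X (j + 1)` such that
(1) the place of the blow-up of `S` is exceptional over `Y`, and centred in a `G l` with negative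
discrepancy or in an `H i` with `b i ≥ 1`, or
(2) `X (j + 1)` is singular along `S`, and `S` is contained in the total transform of the `G l` with
negative discrepancy and of the `H i` with `b i > 1`. -/
def StT4GF : Prop :=
  ∀ (Y : Type) [TopologicalSpace Y] [T2Space Y] [CompactSpace Y] [ChartedSpace (Cm 4) Y]
    [IsManifold 𝓘(ℂ, Cm 4) ω Y] (χ : Chart 4 Y → Cm 4 → Matrix (Fin 4) (Fin 4) ℂ)
    (_ : IsKahler χ) (k s : ℕ) (M : Fin (k + s) → Bd Y) (_ : ∀ e, IsLB 4 (M e))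
    (_ : ∀ e : Fin k, Nef χ (M (Fin.castAdd s e))) (m : Fin (k + s) → ℕ)
    (_ : ∀ e : Fin k, 1 ≤ m (Fin.castAdd s e)) (_ : ∀ i : Fin s, m (Fin.natAdd k i) = 0)
    (ρ : Fin (k + s) → ℝ) (_ : ∀ e, 0 < ρ e) (_ : ∑ e, ρ e * m e = 1) (H : Fin s → Type)
    [∀ i, TopologicalSpace (H i)] [∀ i, T2Space (H i)] [∀ i, CompactSpace (H i)]
    [∀ i, ConnectedSpace (H i)] [∀ i, ChartedSpace (Cm 3) (H i)]
    [∀ i, IsManifold 𝓘(ℂ, Cm 3) ω (H i)] (ι : ∀ i, H i → Y)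
    (sg : ∀ i : Fin s, (M (Fin.natAdd k i)).ι → Y → ℂ)
    (_ : ∀ i, IsBd (ι i) (M (Fin.natAdd k i)) (sg i))
    (_ : Pairwise fun i j => Disjoint (range (ι i)) (range (ι j)))
    (W : CSp) (X Z : ℕ → CSp) (r : ℕ) (v : Y → W.pt) (p : W.pt → (X 0).pt) (P : Bd W.pt)
    (G : Fin r → Set Y) (_ : T2.IsRes v p P G) (_ : ∀ i, ¬ range (ι i) ⊆ ⋃ l, G l)
    (f : ∀ j, (X j).pt → (Z j).pt) (f' : ∀ j, (X (j + 1)).pt → (Z j).pt)
    (A : ∀ j, Set (Z j).pt) (L : ∀ j, Fin (k + s) → Bd (X j).pt) (c : ℕ → Fin (k + s) → ℕ)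
    (_ : ∀ j e, 1 ≤ c j e) (n : Fin (k + s) → Fin r → ℤ)
    (_ : ∃ t, T2.IsCmpV (fun y => p (v y)) (L 0)
      (fun e => (((Bd.can 4 Y).pow (m e)).mul (M e)).pow (c 0 e)) G n t)
    (_ : ∀ j, IsFlipR (X j) (Z j) (X (j + 1)) (f j) (f' j) (A j) (L j) (L (j + 1)) (c j)
      (c (j + 1)) ρ)
    (_ : ∀ j, DimLe (X (j + 1)) 1 {x | f' j x ∈ Amin (f j) ∧ ¬ IsReg 4 (X (j + 1)) x ∧
      x ∈ Tot (Cor (⋃ l, G l) (fun y => p (v y)) f f' (j + 1))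
        (bad ι G {l | ∑ e, ρ e * n e l / c 0 e < 0} {i | 1 < ρ (Fin.natAdd k i)})})
    (_ : ∀ j, DimLe (X (j + 1)) 1 {x | BadPt {x | f' j x ∈ Amin (f j)}
      (Cor (⋃ l, G l) (fun y => p (v y)) f f' (j + 1))
      (bad ι G {l | ∑ e, ρ e * n e l / c 0 e < 0} {i | 1 ≤ ρ (Fin.natAdd k i)}) x}), False

/-- (T4KF) In every infinite sequence of flips of `K + B + M`, starting with an NQC generalized pair
`(X 0, B + M)` (no condition on the singularities and the coefficients), there is a flipped surface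
`S ⊆ X (j + 1)` such that
(1) the place of the blow-up of `S` is exceptional over `Y`, and centred in a `G l` with negative
discrepancy or in an `H i` with `b i ≥ 1`, or
(2) `X (j + 1)` is singular along `S`, and `S` is the centre of a `G l` with `l ∈ K`, or is contained
in the total transform of the `G l` with negative discrepancy and `l ∉ K`, and of the `H i` with
`b i > 1`.
Here the `G l` with `l ∈ K` have discrepancy `≥ -1`, and they are disjoint from each other and from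
the `H i` with `b i ≤ 1`. -/
def StT4KF : Prop :=
  ∀ (Y : Type) [TopologicalSpace Y] [T2Space Y] [CompactSpace Y] [ChartedSpace (Cm 4) Y]
    [IsManifold 𝓘(ℂ, Cm 4) ω Y] (χ : Chart 4 Y → Cm 4 → Matrix (Fin 4) (Fin 4) ℂ)
    (_ : IsKahler χ) (k s : ℕ) (M : Fin (k + s) → Bd Y) (_ : ∀ e, IsLB 4 (M e))
    (_ : ∀ e : Fin k, Nef χ (M (Fin.castAdd s e))) (m : Fin (k + s) → ℕ)
    (_ : ∀ e : Fin k, 1 ≤ m (Fin.castAdd s e)) (_ : ∀ i : Fin s, m (Fin.natAdd k i) = 0)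
    (ρ : Fin (k + s) → ℝ) (_ : ∀ e, 0 < ρ e) (_ : ∑ e, ρ e * m e = 1) (H : Fin s → Type)
    [∀ i, TopologicalSpace (H i)] [∀ i, T2Space (H i)] [∀ i, CompactSpace (H i)]
    [∀ i, ConnectedSpace (H i)] [∀ i, ChartedSpace (Cm 3) (H i)]
    [∀ i, IsManifold 𝓘(ℂ, Cm 3) ω (H i)] (ι : ∀ i, H i → Y)
    (sg : ∀ i : Fin s, (M (Fin.natAdd k i)).ι → Y → ℂ)
    (_ : ∀ i, IsBd (ι i) (M (Fin.natAdd k i)) (sg i))
    (_ : Pairwise fun i j => Disjoint (range (ι i)) (range (ι j)))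
    (W : CSp) (X Z : ℕ → CSp) (r : ℕ) (v : Y → W.pt) (p : W.pt → (X 0).pt) (P : Bd W.pt)
    (G : Fin r → Set Y) (_ : T2.IsRes v p P G) (_ : ∀ i, ¬ range (ι i) ⊆ ⋃ l, G l)
    (f : ∀ j, (X j).pt → (Z j).pt) (f' : ∀ j, (X (j + 1)).pt → (Z j).pt)
    (A : ∀ j, Set (Z j).pt) (L : ∀ j, Fin (k + s) → Bd (X j).pt) (c : ℕ → Fin (k + s) → ℕ)
    (_ : ∀ j e, 1 ≤ c j e) (n : Fin (k + s) → Fin r → ℤ)
    (_ : ∃ t, T2.IsCmpV (fun y => p (v y)) (L 0)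
      (fun e => (((Bd.can 4 Y).pow (m e)).mul (M e)).pow (c 0 e)) G n t)
    (_ : ∀ j, IsFlipR (X j) (Z j) (X (j + 1)) (f j) (f' j) (A j) (L j) (L (j + 1)) (c j)
      (c (j + 1)) ρ)
    (K : Set (Fin r)) (_ : ∀ l ∈ K, -1 ≤ ∑ e, ρ e * n e l / c 0 e)
    (_ : ∀ l ∈ K, ∀ l' ∈ K, l ≠ l' → Disjoint (G l) (G l'))
    (_ : ∀ l ∈ K, ∀ i, ρ (Fin.natAdd k i) ≤ 1 → Disjoint (G l) (range (ι i)))
    (_ : ∀ j, DimLe (X (j + 1)) 1 {x | f' j x ∈ Amin (f j) ∧ ¬ IsReg 4 (X (j + 1)) x ∧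
      (x ∈ Tot (Cor (⋃ l, G l) (fun y => p (v y)) f f' (j + 1))
        (bad ι G {l | l ∉ K ∧ ∑ e, ρ e * n e l / c 0 e < 0} {i | 1 < ρ (Fin.natAdd k i)}) ∨
      x ∈ closure (Val (Cor (⋃ l, G l) (fun y => p (v y)) f f' (j + 1)) (⋃ l ∈ K, G l)))})
    (_ : ∀ j, DimLe (X (j + 1)) 1 {x | BadPt {x | f' j x ∈ Amin (f j)}
      (Cor (⋃ l, G l) (fun y => p (v y)) f f' (j + 1))
      (bad ι G {l | ∑ e, ρ e * n e l / c 0 e < 0} {i | 1 ≤ ρ (Fin.natAdd k i)}) x}), False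

end Vale.Agent.P277.T3
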