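import Vale.Agent.P277.Stmts19
import Vale.Agent.P277.Stmts20

/-!
# P277, Theorem T5 with (G) and (K): flips which are nonpositive for a second NQC pair

The flips of `D = K + B + M` are also the flips of `D t = t D + (1 - t) (K + Δ + N)`, for
`0 < t < 1`, if `K + Δ + N` is nonpositive for these flips. We consider the flipped surfaces for the
NQC generalized pair with divisor `D t`. If the discrepancies of `(X 0, Δ + N)` are `> 0`, and the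
coefficients of `Δ` are `< 1`, then this is also true for `D t`, for small `t`.
-/

open scoped Manifold ContDiff Topology
open Vale.Agent.P272.K Vale.Agent.P285.H281.FD Vale.Agent.P267.H175 Set Metric Filter

noncomputable section

namespace Vale.Agent.P277.T3

/-- (T5G) the theorem `StT5K` with `K = ∅` -/
def StT5G : Prop :=
  ∀ (Y : Type) [TopologicalSpace Y] [T2Space Y] [CompactSpace Y] [ChartedSpace (Cm 4) Y]
    [IsManifold 𝓘(ℂ, Cm 4) ω Y] (χ : Chart 4 Y → Cm 4 → Matrix (Fin 4) (Fin 4) ℂ)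
    (_ : IsKahler χ) (k s : ℕ) (M : Fin (k + s) → Bd Y) (_ : ∀ e, IsLB 4 (M e))
    (_ : ∀ e : Fin k, Nef χ (M (Fin.castAdd s e))) (m : Fin (k + s) → ℕ)
    (_ : ∀ e : Fin k, 1 ≤ m (Fin.castAdd s e)) (_ : ∀ i : Fin s, m (Fin.natAdd k i) = 0)
    (ρ σ : Fin (k + s) → ℝ) (_ : ∀ e, 0 ≤ ρ e) (_ : ∀ e, 0 ≤ σ e) (_ : ∀ e, 0 < ρ e + σ e)
    (_ : ∑ e, ρ e * m e = 1) (_ : ∑ e, σ e * m e = 1) (H : Fin s → Type)
    [∀ i, TopologicalSpace (H i)] [∀ i, T2Space (H i)] [∀ i, CompactSpace (H i)]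
    [∀ i, ConnectedSpace (H i)] [∀ i, ChartedSpace (Cm 3) (H i)]
    [∀ i, IsManifold 𝓘(ℂ, Cm 3) ω (H i)] (ι : ∀ i, H i → Y)
    (sg : ∀ i : Fin s, (M (Fin.natAdd k i)).ι → Y → ℂ)
    (_ : ∀ i, IsBd (ι i) (M (Fin.natAdd k i)) (sg i))
    (_ : Pairwise fun i j => Disjoint (range (ι i)) (range (ι j)))
    (W : CSp) (X Z : ℕ → CSp) (r : ℕ) (v : Y → W.pt) (p : W.pt → (X 0).pt) (P : Bd W.pt)
    (G : Fin r → Set Y) (_ : T2.IsRes v p P G) (_ : ∀ i, ¬ range (ι i) ⊆ ⋃ l, G l)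
    (f : ∀ j, (X j).pt → (Z j).pt) (f' : ∀ j, (X (j + 1)).pt → (Z j).pt)
    (A : ∀ j, Set (Z j).pt) (L : ∀ j, Fin (k + s) → Bd (X j).pt) (c : ℕ → Fin (k + s) → ℕ)
    (_ : ∀ j e, 1 ≤ c j e) (n : Fin (k + s) → Fin r → ℤ)
    (_ : ∃ t, T2.IsCmpV (fun y => p (v y)) (L 0)
      (fun e => (((Bd.can 4 Y).pow (m e)).mul (M e)).pow (c 0 e)) G n t)
    (_ : ∀ j, IsFlipR (X j) (Z j) (X (j + 1)) (f j) (f' j) (A j) (L j) (L (j + 1)) (c j)
      (c (j + 1)) ρ)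
    (_ : (∃ lam : ℝ, 0 ≤ lam ∧ IsRTriv (X 0) (L 0) (c 0) fun e => σ e - lam * ρ e) ∨
      ∀ j, IsRSemi (X j) (Z j) (f j) (L j) (c j) (fun e => -σ e) ∧
        IsRSemi (X (j + 1)) (Z j) (f' j) (L (j + 1)) (c (j + 1)) σ)
    (t : ℝ) (_ : 0 < t) (_ : t < 1) (τ : Fin (k + s) → ℝ)
    (_ : ∀ e, τ e = t * ρ e + (1 - t) * σ e)
    (_ : ∀ j, DimLe (X (j + 1)) 1 {x | f' j x ∈ Amin (f j) ∧ ¬ IsReg 4 (X (j + 1)) x ∧
      x ∈ Tot (Cor (⋃ l, G l) (fun y => p (v y)) f f' (j + 1))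
        (bad ι G {l | ∑ e, τ e * n e l / c 0 e < 0} {i | 1 < τ (Fin.natAdd k i)})})
    (_ : ∀ j, DimLe (X (j + 1)) 1 {x | BadPt {x | f' j x ∈ Amin (f j)}
      (Cor (⋃ l, G l) (fun y => p (v y)) f f' (j + 1))
      (bad ι G {l | ∑ e, τ e * n e l / c 0 e < 0} {i | 1 ≤ τ (Fin.natAdd k i)}) x}), False

/-- (T5K) Let `(X 0, B + M)` and `(X 0, Δ + N)` be any NQC generalized pairs (no conditions on the
singularities and the coefficients), with `D = K + B + M = ∑ e, ρ e • D e` and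
`K + Δ + N = ∑ e, σ e • D e`, and let `0 < t < 1`. We consider an infinite sequence of flips of `D`
which are nonpositive for `K + Δ + N`: `-(K + Δ + N)` is `f j`-semiample and its strict transform on
`X (j + 1)` is `f' j`-semiample with the opposite sign. This is true for all flips of `D` if
`K + Δ + N ∼_ℝ λ D` with a real number `λ ≥ 0`. Let `τ = t ρ + (1 - t) σ`, let `a l` be the
discrepancy of `G l` for the divisor `∑ e, τ e • D e`, and `b i` the coefficient `τ` of `H i`. Then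
there is a flipped surface `S ⊆ X (j + 1)` such that
(1) the place of the blow-up of `S` is exceptional over `Y`, and centred in a `G l` with `a l < 0` or
in an `H i` with `b i ≥ 1`, or
(2) `X (j + 1)` is singular along `S`, and `S` is the centre of a `G l` with `l ∈ K`, or is contained
in the total transform of the `G l` with `a l < 0` and `l ∉ K`, and of the `H i` with `b i > 1`.
Here the `G l` with `l ∈ K` have `a l ≥ -1`, and they are disjoint from each other and from the `H i`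
with `b i ≤ 1`. -/
def StT5K : Prop :=
  ∀ (Y : Type) [TopologicalSpace Y] [T2Space Y] [CompactSpace Y] [ChartedSpace (Cm 4) Y]
    [IsManifold 𝓘(ℂ, Cm 4) ω Y] (χ : Chart 4 Y → Cm 4 → Matrix (Fin 4) (Fin 4) ℂ)
    (_ : IsKahler χ) (k s : ℕ) (M : Fin (k + s) → Bd Y) (_ : ∀ e, IsLB 4 (M e))
    (_ : ∀ e : Fin k, Nef χ (M (Fin.castAdd s e))) (m : Fin (k + s) → ℕ)
    (_ : ∀ e : Fin k, 1 ≤ m (Fin.castAdd s e)) (_ : ∀ i : Fin s, m (Fin.natAdd k i) = 0)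
    (ρ σ : Fin (k + s) → ℝ) (_ : ∀ e, 0 ≤ ρ e) (_ : ∀ e, 0 ≤ σ e) (_ : ∀ e, 0 < ρ e + σ e)
    (_ : ∑ e, ρ e * m e = 1) (_ : ∑ e, σ e * m e = 1) (H : Fin s → Type)
    [∀ i, TopologicalSpace (H i)] [∀ i, T2Space (H i)] [∀ i, CompactSpace (H i)]
    [∀ i, ConnectedSpace (H i)] [∀ i, ChartedSpace (Cm 3) (H i)]
    [∀ i, IsManifold 𝓘(ℂ, Cm 3) ω (H i)] (ι : ∀ i, H i → Y)
    (sg : ∀ i : Fin s, (M (Fin.natAdd k i)).ι → Y → ℂ)
    (_ : ∀ i, IsBd (ι i) (M (Fin.natAdd k i)) (sg i))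
    (_ : Pairwise fun i j => Disjoint (range (ι i)) (range (ι j)))
    (W : CSp) (X Z : ℕ → CSp) (r : ℕ) (v : Y → W.pt) (p : W.pt → (X 0).pt) (P : Bd W.pt)
    (G : Fin r → Set Y) (_ : T2.IsRes v p P G) (_ : ∀ i, ¬ range (ι i) ⊆ ⋃ l, G l)
    (f : ∀ j, (X j).pt → (Z j).pt) (f' : ∀ j, (X (j + 1)).pt → (Z j).pt)
    (A : ∀ j, Set (Z j).pt) (L : ∀ j, Fin (k + s) → Bd (X j).pt) (c : ℕ → Fin (k + s) → ℕ)
    (_ : ∀ j e, 1 ≤ c j e) (n : Fin (k + s) → Fin r → ℤ)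
    (_ : ∃ t, T2.IsCmpV (fun y => p (v y)) (L 0)
      (fun e => (((Bd.can 4 Y).pow (m e)).mul (M e)).pow (c 0 e)) G n t)
    (_ : ∀ j, IsFlipR (X j) (Z j) (X (j + 1)) (f j) (f' j) (A j) (L j) (L (j + 1)) (c j)
      (c (j + 1)) ρ)
    (_ : (∃ lam : ℝ, 0 ≤ lam ∧ IsRTriv (X 0) (L 0) (c 0) fun e => σ e - lam * ρ e) ∨
      ∀ j, IsRSemi (X j) (Z j) (f j) (L j) (c j) (fun e => -σ e) ∧
        IsRSemi (X (j + 1)) (Z j) (f' j) (L (j + 1)) (c (j + 1)) σ)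
    (t : ℝ) (_ : 0 < t) (_ : t < 1) (τ : Fin (k + s) → ℝ)
    (_ : ∀ e, τ e = t * ρ e + (1 - t) * σ e)
    (K : Set (Fin r)) (_ : ∀ l ∈ K, -1 ≤ ∑ e, τ e * n e l / c 0 e)
    (_ : ∀ l ∈ K, ∀ l' ∈ K, l ≠ l' → Disjoint (G l) (G l'))
    (_ : ∀ l ∈ K, ∀ i, τ (Fin.natAdd k i) ≤ 1 → Disjoint (G l) (range (ι i)))
    (_ : ∀ j, DimLe (X (j + 1)) 1 {x | f' j x ∈ Amin (f j) ∧ ¬ IsReg 4 (X (j + 1)) x ∧
      (x ∈ Tot (Cor (⋃ l, G l) (fun y => p (v y)) f f' (j + 1))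
        (bad ι G {l | l ∉ K ∧ ∑ e, τ e * n e l / c 0 e < 0} {i | 1 < τ (Fin.natAdd k i)}) ∨
      x ∈ closure (Val (Cor (⋃ l, G l) (fun y => p (v y)) f f' (j + 1)) (⋃ l ∈ K, G l)))})
    (_ : ∀ j, DimLe (X (j + 1)) 1 {x | BadPt {x | f' j x ∈ Amin (f j)}
      (Cor (⋃ l, G l) (fun y => p (v y)) f f' (j + 1))
      (bad ι G {l | ∑ e, τ e * n e l / c 0 e < 0} {i | 1 ≤ τ (Fin.natAdd k i)}) x}), False

end Vale.Agent.P277.T3
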