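import Vale.Agent.P277.Stmts3
import Vale.Agent.P277.H619.Reg
import Vale.Agent.P267.H928.Int.Stokes
import Mathlib.MeasureTheory.Measure.Hausdorff

/-!
# P277: statements of the packages for the tail of Theorem T2 (blueprint)

Forms on noncompact complex manifolds of dimension four, the rank of the intersection pairing on
closed forms with compact support, and its behaviour under flips.
-/

set_option maxSynthPendingDepth 3

open scoped Manifold ContDiff Topology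
open Vale.Agent.P272.K Vale.Agent.P285.H281.FD Vale.Agent.P267.H175 Set
open Vale.Agent.P267.H928.Int ContinuousAlternatingMap

noncomputable section

namespace Vale.Agent.P277

/-! ### PR: the pairing -/

section wedge

variable (E : Type) [NormedAddCommGroup E] [NormedSpace ℝ E]

/-- The wedge product, as a continuous bilinear map: `(p + 1) a ∧ b = ∑ eᵢ* ∧ (ι_{eᵢ} a ∧ b)`. -/
def wdgL : (p q : ℕ) → (E [⋀^Fin p]→L[ℝ] ℝ) →L[ℝ] (E [⋀^Fin q]→L[ℝ] ℝ) →L[ℝ]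
    (E [⋀^Fin (q + p)]→L[ℝ] ℝ)
  | 0, _ => (ContinuousLinearMap.lsmul ℝ ℝ).comp (evL (Fin.elim0 : Fin 0 → E))
  | p + 1, q => ((p + 1 : ℝ)⁻¹) •
      ((ContinuousLinearMap.compL ℝ (E [⋀^Fin q]→L[ℝ] ℝ) (E →L[ℝ] (E [⋀^Fin (q + p)]→L[ℝ] ℝ))
          (E [⋀^Fin (q + p + 1)]→L[ℝ] ℝ) (alternatizeUncurryFinCLM ℝ E ℝ)).comp
        (((ContinuousLinearMap.flipₗᵢ ℝ E (E [⋀^Fin q]→L[ℝ] ℝ) (E [⋀^Fin (q + p)]→L[ℝ]
              ℝ)).toContinuousLinearEquiv : _ →L[ℝ] _).comp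
          ((ContinuousLinearMap.compL ℝ E (E [⋀^Fin p]→L[ℝ] ℝ)
            ((E [⋀^Fin q]→L[ℝ] ℝ) →L[ℝ] (E [⋀^Fin (q + p)]→L[ℝ] ℝ)) (wdgL p q)).comp
            (curryLeftLI (𝕜 := ℝ) (E := E) (F := ℝ) (n := p)).toContinuousLinearMap)))

variable {E}

/-- The wedge product `a ∧ b`. -/
def wdg {p q : ℕ} (a : E [⋀^Fin p]→L[ℝ] ℝ) (b : E [⋀^Fin q]→L[ℝ] ℝ) : E [⋀^Fin (q + p)]→L[ℝ] ℝ :=
  wdgL E p q a b

/-- (PR0) the characterization of the wedge product, and commutativity. -/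
def StWdg : Prop :=
  (∀ (q : ℕ) (b : Cm 4 [⋀^Fin q]→L[ℝ] ℝ) (a : Cm 4 [⋀^Fin 0]→L[ℝ] ℝ),
    wdg a b = a Fin.elim0 • b) ∧
  (∀ (p q : ℕ) (l : Cm 4 →L[ℝ] ℝ) (a : Cm 4 [⋀^Fin p]→L[ℝ] ℝ) (b : Cm 4 [⋀^Fin q]→L[ℝ] ℝ),
    wdg (wedge1 l a) b = wedge1 l (wdg a b)) ∧
  ∀ a b : Cm 4 [⋀^Fin 4]→L[ℝ] ℝ, wdg a b = wdg b a

end wedge

/-- Closed smooth forms with compact support in `U`. -/
structure CCF {k : ℕ} {M : Type} [TopologicalSpace M] [ChartedSpace (Cm 4) M] (U : Set M)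
    (a : Fm k M) : Prop where
  sm : ∀ y, SmAt a y
  closed : ∀ y, dF a y = 0
  cpt : ∃ C ⊆ U, IsCompact C ∧ ∀ y ∉ C, a y = 0

instance instSMcx (M : Type) [TopologicalSpace M] [ChartedSpace (Cm 4) M]
    [IsManifold 𝓘(ℂ, Cm 4) ω M] : IsManifold 𝓘(ℝ, Cm 4) ∞ M := isManifold_real

instance instPosAtlas (M : Type) [TopologicalSpace M] [ChartedSpace (Cm 4) M]
    [IsManifold 𝓘(ℂ, Cm 4) ω M] : PosAtlas (Cm 4) M := posAtlas_complex

/-- the standard real basis of `ℂ⁴` -/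
def stdB : Module.Basis (Fin 8) ℝ (Cm 4) :=
  ((Pi.basis fun _ : Fin 4 => Complex.basisOneI).reindex
    ((Equiv.sigmaEquivProd (Fin 4) (Fin 2)).trans finProdFinEquiv) :)

/-- The integral of an `8`-form. -/
def intM (M : Type) [TopologicalSpace M] [T2Space M] [SecondCountableTopology M]
    [ChartedSpace (Cm 4) M] [IsManifold 𝓘(ℂ, Cm 4) ω M] (a : Fm 8 M) : ℝ :=
  letI : MeasurableSpace M := borel M
  haveI : BorelSpace M := ⟨rfl⟩
  haveI : LocallyCompactSpace M := ChartedSpace.locallyCompactSpace (Cm 4) M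
  intForm MeasureTheory.volume (exists_pou (E := Cm 4) (M := M)).some stdB
    (show Form (Cm 4) ℝ 8 M from a)

/-- The pairing of `4`-forms. -/
def pr (M : Type) [TopologicalSpace M] [T2Space M] [SecondCountableTopology M]
    [ChartedSpace (Cm 4) M] [IsManifold 𝓘(ℂ, Cm 4) ω M] (a b : Fm 4 M) : ℝ :=
  intM M fun y => wdg (a y) (b y)

/-- (PR1) properties of the pairing. -/
structure PairProps (M : Type) [TopologicalSpace M] [T2Space M] [SecondCountableTopology M]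
    [ChartedSpace (Cm 4) M] [IsManifold 𝓘(ℂ, Cm 4) ω M] : Prop where
  add : ∀ (a a' b : Fm 4 M) (C : Set M), IsCompact C → (∀ y, SmAt a y ∧ SmAt a' y ∧ SmAt b y) →
    (∀ y ∉ C, b y = 0) → pr M (a + a') b = pr M a b + pr M a' b
  smul : ∀ (c : ℝ) (a b : Fm 4 M), pr M (c • a) b = c * pr M a b
  comm : ∀ a b : Fm 4 M, pr M a b = pr M b a
  congr : ∀ a a' b : Fm 4 M, (∀ y, b y = 0 ∨ a y = a' y) → pr M a b = pr M a' b
  stokes : ∀ (β : Fm 3 M) (b : Fm 4 M) (C : Set M), IsCompact C → (∀ y, SmAt β y) →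
    (∀ y, SmAt b y ∧ dF b y = 0) → ((∀ y ∉ C, β y = 0) ∨ ∀ y ∉ C, b y = 0) → pr M (dF β) b = 0

/-- (PR1) -/
def StPair : Prop :=
  ∀ (M : Type) [TopologicalSpace M] [T2Space M] [SecondCountableTopology M]
    [ChartedSpace (Cm 4) M] [IsManifold 𝓘(ℂ, Cm 4) ω M], PairProps M

/-- The rank of the pairing on closed forms with compact support in `U` is at most `ρ`. -/
def RankOn (M : Type) [TopologicalSpace M] [T2Space M] [SecondCountableTopology M]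
    [ChartedSpace (Cm 4) M] [IsManifold 𝓘(ℂ, Cm 4) ω M] (U : Set M) (ρ : ℕ) : Prop :=
  ∀ (n : ℕ) (a b : Fin n → Fm 4 M), (∀ i, CCF U (a i)) → (∀ i, CCF U (b i)) →
    (Matrix.of fun i j => pr M (a i) (b j)).rank ≤ ρ

/-- (PR2) compact manifolds. -/
def StRkCpt : Prop :=
  ∀ (M : Type) [TopologicalSpace M] [T2Space M] [SecondCountableTopology M] [CompactSpace M]
    [ChartedSpace (Cm 4) M] [IsManifold 𝓘(ℂ, Cm 4) ω M], ∃ ρ, RankOn M univ ρ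

/-- (PR3) transfer: `φ` is a biholomorphic map of the open set `U ⊆ M` onto the open set
`U' ⊆ M'`, with inverse `ψ`. -/
def StXfer : Prop :=
  ∀ (M : Type) [TopologicalSpace M] [T2Space M] [SecondCountableTopology M]
    [ChartedSpace (Cm 4) M] [IsManifold 𝓘(ℂ, Cm 4) ω M]
    (M' : Type) [TopologicalSpace M'] [T2Space M'] [SecondCountableTopology M']
    [ChartedSpace (Cm 4) M'] [IsManifold 𝓘(ℂ, Cm 4) ω M'] (U : Set M) (U' : Set M')
    (φ : M → M') (ψ : M' → M), IsOpen U → IsOpen U' → ContinuousOn φ U → ContinuousOn ψ U' →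
    MapsTo φ U U' → MapsTo ψ U' U → LeftInvOn ψ φ U → RightInvOn ψ φ U' →
    (∀ y ∈ U, ∀ (e : Chart 4 M) (e' : Chart 4 M'), At e y → At e' (φ y) →
      AnalyticAt ℂ (fun z => e' (φ (e.symm z))) (e y)) →
    (∀ y ∈ U', ∀ (e : Chart 4 M) (e' : Chart 4 M'), At e (ψ y) → At e' y →
      AnalyticAt ℂ (fun z => e (ψ (e'.symm z))) (e' y)) →
    ∀ ρ, RankOn M' U' ρ → RankOn M U ρ

/-- `p : W → X` is a modification (resolution of singularities) of `X` by the compact manifold `W`,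
an isomorphism over the open set `p '' O` whose complement has dimension `≤ 2`; the complement of
`O` in `W` is negligible. -/
structure IsRes (W : Type) [TopologicalSpace W] [ChartedSpace (Cm 4) W] (X : CSp) (p : W → X.pt)
    (O : Set W) : Prop where
  cont : Continuous p
  holo : ∀ w, ∀ e : Chart 4 W, At e w → ∀ g : X.pt → ℂ, X.Hol g (p w) →
    AnalyticAt ℂ (fun z => g (p (e.symm z))) (e w)
  emb : IsOpenEmb X O p
  fib : ∀ w, p w ∈ p '' O → w ∈ O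
  dim : DimLe X 2 (p '' O)ᶜ
  null : ∀ e ∈ atlas (Cm 4) W, MeasureTheory.volume (e '' (e.source \ O)) = 0

/-- (PR4) the regular locus of `X` and a resolution of `X`. -/
def StRkRes : Prop :=
  ∀ (W : Type) [TopologicalSpace W] [T2Space W] [CompactSpace W] [SecondCountableTopology W]
    [ChartedSpace (Cm 4) W] [IsManifold 𝓘(ℂ, Cm 4) ω W] (X : CSp) (p : W → X.pt) (O : Set W),
    IsRes W X p O → ∀ ρ, RankOn W univ ρ → RankOn (RegT X) univ ρ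

/-! ### noncompact versions of D and F -/

/-- (D') -/
def StD' : Prop :=
  ∀ (Y : Type) [TopologicalSpace Y] [T2Space Y] [SecondCountableTopology Y]
    [ChartedSpace (Cm 4) Y]
    [IsManifold 𝓘(ℂ, Cm 4) ω Y] (X Z X' : CSp) (f : X.pt → Z.pt) (f' : X'.pt → Z.pt)
    (A : Set Z.pt) (L : Bd X.pt) (L' : Bd X'.pt) (_ : IsFlip X Z X' f f' A L L')
    (O : Set Y) (v : Y → X.pt) (_ : IsOpenEmb X O v) (_ : DimLe X 1 (v '' O)ᶜ)
    (_ : DimLe X' 1 (f' ⁻¹' A)),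
    ∃ (P Q : Bd X.pt) (G : Set X.pt) (s s' : P.ι → X.pt → ℂ) (σ σ' : Q.ι → X.pt → ℂ) (x₀ : X.pt),
      FlipOut X O v P Q G s s' σ σ' x₀ ∧ G ∩ Zs Q σ ∩ Zs Q σ' ⊆ f ⁻¹' A

/-- (F') -/
def StF' : Prop :=
  ∀ (Y : Type) [TopologicalSpace Y] [T2Space Y] [SecondCountableTopology Y]
    [ChartedSpace (Cm 4) Y]
    [IsManifold 𝓘(ℂ, Cm 4) ω Y] (X : CSp) (O : Set Y) (v : Y → X.pt) (_ : IsOpenEmb X O v)
    (_ : DimLe X 1 (v '' O)ᶜ) (P Q : Bd X.pt) (G : Set X.pt) (s s' : P.ι → X.pt → ℂ)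
    (σ σ' : Q.ι → X.pt → ℂ) (x₀ : X.pt) (_ : FlipOut X O v P Q G s s' σ σ' x₀),
    ∃ η : Fm 4 Y, CCF O η ∧
      ∀ C ⊆ O, IsCompact C → Disjoint (v '' C) (G ∩ Zs Q σ ∩ Zs Q σ') →
        ∃ θ : Fm 4 Y, CCF O θ ∧ (∀ y ∈ C, θ y = 0) ∧ pr Y θ η ≠ 0

/-- (BLOCK) a block of `N` flips with flipped loci of dimension `≤ 1`. -/
def StBlock : Prop :=
  ∀ (N : ℕ) (X Z : ℕ → CSp) (f : ∀ j, (X j).pt → (Z j).pt)
    (f' : ∀ j, (X (j + 1)).pt → (Z j).pt) (A : ∀ j, Set (Z j).pt) (L : ∀ j, Bd (X j).pt)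
    (L' : ∀ j, Bd (X (j + 1)).pt)
    (_ : ∀ j < N, IsFlip (X j) (Z j) (X (j + 1)) (f j) (f' j) (A j) (L j) (L' j))
    (_ : DimLe (X 0) 1 {x | ¬ IsReg 4 (X 0) x})
    (_ : ∀ j < N, DimLe (X (j + 1)) 1 (f' j ⁻¹' A j)) (ρ : ℕ) (_ : RankOn (RegT (X 0)) univ ρ),
    N ≤ ρ

/-! ### M1: exactness near thin compact sets -/

/-- `S` is `H^s`-negligible in all charts. -/
def Negl (M : Type) [TopologicalSpace M] [ChartedSpace (Cm 4) M] (s : ℕ) (S : Set M) : Prop :=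
  ∀ e ∈ atlas (Cm 4) M, MeasureTheory.Measure.hausdorffMeasure (s : ℝ) (e '' (S ∩ e.source)) = 0

/-- (M1) -/
def StThinLem : Prop :=
  ∀ (M : Type) [TopologicalSpace M] [T2Space M] [SecondCountableTopology M]
    [ChartedSpace (Cm 4) M] [IsManifold 𝓘(ℂ, Cm 4) ω M] (s k : ℕ) (_ : s ≤ k + 1) (K L : Set M)
    (_ : IsCompact K) (_ : IsClosed L) (_ : L ⊆ K) (_ : Negl M s K) (a : Fm (k + 1) M)
    (_ : ∀ᶠ y in 𝓝ˢ K, SmAt a y ∧ dF a y = 0) (_ : ∀ᶠ y in 𝓝ˢ L, a y = 0),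
    ∃ γ : Fm k M, (∀ y, SmAt γ y) ∧ (∀ᶠ y in 𝓝ˢ K, dF γ y = a y) ∧ (∀ᶠ y in 𝓝ˢ L, γ y = 0) ∧
      ∃ C, IsCompact C ∧ ∀ y ∉ C, γ y = 0

/-! ### M2: moving forms away from a surface -/

/-- `S` is near `x` a complex submanifold of codimension two. -/
def IsSurfAt {M : Type} [TopologicalSpace M] [ChartedSpace (Cm 4) M] (S : Set M) (x : M) : Prop :=
  ∃ e : Chart 4 M, At e x ∧ ∃ f g : Cm 4 → ℂ, AnalyticAt ℂ f (e x) ∧ AnalyticAt ℂ g (e x) ∧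
    LinearIndependent ℂ ![fderiv ℂ f (e x), fderiv ℂ g (e x)] ∧
    ∀ᶠ y in 𝓝 x, y ∈ S ↔ f (e y) = 0 ∧ g (e y) = 0

/-- (M2) `k + 1` closed forms with compact support have a nontrivial combination which can be moved
away from `E`. -/
def StMove : Prop :=
  ∀ (M : Type) [TopologicalSpace M] [T2Space M] [SecondCountableTopology M]
    [ChartedSpace (Cm 4) M] [IsManifold 𝓘(ℂ, Cm 4) ω M] (E T : Set M) (_ : IsClosed E)
    (_ : IsClosed T) (_ : T ⊆ E) (_ : Negl M 3 T) (_ : Negl M 5 E) (_ : ∀ x ∈ E \ T, IsSurfAt E x)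
    (k : ℕ) (c : Fin k → M) (_ : ∀ x ∈ E \ T, ∃ i, x ∈ connectedComponentIn (E \ T) (c i))
    (a : Fin (k + 1) → Fm 4 M) (_ : ∀ i, CCF univ (a i)),
    ∃ (t : Fin (k + 1) → ℝ) (γ : Fm 3 M), t ≠ 0 ∧ (∀ y, SmAt γ y) ∧
      (∃ C, IsCompact C ∧ ∀ y ∉ C, γ y = 0) ∧
      ∀ᶠ y in 𝓝ˢ E, (∑ i, t i • a i y) = dF γ y

/-- (STEP) -/
def StStep : Prop :=
  ∀ (M : Type) [TopologicalSpace M] [T2Space M] [SecondCountableTopology M]
    [ChartedSpace (Cm 4) M] [IsManifold 𝓘(ℂ, Cm 4) ω M] (E T : Set M) (_ : IsClosed E)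
    (_ : IsClosed T) (_ : T ⊆ E) (_ : Negl M 3 T) (_ : Negl M 5 E) (_ : ∀ x ∈ E \ T, IsSurfAt E x)
    (k : ℕ) (c : Fin k → M) (_ : ∀ x ∈ E \ T, ∃ i, x ∈ connectedComponentIn (E \ T) (c i))
    (ρ : ℕ) (_ : RankOn M Eᶜ ρ), RankOn M univ (ρ + 2 * k)

/-! ### L: local structure of two-dimensional analytic sets -/

/-- `S ⊆ X` is near `x` a two-dimensional complex manifold: the image of an injective immersion of
an open set of `ℂ²` which is a homeomorphism onto a neighbourhood of `x` in `S`. -/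
def IsSurfX (X : CSp) (S : Set X.pt) (x : X.pt) : Prop :=
  ∃ (Ω : Set (Cm 2)) (g : Cm 2 → X.pt) (u : X.pt → Cm 2), IsOpen Ω ∧ (∀ p ∈ Ω, HolAt X g p) ∧
    x ∈ g '' Ω ∧ (∀ i, ∀ᶠ y in 𝓝 x, X.Hol (fun y => u y i) y) ∧ (∀ p ∈ Ω, u (g p) = p) ∧
    ∀ᶠ y in 𝓝 x, y ∈ S ↔ (u y ∈ Ω ∧ g (u y) = y)

/-- (L1) a two-dimensional analytic set is a manifold outside a set of dimension `≤ 1`. -/
def StL1 : Prop :=
  ∀ (X : CSp) (S : Set X.pt), IsAn X univ S → DimLe X 2 S →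
    DimLe X 1 {x | x ∈ S ∧ ¬ IsSurfX X S x}

/-- (L3) the manifold part of a compact two-dimensional analytic set has finitely many components,
also after removing a closed subset of dimension `≤ 1`. -/
def StL3 : Prop :=
  ∀ (X : CSp) (S T : Set X.pt), IsAn X univ S → DimLe X 2 S → IsClosed T → T ⊆ S → DimLe X 1 T →
    (∀ x ∈ S \ T, IsSurfX X S x) →
    ∃ (k : ℕ) (c : Fin k → X.pt), ∀ x ∈ S \ T, ∃ i, x ∈ connectedComponentIn (S \ T) (c i)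

/-! ### R∞ -/

/-- Theorem R∞: `W → X 0` a resolution; in an infinite sequence of flips of spaces `X j` smooth in
codimension two, infinitely many of the flipped loci have dimension two. -/
def StRinf : Prop :=
  ∀ (W : Type) [TopologicalSpace W] [T2Space W] [CompactSpace W]
    [ChartedSpace (Cm 4) W] [IsManifold 𝓘(ℂ, Cm 4) ω W] (X Z : ℕ → CSp) (p : W → (X 0).pt)
    (O : Set W) (_ : IsRes W (X 0) p O) (f : ∀ j, (X j).pt → (Z j).pt)
    (f' : ∀ j, (X (j + 1)).pt → (Z j).pt) (A : ∀ j, Set (Z j).pt) (L : ∀ j, Bd (X j).pt)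
    (L' : ∀ j, Bd (X (j + 1)).pt)
    (_ : ∀ j, IsFlip (X j) (Z j) (X (j + 1)) (f j) (f' j) (A j) (L j) (L' j))
    (_ : ∀ j, DimLe (X j) 1 {x | ¬ IsReg 4 (X j) x}),
    ∀ n, ∃ j ≥ n, ¬ DimLe (X (j + 1)) 1 (f' j ⁻¹' A j)

end Vale.Agent.P277
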