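import Vale.Agent.P277.Stmts6

/-!
# P277, Theorem T2c (generalized canonical pairs): the statements of the discrepancy half
-/

open scoped Manifold ContDiff Topology
open Vale.Agent.P272.K Vale.Agent.P285.H281.FD Vale.Agent.P267.H175 Set Metric Filter

noncomputable section

namespace Vale.Agent.P277.T2

section
variable {Y : Type} [TopologicalSpace Y] [ChartedSpace (Cm 4) Y]

/-- `t` compares the frames of the line bundles `v^* L` and `M` on `Y` (frame of `L` = `t` times the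
frame of `M`); it is holomorphic, and vanishes only on `D` (it may have no zeros on some components
of `D`). -/
structure IsCmpC {X : CSp} (v : Y → X.pt) (L : Bd X.pt) (M : Bd Y) (D : Set Y)
    (t : L.ι → M.ι → Y → ℂ) : Prop where
  holo : ∀ y i j (e : Chart 4 Y), At e y → v y ∈ L.U i → y ∈ M.U j →
    AnalyticAt ℂ (fun z => t i j (e.symm z)) (e y) ∧ (t i j y = 0 → y ∈ D)
  change : ∀ y i i₁ j j₁, v y ∈ L.U i → v y ∈ L.U i₁ → y ∈ M.U j → y ∈ M.U j₁ →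
    t i₁ j₁ y = L.g i i₁ (v y) * t i j y * M.g j₁ j y

end

/-- (TAc) `StTA` with a weaker hypothesis: the generic points of `S` are regular points of `X`. -/
def StTAc : Prop :=
  ∀ (X : CSp) (S : Set X.pt), IsAn X univ S → DimLe X 2 S → ¬ DimLe X 1 S →
    DimLe X 1 {x | x ∈ S ∧ ¬ IsReg 4 X x} →
    ∃ (ξ : Cm 4 → X.pt) (r : ℝ), 0 < r ∧ InjOn ξ (Metric.ball 0 r) ∧
      (∀ W ⊆ Metric.ball 0 r, IsOpen W → IsOpen (ξ '' W)) ∧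
      (∀ w ∈ Metric.ball (0 : Cm 4) r, ContinuousAt ξ w ∧
        ∀ f : X.pt → ℂ, X.Hol f (ξ w) ↔ AnalyticAt ℂ (f ∘ ξ) w) ∧
      ∀ w ∈ Metric.ball (0 : Cm 4) r, w 0 = 0 → w 1 = 0 → ξ w ∈ S

/-- (TX2c) `StTX2`, where only the generic points of `S` are assumed to be regular points. -/
def StTX2c : Prop :=
  ∀ (Y : Type) [TopologicalSpace Y] [T2Space Y] [CompactSpace Y] [ChartedSpace (Cm 4) Y]
    [IsManifold 𝓘(ℂ, Cm 4) ω Y] (χ : Chart 4 Y → Cm 4 → Matrix (Fin 4) (Fin 4) ℂ)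
    (_ : IsKahler χ) (M : Bd Y) (_ : IsLB 4 M) (_ : Nef χ M) (m : ℕ) (_ : 1 ≤ m)
    (X' : CSp) (_ : IsNormal 4 X')
    (O' : Set Y) (v' : Y → X'.pt) (_ : IsOpenEmb X' O' v') (_ : DimLe X' 2 (v' '' O')ᶜ)
    (S : Set X'.pt) (_ : IsAn X' univ S) (_ : S ⊆ (v' '' O')ᶜ) (_ : ¬ DimLe X' 1 S)
    (_ : DimLe X' 1 {x | x ∈ S ∧ ¬ IsReg 4 X' x})
    (L' : Bd X'.pt) (_ : IsLBx X' L') (Q : ℕ) (_ : 1 ≤ Q)
    (T : L'.ι → ((((Bd.can 4 Y).pow m).mul M).pow Q).ι → Y → ℂ)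
    (_ : IsIsoY O' v' L' ((((Bd.can 4 Y).pow m).mul M).pow Q) T),
    ∃ (W : Set (Cm 4)) (w₀ : Cm 4) (φ : Cm 4 → X'.pt), IsOpen W ∧ w₀ ∈ W ∧ w₀ 0 = 0 ∧
      (∀ w ∈ W, HolAt X' φ w) ∧ (∀ w ∈ W, w 0 = 0 → φ w ∈ S) ∧
      W ⊆ closure {w | w ∈ W ∧ φ w ∈ v' '' O'} ∧
      ∀ w₁ ∈ W, w₁ 0 = 0 → ∀ (γ₀ : Cm 4 → Y) (e : Chart 4 Y) (F : Cm 4 → ℂ) (i : L'.ι)
        (j : ((((Bd.can 4 Y).pow m).mul M).pow Q).ι), ContinuousAt γ₀ w₁ → At e (γ₀ w₁) →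
        AnalyticAt ℂ (fun w => e (γ₀ w)) w₁ →
        (∀ᶠ w in 𝓝 w₁, φ w ∈ v' '' O' → γ₀ w ∈ O' ∧ v' (γ₀ w) = φ w) →
        φ w₁ ∈ L'.U i → γ₀ w₁ ∈ ((((Bd.can 4 Y).pow m).mul M).pow Q).U j → AnalyticAt ℂ F w₁ →
        ∀ K : ℕ, 1 ≤ K → (∀ᶠ w in 𝓝 w₁, γ₀ w ∈ O' → F w = T i j (γ₀ w) ^ K) →
        (∀ᶠ w in 𝓝 w₁, w 0 = 0 → F w = 0) →
        (∃ᶠ w in 𝓝 w₁, w 0 = 0 ∧ (fderiv ℂ (fun w => e (γ₀ w)) w).det ≠ 0) ∧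
        ∀ (ν : ℕ) (Φ : Cm 4 → ℂ), ContinuousAt Φ w₁ → Φ w₁ ≠ 0 →
          (fderiv ℂ (fun w => e (γ₀ w)) w₁).det ≠ 0 →
          (∀ᶠ w in 𝓝 w₁, F w = w 0 ^ ν * Φ w) → Q * K ∣ ν ∧ ν ≤ m * (Q * K)

/-- (REGc) in a sequence of flips which starts with a generalized canonical pair the generic points
of the flipped surfaces are regular points. -/
def StRegC : Prop :=
  ∀ (Y : Type) [TopologicalSpace Y] [T2Space Y] [CompactSpace Y] [ChartedSpace (Cm 4) Y]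
    [IsManifold 𝓘(ℂ, Cm 4) ω Y] (χ : Chart 4 Y → Cm 4 → Matrix (Fin 4) (Fin 4) ℂ)
    (_ : IsKahler χ) (M : Bd Y) (_ : IsLB 4 M) (_ : Nef χ M) (m : ℕ) (_ : 1 ≤ m)
    (N : ℕ) (W : CSp) (X Z : ℕ → CSp) (_ : IsNormal 4 (X 0)) (r : ℕ) (v : Y → W.pt)
    (p : W.pt → (X 0).pt) (P : Bd W.pt) (G : Fin r → Set Y) (_ : IsRes v p P G)
    (f : ∀ j, (X j).pt → (Z j).pt) (f' : ∀ j, (X (j + 1)).pt → (Z j).pt)
    (A : ∀ j, Set (Z j).pt) (L : ∀ j, Bd (X j).pt)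
    (_ : ∃ c : ℕ, 1 ≤ c ∧ ∃ t, IsCmpC (fun y => p (v y)) (L 0)
      ((((Bd.can 4 Y).pow m).mul M).pow c) (⋃ l, G l) t)
    (_ : ∀ j < N, ∃ p q : ℕ, 1 ≤ p ∧ 1 ≤ q ∧
      IsFlip (X j) (Z j) (X (j + 1)) (f j) (f' j) (A j) ((L j).pow p) ((L (j + 1)).pow q)),
    ∀ j < N, DimLe (X (j + 1)) 1 {x | x ∈ f' j ⁻¹' Amin (f j) ∧ ¬ IsReg 4 (X (j + 1)) x}

/-- (P7c) at most `m r` flips have a flipped locus of dimension two. -/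
def StP7c : Prop :=
  ∀ (Y : Type) [TopologicalSpace Y] [T2Space Y] [CompactSpace Y] [ChartedSpace (Cm 4) Y]
    [IsManifold 𝓘(ℂ, Cm 4) ω Y] (χ : Chart 4 Y → Cm 4 → Matrix (Fin 4) (Fin 4) ℂ)
    (_ : IsKahler χ) (M : Bd Y) (_ : IsLB 4 M) (_ : Nef χ M) (m : ℕ) (_ : 1 ≤ m)
    (N : ℕ) (W : CSp) (X Z : ℕ → CSp) (_ : IsNormal 4 (X 0)) (r : ℕ) (v : Y → W.pt)
    (p : W.pt → (X 0).pt) (P : Bd W.pt) (G : Fin r → Set Y) (_ : IsRes v p P G)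
    (f : ∀ j, (X j).pt → (Z j).pt) (f' : ∀ j, (X (j + 1)).pt → (Z j).pt)
    (A : ∀ j, Set (Z j).pt) (L : ∀ j, Bd (X j).pt)
    (_ : ∃ c : ℕ, 1 ≤ c ∧ ∃ t, IsCmpC (fun y => p (v y)) (L 0)
      ((((Bd.can 4 Y).pow m).mul M).pow c) (⋃ l, G l) t)
    (_ : ∀ j < N, ∃ p q : ℕ, 1 ≤ p ∧ 1 ≤ q ∧
      IsFlip (X j) (Z j) (X (j + 1)) (f j) (f' j) (A j) ((L j).pow p) ((L (j + 1)).pow q)),
    {j | j < N ∧ ¬ DimLe (X (j + 1)) 1 (f' j ⁻¹' Amin (f j))}.ncard ≤ m * r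

/-- (T2c) Theorem T2c: there is no infinite sequence of flips starting with a generalized canonical
pair `(X 0, M)` (`B = 0`), `M` nef on the log resolution `Y`. -/
def StT2c : Prop :=
  ∀ (Y : Type) [TopologicalSpace Y] [T2Space Y] [CompactSpace Y] [ChartedSpace (Cm 4) Y]
    [IsManifold 𝓘(ℂ, Cm 4) ω Y] (χ : Chart 4 Y → Cm 4 → Matrix (Fin 4) (Fin 4) ℂ)
    (_ : IsKahler χ) (M : Bd Y) (_ : IsLB 4 M) (_ : Nef χ M) (m : ℕ) (_ : 1 ≤ m)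
    (W : CSp) (X Z : ℕ → CSp) (r : ℕ) (v : Y → W.pt)
    (p : W.pt → (X 0).pt) (P : Bd W.pt) (G : Fin r → Set Y) (_ : IsRes v p P G)
    (f : ∀ j, (X j).pt → (Z j).pt) (f' : ∀ j, (X (j + 1)).pt → (Z j).pt)
    (A : ∀ j, Set (Z j).pt) (L : ∀ j, Bd (X j).pt)
    (_ : ∃ c : ℕ, 1 ≤ c ∧ ∃ t, IsCmpC (fun y => p (v y)) (L 0)
      ((((Bd.can 4 Y).pow m).mul M).pow c) (⋃ l, G l) t)
    (_ : ∀ j, ∃ p q : ℕ, 1 ≤ p ∧ 1 ≤ q ∧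
      IsFlip (X j) (Z j) (X (j + 1)) (f j) (f' j) (A j) ((L j).pow p) ((L (j + 1)).pow q)), False

end Vale.Agent.P277.T2
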