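import Vale.Agent.P277.Stmts20

/-!
# P277, (L): the form of (K) for all `l` with `-1 ≤ a l < 0`, without disjointness
-/

open scoped Manifold ContDiff Topology
open Vale.Agent.P272.K Vale.Agent.P285.H281.FD Vale.Agent.P267.H175 Set Metric Filter

noncomputable section

namespace Vale.Agent.P277.T3

/-- the points which are on two hypersurfaces `G l`, `l ∈ K`, or on a `G l`, `l ∈ K`, and an `H i` -/
def cross {Y : Type} {s r : ℕ} {H : Fin s → Type} (ι : ∀ i, H i → Y) (G : Fin r → Set Y)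
    (K : Set (Fin r)) : Set Y :=
  {y | ∃ l ∈ K, y ∈ G l ∧ ((∃ l' ∈ K, l' ≠ l ∧ y ∈ G l') ∨ ∃ i, y ∈ range (ι i))}

/-- (REGL) The generic points of the flipped surfaces are regular points, if this is true for the
surfaces in the total transform of the `G l`, `l ∈ I`, of the `H i`, `i ∈ I'`, and of the intersections
of the `G l`, `l ∈ K`, with each other and with the `H i`, and for the surfaces in the centres of the
`G l`, `l ∈ K`. -/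
def StRegL : Prop :=
  ∀ (Y : Type) [TopologicalSpace Y] [T2Space Y] [CompactSpace Y] [ChartedSpace (Cm 4) Y]
    [IsManifold 𝓘(ℂ, Cm 4) ω Y] (χ : Chart 4 Y → Cm 4 → Matrix (Fin 4) (Fin 4) ℂ) (k s : ℕ)
    (M : Fin (k + s) → Bd Y) (m : Fin (k + s) → ℕ) (ρ : Fin (k + s) → ℝ) (H : Fin s → Type)
    [∀ i, TopologicalSpace (H i)] [∀ i, T2Space (H i)] [∀ i, CompactSpace (H i)]
    [∀ i, ConnectedSpace (H i)] [∀ i, ChartedSpace (Cm 3) (H i)]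
    [∀ i, IsManifold 𝓘(ℂ, Cm 3) ω (H i)] (ι : ∀ i, H i → Y)
    (sg : ∀ i : Fin s, (M (Fin.natAdd k i)).ι → Y → ℂ) (W : CSp) (X Z : ℕ → CSp) (r : ℕ)
    (v₀ : Y → W.pt) (p : W.pt → (X 0).pt) (P : Bd W.pt) (G : Fin r → Set Y)
    (f : ∀ j, (X j).pt → (Z j).pt) (f' : ∀ j, (X (j + 1)).pt → (Z j).pt)
    (A : ∀ j, Set (Z j).pt) (L : ∀ j, Fin (k + s) → Bd (X j).pt) (c : ℕ → Fin (k + s) → ℕ)
    (σ : ∀ j, ∀ i : Fin s, (L j (Fin.natAdd k i)).ι → (X j).pt → ℂ)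
    (n : Fin (k + s) → Fin r → ℤ) (t : ∀ e, (L 0 e).ι →
      ((((Bd.can 4 Y).pow (m e)).mul (M e)).pow (c 0 e)).ι → Y → ℂ)
    (_ : IsPG χ M m ρ ι sg v₀ p P G f f' A L c σ n t)
    (I K : Set (Fin r)) (I' : Set (Fin s))
    (_ : ∀ l, l ∉ I → l ∉ K → 0 ≤ ∑ e, ρ e * n e l / c 0 e)
    (_ : ∀ i ∉ I', ρ (Fin.natAdd k i) ≤ 1) (_ : ∀ l ∈ K, -1 ≤ ∑ e, ρ e * n e l / c 0 e)
    (_ : ∀ j, DimLe (X (j + 1)) 1 {x | x ∈ f' j ⁻¹' Amin (f j) ∧ ¬ IsReg 4 (X (j + 1)) x ∧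
      (x ∈ Tot (Cor (⋃ l, G l) (fun y => p (v₀ y)) f f' (j + 1))
        (bad ι G I I' ∪ cross ι G K) ∨
        x ∈ closure (Val (Cor (⋃ l, G l) (fun y => p (v₀ y)) f f' (j + 1)) (⋃ l ∈ K, G l)))}),
    ∀ j, DimLe (X (j + 1)) 1 {x | x ∈ f' j ⁻¹' Amin (f j) ∧ ¬ IsReg 4 (X (j + 1)) x}

/-- (T4LF) In every infinite sequence of flips of `K + B + M`, starting with an NQC generalized pair
`(X 0, B + M)` (no condition on the singularities and the coefficients), there is a flipped surface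
`S ⊆ X (j + 1)` such that
(1) the blow-up of `S` is exceptional over `Y`, and centred on `Y` in a `G l` with discrepancy
`a l < 0` or in an `H i` with `b i ≥ 1`, or
(2) `X (j + 1)` is singular along `S`, and `S` is the centre of a `G l` with `-1 ≤ a l < 0`, or is
contained in the total transform of the `G l` with `a l < -1`, of the `H i` with `b i > 1`, and of the
intersections `G l ∩ G l'` and `G l ∩ H i` with `a l < 0`, `a l' < 0`. -/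
def StT4LF : Prop :=
  ∀ (Y : Type) [TopologicalSpace Y] [T2Space Y] [CompactSpace Y] [ChartedSpace (Cm 4) Y]
    [IsManifold 𝓘(ℂ, Cm 4) ω Y] (χ : Chart 4 Y → Cm 4 → Matrix (Fin 4) (Fin 4) ℂ)
    (_ : IsKahler χ) (k s : ℕ) (M : Fin (k + s) → Bd Y) (_ : ∀ e, IsLB 4 (M e))
    (_ : ∀ e : Fin k, Nef χ (M (Fin.castAdd s e))) (m : Fin (k + s) → ℕ)
    (_ : ∀ e : Fin k, 1 ≤ m (Fin.castAdd s e)) (_ : ∀ i : Fin s, m (Fin.natAdd k i) = 0)
    (ρ : Fin (k + s) → ℝ) (_ : ∀ e, 0 < ρ e) (_ : ∑ e, ρ e * m e = 1) (H : Fin s → Type)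
    [∀ i, TopologicalSpace (H i)] [∀ i, T2Space (H i)] [∀ i, CompactSpace (H i)]
    [∀ i, ConnectedSpace (H i)] [∀ i, ChartedSpace (Cm 3) (H i)]
    [∀ i, IsManifold 𝓘(ℂ, Cm 3) ω (H i)] (ι : ∀ i, H i → Y)
    (sg : ∀ i : Fin s, (M (Fin.natAdd k i)).ι → Y → ℂ)
    (_ : ∀ i, IsBd (ι i) (M (Fin.natAdd k i)) (sg i))
    (_ : Pairwise fun i j => Disjoint (range (ι i)) (range (ι j)))
    (W : CSp) (X Z : ℕ → CSp) (r : ℕ) (v : Y → W.pt) (p : W.pt → (X 0).pt) (P : Bd W.pt)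
    (G : Fin r → Set Y) (_ : T2.IsRes v p P G) (_ : ∀ i, ¬ range (ι i) ⊆ ⋃ l, G l)
    (f : ∀ j, (X j).pt → (Z j).pt) (f' : ∀ j, (X (j + 1)).pt → (Z j).pt)
    (A : ∀ j, Set (Z j).pt) (L : ∀ j, Fin (k + s) → Bd (X j).pt) (c : ℕ → Fin (k + s) → ℕ)
    (_ : ∀ j e, 1 ≤ c j e) (n : Fin (k + s) → Fin r → ℤ)
    (_ : ∃ t, T2.IsCmpV (fun y => p (v y)) (L 0)
      (fun e => (((Bd.can 4 Y).pow (m e)).mul (M e)).pow (c 0 e)) G n t)
    (_ : ∀ j, IsFlipR (X j) (Z j) (X (j + 1)) (f j) (f' j) (A j) (L j) (L (j + 1)) (c j)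
      (c (j + 1)) ρ)
    (a : Fin r → ℝ) (_ : ∀ l, a l = ∑ e, ρ e * n e l / c 0 e)
    (_ : ∀ j, DimLe (X (j + 1)) 1 {x | f' j x ∈ Amin (f j) ∧ ¬ IsReg 4 (X (j + 1)) x ∧
      (x ∈ Tot (Cor (⋃ l, G l) (fun y => p (v y)) f f' (j + 1))
        (bad ι G {l | a l < -1} {i | 1 < ρ (Fin.natAdd k i)} ∪ cross ι G {l | -1 ≤ a l ∧ a l < 0}) ∨
      x ∈ closure (Val (Cor (⋃ l, G l) (fun y => p (v y)) f f' (j + 1))
        (⋃ l ∈ {l | -1 ≤ a l ∧ a l < 0}, G l)))})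
    (_ : ∀ j, DimLe (X (j + 1)) 1 {x | BadPt {x | f' j x ∈ Amin (f j)}
      (Cor (⋃ l, G l) (fun y => p (v y)) f f' (j + 1))
      (bad ι G {l | a l < 0} {i | 1 ≤ ρ (Fin.natAdd k i)}) x}), False

end Vale.Agent.P277.T3
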