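import Vale.Agent.P277.Stmts8

/-!
# P277, real coefficients: the statements of the discrepancy half for NQC generalized canonical pairs

`D = ∑ e, ρ e • D e`, where `D e = m e • K + M e` (`M e` integral, nef on the resolution), `ρ e > 0`
are real numbers and `∑ e, ρ e * m e = 1`: so `D = K + M` with `M = ∑ e, ρ e • M e` NQC.
-/

open scoped Manifold ContDiff Topology
open Vale.Agent.P272.K Vale.Agent.P285.H281.FD Vale.Agent.P267.H175 Set Metric Filter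

noncomputable section

namespace Vale.Agent.P277

/-- The line bundle `⊗ e, L e ^ n e`. -/
def Bd.lin {X : Type} {k : ℕ} (L : Fin k → Bd X) (n : Fin k → ℤ) : Bd X where
  ι := ∀ e, (L e).ι
  U i := {x | ∀ e, x ∈ (L e).U (i e)}
  g i j x := ∏ e, (L e).g (i e) (j e) x ^ n e

/-- `X → Z ← X'` (by `f` and `f'`, isomorphisms over `Z \ A`) is the flip of the `ℝ`-Cartier divisor
`D = ∑ e, ρ e • D e`. Here `L e` and `L' e` are the line bundles defined by `c e • D e` and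
`c' e • D' e`, where `D' e` is the strict transform of the `ℚ`-Cartier divisor `D e`. The divisor
`-D` is `f`-ample and `D' = ∑ e, ρ e • D' e` is `f'`-ample: this means that all `ℚ`-divisors
`∑ e, (n e * c e / d) • D e` with coefficients near those of `D` have this property (the line bundle
`⊗ e, L e ^ n e` is defined by the divisor `∑ e, (n e * c e) • D e`). -/
structure IsFlipR {k : ℕ} (X Z X' : CSp) (f : X.pt → Z.pt) (f' : X'.pt → Z.pt) (A : Set Z.pt)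
    (L : Fin k → Bd X.pt) (L' : Fin k → Bd X'.pt) (c c' : Fin k → ℕ) (ρ : Fin k → ℝ) : Prop where
  normal : IsNormal 4 X
  normalZ : IsNormal 4 Z
  normal' : IsNormal 4 X'
  small : IsSmall X Z f A
  small' : IsSmall X' Z f' A
  ninj : ¬ Function.Injective f
  ninj' : ¬ Function.Injective f'
  lb : ∀ e, IsLBx X (L e)
  lb' : ∀ e, IsLBx X' (L' e)
  iso : ∀ e, ∃ p q : ℕ, 1 ≤ p ∧ 1 ≤ q ∧ c e * p = c' e * q ∧
    ∃ t, IsIso f f' A ((L e).pow p) ((L' e).pow q) t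
  ample : ∃ ε > 0, ∀ (n : Fin k → ℤ) (d : ℕ), 1 ≤ d → (∀ e, |(n e * c e : ℝ) / d - ρ e| < ε) →
    RelAmple X Z f (Bd.inv (Bd.lin L n))
  ample' : ∃ ε > 0, ∀ (n : Fin k → ℤ) (d : ℕ), 1 ≤ d → (∀ e, |(n e * c' e : ℝ) / d - ρ e| < ε) →
    RelAmple X' Z f' (Bd.lin L' n)

namespace T2

section
variable {Y : Type} [TopologicalSpace Y] [ChartedSpace (Cm 4) Y]

/-- `ζ` is a local equation of the smooth hypersurface `G` at `y`. -/
def IsLEq (G : Set Y) (y : Y) (ζ : Y → ℂ) : Prop :=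
  (∀ᶠ y' in 𝓝 y, (ζ y' = 0 ↔ y' ∈ G)) ∧ ∀ e : Chart 4 Y, At e y →
    AnalyticAt ℂ (fun z => ζ (e.symm z)) (e y) ∧
      (ζ y = 0 → fderiv ℂ (fun z => ζ (e.symm z)) (e y) ≠ 0)

/-- `t e` compares the frames of the line bundles `v^* (L e)` and `N e` on `Y` (frame of `L e` =
`t e` times the frame of `N e`), and the divisor of the meromorphic function `t e` is
`∑ l, n e l • G l`. -/
structure IsCmpV {X : CSp} {k r : ℕ} (v : Y → X.pt) (L : Fin k → Bd X.pt) (N : Fin k → Bd Y)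
    (G : Fin r → Set Y) (n : Fin k → Fin r → ℤ) (t : ∀ e, (L e).ι → (N e).ι → Y → ℂ) : Prop where
  div : ∀ y, ∃ ζ : Fin r → Y → ℂ, (∀ l, IsLEq (G l) y (ζ l)) ∧
    ∀ e i j, v y ∈ (L e).U i → y ∈ (N e).U j → ∃ u : Y → ℂ, u y ≠ 0 ∧
      (∀ ch : Chart 4 Y, At ch y → AnalyticAt ℂ (fun z => u (ch.symm z)) (ch y)) ∧
      ∀ᶠ y' in 𝓝 y, y' ∉ ⋃ l, G l → t e i j y' = u y' * ∏ l, ζ l y' ^ n e l
  change : ∀ y e i i₁ j j₁, y ∉ ⋃ l, G l → v y ∈ (L e).U i → v y ∈ (L e).U i₁ →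
    y ∈ (N e).U j → y ∈ (N e).U j₁ →
      t e i₁ j₁ y = (L e).g i i₁ (v y) * t e i j y * (N e).g j₁ j y

end

/-- (REGR) in a sequence of flips which starts with an NQC generalized canonical pair the generic
points of the flipped surfaces are regular points. -/
def StRegR : Prop :=
  ∀ (Y : Type) [TopologicalSpace Y] [T2Space Y] [CompactSpace Y] [ChartedSpace (Cm 4) Y]
    [IsManifold 𝓘(ℂ, Cm 4) ω Y] (χ : Chart 4 Y → Cm 4 → Matrix (Fin 4) (Fin 4) ℂ)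
    (_ : IsKahler χ) (k : ℕ) (M : Fin k → Bd Y) (_ : ∀ e, IsLB 4 (M e)) (_ : ∀ e, Nef χ (M e))
    (m : Fin k → ℕ) (_ : ∀ e, 1 ≤ m e) (ρ : Fin k → ℝ) (_ : ∀ e, 0 < ρ e)
    (_ : ∑ e, ρ e * m e = 1)
    (N : ℕ) (W : CSp) (X Z : ℕ → CSp) (_ : IsNormal 4 (X 0)) (r : ℕ) (v : Y → W.pt)
    (p : W.pt → (X 0).pt) (P : Bd W.pt) (G : Fin r → Set Y) (_ : IsRes v p P G)
    (f : ∀ j, (X j).pt → (Z j).pt) (f' : ∀ j, (X (j + 1)).pt → (Z j).pt)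
    (A : ∀ j, Set (Z j).pt) (L : ∀ j, Fin k → Bd (X j).pt) (c : ℕ → Fin k → ℕ)
    (_ : ∀ j e, 1 ≤ c j e)
    (_ : ∃ n t, IsCmpV (fun y => p (v y)) (L 0)
      (fun e => (((Bd.can 4 Y).pow (m e)).mul (M e)).pow (c 0 e)) G n t ∧
        ∀ l, 0 ≤ ∑ e, ρ e * n e l / c 0 e)
    (_ : ∀ j < N, IsFlipR (X j) (Z j) (X (j + 1)) (f j) (f' j) (A j) (L j) (L (j + 1)) (c j)
      (c (j + 1)) ρ),
    ∀ j < N, DimLe (X (j + 1)) 1 {x | x ∈ f' j ⁻¹' Amin (f j) ∧ ¬ IsReg 4 (X (j + 1)) x}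

/-- (P7R) the number of flips with a flipped locus of dimension two is at most `r` times the number
of vectors `κ` of natural numbers with `∑ e, ρ e * κ e < 1`. -/
def StP7R : Prop :=
  ∀ (Y : Type) [TopologicalSpace Y] [T2Space Y] [CompactSpace Y] [ChartedSpace (Cm 4) Y]
    [IsManifold 𝓘(ℂ, Cm 4) ω Y] (χ : Chart 4 Y → Cm 4 → Matrix (Fin 4) (Fin 4) ℂ)
    (_ : IsKahler χ) (k : ℕ) (M : Fin k → Bd Y) (_ : ∀ e, IsLB 4 (M e)) (_ : ∀ e, Nef χ (M e))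
    (m : Fin k → ℕ) (_ : ∀ e, 1 ≤ m e) (ρ : Fin k → ℝ) (_ : ∀ e, 0 < ρ e)
    (_ : ∑ e, ρ e * m e = 1)
    (N : ℕ) (W : CSp) (X Z : ℕ → CSp) (_ : IsNormal 4 (X 0)) (r : ℕ) (v : Y → W.pt)
    (p : W.pt → (X 0).pt) (P : Bd W.pt) (G : Fin r → Set Y) (_ : IsRes v p P G)
    (f : ∀ j, (X j).pt → (Z j).pt) (f' : ∀ j, (X (j + 1)).pt → (Z j).pt)
    (A : ∀ j, Set (Z j).pt) (L : ∀ j, Fin k → Bd (X j).pt) (c : ℕ → Fin k → ℕ)
    (_ : ∀ j e, 1 ≤ c j e)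
    (_ : ∃ n t, IsCmpV (fun y => p (v y)) (L 0)
      (fun e => (((Bd.can 4 Y).pow (m e)).mul (M e)).pow (c 0 e)) G n t ∧
        ∀ l, 0 ≤ ∑ e, ρ e * n e l / c 0 e)
    (_ : ∀ j < N, IsFlipR (X j) (Z j) (X (j + 1)) (f j) (f' j) (A j) (L j) (L (j + 1)) (c j)
      (c (j + 1)) ρ),
    {j | j < N ∧ ¬ DimLe (X (j + 1)) 1 (f' j ⁻¹' Amin (f j))}.ncard ≤
      r * {κ : Fin k → ℕ | ∑ e, ρ e * κ e < 1}.ncard

/-- (T2R) Theorem T2R: there is no infinite sequence of flips starting with a generalized canonical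
pair `(X 0, M)` (`B = 0`) with an NQC divisor `M = ∑ e, ρ e • M e`, where the `M e` are nef on the
log resolution `Y`. -/
def StT2R : Prop :=
  ∀ (Y : Type) [TopologicalSpace Y] [T2Space Y] [CompactSpace Y] [ChartedSpace (Cm 4) Y]
    [IsManifold 𝓘(ℂ, Cm 4) ω Y] (χ : Chart 4 Y → Cm 4 → Matrix (Fin 4) (Fin 4) ℂ)
    (_ : IsKahler χ) (k : ℕ) (M : Fin k → Bd Y) (_ : ∀ e, IsLB 4 (M e)) (_ : ∀ e, Nef χ (M e))
    (m : Fin k → ℕ) (_ : ∀ e, 1 ≤ m e) (ρ : Fin k → ℝ) (_ : ∀ e, 0 < ρ e)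
    (_ : ∑ e, ρ e * m e = 1)
    (W : CSp) (X Z : ℕ → CSp) (r : ℕ) (v : Y → W.pt)
    (p : W.pt → (X 0).pt) (P : Bd W.pt) (G : Fin r → Set Y) (_ : IsRes v p P G)
    (f : ∀ j, (X j).pt → (Z j).pt) (f' : ∀ j, (X (j + 1)).pt → (Z j).pt)
    (A : ∀ j, Set (Z j).pt) (L : ∀ j, Fin k → Bd (X j).pt) (c : ℕ → Fin k → ℕ)
    (_ : ∀ j e, 1 ≤ c j e)
    (_ : ∃ n t, IsCmpV (fun y => p (v y)) (L 0)
      (fun e => (((Bd.can 4 Y).pow (m e)).mul (M e)).pow (c 0 e)) G n t ∧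
        ∀ l, 0 ≤ ∑ e, ρ e * n e l / c 0 e)
    (_ : ∀ j, IsFlipR (X j) (Z j) (X (j + 1)) (f j) (f' j) (A j) (L j) (L (j + 1)) (c j)
      (c (j + 1)) ρ), False

end T2

end Vale.Agent.P277
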