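import Vale.Agent.P277.Stmts9
import Vale.Agent.P277.Stmts10

/-!
# P277, Theorem T3 (boundary, real coefficients): statements

The divisors are `D e = m e • K + M e` for `e < k`, with `M e` nef on the resolution `Y`, and
`D (k + i) = B i`, `i < s`, the components of the boundary (so `m (k + i) = 0` and `M (k + i)` is the
line bundle defined by the strict transform `H i ⊆ Y` of `B i`). The pair is given by
`K + B + M = ∑ e, ρ e • D e`, so `∑ e, ρ e * m e = 1`, and `b i = ρ (k + i) < 1` is the coefficient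
of `B i`.
-/

open scoped Manifold ContDiff Topology
open Vale.Agent.P272.K Vale.Agent.P285.H281.FD Vale.Agent.P267.H175 Set Metric Filter

noncomputable section

namespace Vale.Agent.P277.T3

/-- The section `s` of the line bundle `E` on `Y` vanishes, with multiplicity one, exactly on the
compact connected threefold `ι : H → Y`. -/
structure IsBd {H Y : Type} [TopologicalSpace H] [TopologicalSpace Y] [ChartedSpace (Cm 3) H]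
    [ChartedSpace (Cm 4) Y] (ι : H → Y) (E : Bd Y) (s : E.ι → Y → ℂ) : Prop where
  sub : IsSub ι
  sec : IsSec 4 E s
  zero : ∀ μ, ∀ y ∈ E.U μ, s μ y = 0 ↔ y ∈ range ι
  mult : ∀ μ, ∀ y ∈ E.U μ, s μ y = 0 → ∀ e : Chart 4 Y, At e y →
    fderiv ℂ (fun z => s μ (e.symm z)) (e y) ≠ 0

/-- `X → Z ← X'` is the flip of `∑ e, ρ e • D e`, and the sections `σ i` and `σ' i`, which define
`c (k + i) • B i` and `c' (k + i) • B' i`, correspond to each other outside `A`. -/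
structure IsFlipB {k s : ℕ} (X Z X' : CSp) (f : X.pt → Z.pt) (f' : X'.pt → Z.pt) (A : Set Z.pt)
    (L : Fin (k + s) → Bd X.pt) (L' : Fin (k + s) → Bd X'.pt) (c c' : Fin (k + s) → ℕ)
    (ρ : Fin (k + s) → ℝ) (σ : ∀ i : Fin s, (L (Fin.natAdd k i)).ι → X.pt → ℂ)
    (σ' : ∀ i : Fin s, (L' (Fin.natAdd k i)).ι → X'.pt → ℂ) : Prop where
  flip : IsFlipR X Z X' f f' A L L' c c' ρ
  sec : ∀ i, IsSecx X univ (L (Fin.natAdd k i)) (σ i)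
  sec' : ∀ i, IsSecx X' univ (L' (Fin.natAdd k i)) (σ' i)
  corr : ∀ i, ∃ p q : ℕ, 1 ≤ p ∧ 1 ≤ q ∧ c (Fin.natAdd k i) * p = c' (Fin.natAdd k i) * q ∧
    ∃ t, IsIso f f' A ((L (Fin.natAdd k i)).pow p) ((L' (Fin.natAdd k i)).pow q) t ∧
      ∀ x x' a b, f x ∉ A → f' x' = f x → x ∈ (L (Fin.natAdd k i)).U a →
        x' ∈ (L' (Fin.natAdd k i)).U b → σ i a x ^ p * t a b (f x) = σ' i b x' ^ q

/-- the zero set of the section `s` of `L` -/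
def zer {T : Type} (L : Bd T) (s : L.ι → T → ℂ) : Set T := {x | ∀ a, x ∈ L.U a → s a x = 0}

/-- A sequence of flips starting with an NQC generalized canonical pair `(X 0, B + M)`, where the
strict transforms `H i` of the components of `B` on the log resolution `Y` are smooth, connected and
pairwise disjoint. -/
structure IsPS {Y : Type} [TopologicalSpace Y] [ChartedSpace (Cm 4) Y]
    (χ : Chart 4 Y → Cm 4 → Matrix (Fin 4) (Fin 4) ℂ) {k s : ℕ} (M : Fin (k + s) → Bd Y)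
    (m : Fin (k + s) → ℕ) (ρ : Fin (k + s) → ℝ) {H : Fin s → Type} [∀ i, TopologicalSpace (H i)]
    [∀ i, ChartedSpace (Cm 3) (H i)] (ι : ∀ i, H i → Y)
    (sg : ∀ i : Fin s, (M (Fin.natAdd k i)).ι → Y → ℂ) {W : CSp} {X Z : ℕ → CSp} {r : ℕ}
    (v₀ : Y → W.pt) (p : W.pt → (X 0).pt) (P : Bd W.pt) (G : Fin r → Set Y)
    (f : ∀ j, (X j).pt → (Z j).pt) (f' : ∀ j, (X (j + 1)).pt → (Z j).pt)
    (A : ∀ j, Set (Z j).pt) (L : ∀ j, Fin (k + s) → Bd (X j).pt) (c : ℕ → Fin (k + s) → ℕ)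
    (σ : ∀ j, ∀ i : Fin s, (L j (Fin.natAdd k i)).ι → (X j).pt → ℂ)
    (n : Fin (k + s) → Fin r → ℤ) (t : ∀ e, (L 0 e).ι →
      ((((Bd.can 4 Y).pow (m e)).mul (M e)).pow (c 0 e)).ι → Y → ℂ) : Prop where
  kahler : IsKahler χ
  lb : ∀ e, IsLB 4 (M e)
  nef : ∀ e : Fin k, Nef χ (M (Fin.castAdd s e))
  pos : ∀ e : Fin k, 1 ≤ m (Fin.castAdd s e)
  m0 : ∀ i : Fin s, m (Fin.natAdd k i) = 0
  rho : ∀ e, 0 < ρ e
  sum : ∑ e, ρ e * m e = 1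
  lt : ∀ i : Fin s, ρ (Fin.natAdd k i) < 1
  bd : ∀ i, IsBd (ι i) (M (Fin.natAdd k i)) (sg i)
  disj : Pairwise fun i j => Disjoint (range (ι i)) (range (ι j))
  res : T2.IsRes v₀ p P G
  ne : ∀ i, ¬ range (ι i) ⊆ ⋃ l, G l
  c1 : ∀ j e, 1 ≤ c j e
  cmp : T2.IsCmpV (fun y => p (v₀ y)) (L 0)
    (fun e => (((Bd.can 4 Y).pow (m e)).mul (M e)).pow (c 0 e)) G n t
  corr : ∀ i a ch b y, y ∉ ⋃ l, G l → p (v₀ y) ∈ (L 0 (Fin.natAdd k i)).U a → At ch y →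
    y ∈ (M (Fin.natAdd k i)).U b →
      σ 0 i a (p (v₀ y)) * t (Fin.natAdd k i) a (ch, b) y = sg i b y ^ c 0 (Fin.natAdd k i)
  canon : ∀ l, 0 ≤ ∑ e, ρ e * n e l / c 0 e
  flip : ∀ j, IsFlipB (X j) (Z j) (X (j + 1)) (f j) (f' j) (A j) (L j) (L (j + 1)) (c j)
    (c (j + 1)) ρ (σ j) (σ (j + 1))

/-- (T3) there is no infinite sequence of flips starting with an NQC generalized canonical pair
`(X 0, B + M)` with `⌊B⌋ = 0`. -/
def StT3 : Prop :=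
  ∀ (Y : Type) [TopologicalSpace Y] [T2Space Y] [CompactSpace Y] [ChartedSpace (Cm 4) Y]
    [IsManifold 𝓘(ℂ, Cm 4) ω Y] (χ : Chart 4 Y → Cm 4 → Matrix (Fin 4) (Fin 4) ℂ) (k s : ℕ)
    (M : Fin (k + s) → Bd Y) (m : Fin (k + s) → ℕ) (ρ : Fin (k + s) → ℝ) (H : Fin s → Type)
    [∀ i, TopologicalSpace (H i)] [∀ i, T2Space (H i)] [∀ i, CompactSpace (H i)]
    [∀ i, ConnectedSpace (H i)] [∀ i, ChartedSpace (Cm 3) (H i)]
    [∀ i, IsManifold 𝓘(ℂ, Cm 3) ω (H i)] (ι : ∀ i, H i → Y)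
    (sg : ∀ i : Fin s, (M (Fin.natAdd k i)).ι → Y → ℂ) (W : CSp) (X Z : ℕ → CSp) (r : ℕ)
    (v₀ : Y → W.pt) (p : W.pt → (X 0).pt) (P : Bd W.pt) (G : Fin r → Set Y)
    (f : ∀ j, (X j).pt → (Z j).pt) (f' : ∀ j, (X (j + 1)).pt → (Z j).pt)
    (A : ∀ j, Set (Z j).pt) (L : ∀ j, Fin (k + s) → Bd (X j).pt) (c : ℕ → Fin (k + s) → ℕ)
    (σ : ∀ j, ∀ i : Fin s, (L j (Fin.natAdd k i)).ι → (X j).pt → ℂ)
    (n : Fin (k + s) → Fin r → ℤ) (t : ∀ e, (L 0 e).ι →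
      ((((Bd.can 4 Y).pow (m e)).mul (M e)).pow (c 0 e)).ι → Y → ℂ),
    ¬ IsPS χ M m ρ ι sg v₀ p P G f f' A L c σ n t

/-- (REGB) in a sequence of flips as in T3 the generic points of the flipped surfaces are regular
points. -/
def StRegB : Prop :=
  ∀ (Y : Type) [TopologicalSpace Y] [T2Space Y] [CompactSpace Y] [ChartedSpace (Cm 4) Y]
    [IsManifold 𝓘(ℂ, Cm 4) ω Y] (χ : Chart 4 Y → Cm 4 → Matrix (Fin 4) (Fin 4) ℂ) (k s : ℕ)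
    (M : Fin (k + s) → Bd Y) (m : Fin (k + s) → ℕ) (ρ : Fin (k + s) → ℝ) (H : Fin s → Type)
    [∀ i, TopologicalSpace (H i)] [∀ i, T2Space (H i)] [∀ i, CompactSpace (H i)]
    [∀ i, ConnectedSpace (H i)] [∀ i, ChartedSpace (Cm 3) (H i)]
    [∀ i, IsManifold 𝓘(ℂ, Cm 3) ω (H i)] (ι : ∀ i, H i → Y)
    (sg : ∀ i : Fin s, (M (Fin.natAdd k i)).ι → Y → ℂ) (W : CSp) (X Z : ℕ → CSp) (r : ℕ)
    (v₀ : Y → W.pt) (p : W.pt → (X 0).pt) (P : Bd W.pt) (G : Fin r → Set Y)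
    (f : ∀ j, (X j).pt → (Z j).pt) (f' : ∀ j, (X (j + 1)).pt → (Z j).pt)
    (A : ∀ j, Set (Z j).pt) (L : ∀ j, Fin (k + s) → Bd (X j).pt) (c : ℕ → Fin (k + s) → ℕ)
    (σ : ∀ j, ∀ i : Fin s, (L j (Fin.natAdd k i)).ι → (X j).pt → ℂ)
    (n : Fin (k + s) → Fin r → ℤ) (t : ∀ e, (L 0 e).ι →
      ((((Bd.can 4 Y).pow (m e)).mul (M e)).pow (c 0 e)).ι → Y → ℂ)
    (_ : IsPS χ M m ρ ι sg v₀ p P G f f' A L c σ n t),
    ∀ j, DimLe (X (j + 1)) 1 {x | x ∈ f' j ⁻¹' Amin (f j) ∧ ¬ IsReg 4 (X (j + 1)) x}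

/-- (P7B) Let `β` be a real number. If the surfaces of `H μ` are eventually not contracted, for all
`μ` with `b μ > β`, then the flipped surfaces are eventually not contained in `B ν`, for all `ν` with
`b ν ≥ β`, and, if `β ≤ 0`, there are eventually no flipped surfaces. -/
def StP7B : Prop :=
  ∀ (Y : Type) [TopologicalSpace Y] [T2Space Y] [CompactSpace Y] [ChartedSpace (Cm 4) Y]
    [IsManifold 𝓘(ℂ, Cm 4) ω Y] (χ : Chart 4 Y → Cm 4 → Matrix (Fin 4) (Fin 4) ℂ) (k s : ℕ)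
    (M : Fin (k + s) → Bd Y) (m : Fin (k + s) → ℕ) (ρ : Fin (k + s) → ℝ) (H : Fin s → Type)
    [∀ i, TopologicalSpace (H i)] [∀ i, T2Space (H i)] [∀ i, CompactSpace (H i)]
    [∀ i, ConnectedSpace (H i)] [∀ i, ChartedSpace (Cm 3) (H i)]
    [∀ i, IsManifold 𝓘(ℂ, Cm 3) ω (H i)] (ι : ∀ i, H i → Y)
    (sg : ∀ i : Fin s, (M (Fin.natAdd k i)).ι → Y → ℂ) (W : CSp) (X Z : ℕ → CSp) (r : ℕ)
    (v₀ : Y → W.pt) (p : W.pt → (X 0).pt) (P : Bd W.pt) (G : Fin r → Set Y)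
    (f : ∀ j, (X j).pt → (Z j).pt) (f' : ∀ j, (X (j + 1)).pt → (Z j).pt)
    (A : ∀ j, Set (Z j).pt) (L : ∀ j, Fin (k + s) → Bd (X j).pt) (c : ℕ → Fin (k + s) → ℕ)
    (σ : ∀ j, ∀ i : Fin s, (L j (Fin.natAdd k i)).ι → (X j).pt → ℂ)
    (n : Fin (k + s) → Fin r → ℤ) (t : ∀ e, (L 0 e).ι →
      ((((Bd.can 4 Y).pow (m e)).mul (M e)).pow (c 0 e)).ι → Y → ℂ)
    (_ : IsPS χ M m ρ ι sg v₀ p P G f f' A L c σ n t)
    (O : ℕ → Set Y) (v : ∀ j, Y → (X j).pt) (_ : IsSeq X Z f f' (fun j => Amin (f j)) O v)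
    (_ : O 0 = (⋃ l, G l)ᶜ) (_ : v 0 = fun y => p (v₀ y)) (β : ℝ)
    (_ : ∀ μ : Fin s, β < ρ (Fin.natAdd k μ) →
      ∃ J, ∀ j ≥ J, ThinM 3 1 (ι μ ⁻¹' O j \ ι μ ⁻¹' O (j + 1))),
    ∃ J, ∀ j ≥ J, DimLe (X (j + 1)) 1 {x | x ∈ f' j ⁻¹' Amin (f j) ∧
      (β ≤ 0 ∨ ∃ ν : Fin s, β ≤ ρ (Fin.natAdd k ν) ∧
        x ∈ zer (L (j + 1) (Fin.natAdd k ν)) (σ (j + 1) ν))}

end Vale.Agent.P277.T3
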