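import Vale.Agent.P277.Stmts23

/-!
# P277, (P): the numerical conditions satisfied by the flipped surfaces

Let `a l` be the discrepancy of `G l`, and `b i` the coefficient of `H i`. If the place `E` of the
blow-up of a flipped surface `S` is exceptional over `Y`, and centred in a `G l` with `a l < 0` or in an
`H i` with `b i ≥ 1`, then `E` is centred in the `G l` with `a l < -1`, the `H i` with `b i > 1` and the
intersections `G l ∩ G l'`, `G l ∩ H i` (`a l < 0`, `a l' < 0`), or `g := a(E, Y) = ord E F ≥ 1` (so that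
`E` is the `(g, 1)`-blow-up of a surface `V ⊆ F`), where `F = G l` with `-1 ≤ a l < 0`, `β = - a l`, or
`F = H i` with `β = b i = 1`, and `(1 - β) g < 1 - ∑ b ν` (sum over the `ν` with `S ⊆ B ν`).
-/

open scoped Manifold ContDiff Topology
open Vale.Agent.P272.K Vale.Agent.P285.H281.FD Vale.Agent.P267.H175 Set Metric Filter

noncomputable section

namespace Vale.Agent.P277.T3

/-- the function `h` has order `g` along `{w 0 = 0}`, near `w` -/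
def OrdW (h : Cm 4 → ℂ) (g : ℕ) (w : Cm 4) : Prop :=
  ∃ u : Cm 4 → ℂ, AnalyticAt ℂ u w ∧ u w ≠ 0 ∧ ∀ᶠ w' in 𝓝 w, h w' = w' 0 ^ g * u w'

section

variable {Y : Type} [TopologicalSpace Y] [ChartedSpace (Cm 4) Y] {X : CSp}

/-- the strict transform in `X` of the set `F ⊆ Y` -/
def Str (Cr : Y → X.pt → Prop) (F : Set Y) : Set X.pt := closure {x | ∃ y ∈ F, Cr y x}

/-- Near the point `x ∈ S` the place `E` of the blow-up of the surface `S` is exceptional over `Y`, and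
it is centred in `Bad`, or there is an `(F, β) ∈ Fs` such that the discrepancy `g` of `E` over `Y` is
also the order of `F` along `E`, and `1 ≤ g`, `(1 - β) g < 1 - θ`. Notations as in `BadPt`. -/
def BadPN (S : Set X.pt) (Cr : Y → X.pt → Prop) (Bad : Set Y) (Fs : Set (Set Y × ℝ)) (θ : X.pt → ℝ)
    (x : X.pt) : Prop :=
  ∃ (ξ : Cm 4 → X.pt) (r : ℝ) (W : Set (Cm 4)) (w₀ : Cm 4) (γ : Cm 4 → Y) (ch : Chart 4 Y),
    0 < r ∧ InjOn ξ (ball 0 r) ∧ (∀ W ⊆ ball 0 r, IsOpen W → IsOpen (ξ '' W)) ∧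
    (∀ z ∈ ball (0 : Cm 4) r, ContinuousAt ξ z ∧
      ∀ f : X.pt → ℂ, X.Hol f (ξ z) ↔ AnalyticAt ℂ (f ∘ ξ) z) ∧
    (∀ z ∈ ball (0 : Cm 4) r, z 0 = 0 → z 1 = 0 → ξ z ∈ S) ∧
    IsOpen W ∧ w₀ ∈ W ∧ w₀ 0 = 0 ∧ ξ (bl w₀) = x ∧
    (∀ w ∈ W, bl w ∈ ball (0 : Cm 4) r ∧ (∀ y, Cr y (ξ (bl w)) → γ w = y) ∧
      ContinuousAt γ w ∧ At ch (γ w) ∧ AnalyticAt ℂ (fun w => ch (γ w)) w ∧
      (w 0 = 0 → (fderiv ℂ (fun w => ch (γ w)) w).det = 0)) ∧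
    ((∀ w ∈ W, w 0 = 0 → γ w ∈ Bad) ∨ ∃ q ∈ Fs, ∃ (g : ℕ) (ζ : Y → ℂ), 1 ≤ g ∧
      (∀ w ∈ W, w 0 = 0 → γ w ∈ q.1) ∧ T2.IsLEq q.1 (γ w₀) ζ ∧ OrdW (fun w => ζ (γ w)) g w₀ ∧
      OrdW (fun w => (fderiv ℂ (fun w => ch (γ w)) w).det) g w₀ ∧ (1 - q.2) * g < 1 - θ x)

end

/-- (P) The condition of (T4L) for the blow-ups of the flipped surfaces can be replaced by the numerical
condition. -/
def StP : Prop :=
  ∀ (Y : Type) [TopologicalSpace Y] [T2Space Y] [CompactSpace Y] [ChartedSpace (Cm 4) Y]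
    [IsManifold 𝓘(ℂ, Cm 4) ω Y] (χ : Chart 4 Y → Cm 4 → Matrix (Fin 4) (Fin 4) ℂ) (k s : ℕ)
    (M : Fin (k + s) → Bd Y) (m : Fin (k + s) → ℕ) (ρ : Fin (k + s) → ℝ) (H : Fin s → Type)
    [∀ i, TopologicalSpace (H i)] [∀ i, T2Space (H i)] [∀ i, CompactSpace (H i)]
    [∀ i, ConnectedSpace (H i)] [∀ i, ChartedSpace (Cm 3) (H i)]
    [∀ i, IsManifold 𝓘(ℂ, Cm 3) ω (H i)] (ι : ∀ i, H i → Y)
    (sg : ∀ i : Fin s, (M (Fin.natAdd k i)).ι → Y → ℂ) (W : CSp) (X Z : ℕ → CSp) (r : ℕ)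
    (v₀ : Y → W.pt) (p : W.pt → (X 0).pt) (P : Bd W.pt) (G : Fin r → Set Y)
    (f : ∀ j, (X j).pt → (Z j).pt) (f' : ∀ j, (X (j + 1)).pt → (Z j).pt)
    (A : ∀ j, Set (Z j).pt) (L : ∀ j, Fin (k + s) → Bd (X j).pt) (c : ℕ → Fin (k + s) → ℕ)
    (σ : ∀ j, ∀ i : Fin s, (L j (Fin.natAdd k i)).ι → (X j).pt → ℂ)
    (n : Fin (k + s) → Fin r → ℤ) (t : ∀ e, (L 0 e).ι →
      ((((Bd.can 4 Y).pow (m e)).mul (M e)).pow (c 0 e)).ι → Y → ℂ)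
    (_ : IsPG χ M m ρ ι sg v₀ p P G f f' A L c σ n t)
    (a : Fin r → ℝ) (_ : ∀ l, a l = ∑ e, ρ e * n e l / c 0 e) (j : ℕ)
    (_ : DimLe (X (j + 1)) 1 {x | BadPN (f' j ⁻¹' Amin (f j))
      (Cor (⋃ l, G l) (fun y => p (v₀ y)) f f' (j + 1))
      (bad ι G {l | a l < -1} {i | 1 < ρ (Fin.natAdd k i)} ∪ cross ι G {l | -1 ≤ a l ∧ a l < 0})
      ({q | ∃ l, -1 ≤ a l ∧ a l < 0 ∧ q = (G l, -a l)} ∪
        {q | ∃ i, ρ (Fin.natAdd k i) = 1 ∧ q = (range (ι i), 1)})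
      (fun x => ∑ i : Fin s, (T3.zer (L (j + 1) (Fin.natAdd k i)) (σ (j + 1) i)).indicator
        (fun _ => ρ (Fin.natAdd k i)) x) x}),
    ∀ x, ¬ BadPt (f' j ⁻¹' Amin (f j)) (Cor (⋃ l, G l) (fun y => p (v₀ y)) f f' (j + 1))
      (bad ι G {l | a l < 0} {i | 1 ≤ ρ (Fin.natAdd k i)}) x

end Vale.Agent.P277.T3
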