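import Vale.Agent.P277.Stmts16

/-!
# P277, Theorem T5: arbitrary NQC pairs on varieties with a log Calabi-Yau structure

The flips of `D = K + B + M` are also the flips of `λ D + (1 - λ) (K + Δ + N)`, if
`K + Δ + N ∼_ℝ 0`. For small `λ > 0` the singularities of this generalized pair are those of
`(X 0, Δ + N)`.
-/

open scoped Manifold ContDiff Topology
open Vale.Agent.P272.K Vale.Agent.P285.H281.FD Vale.Agent.P267.H175 Set Metric Filter

noncomputable section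

namespace Vale.Agent.P277.T3

/-- The line bundle `L` on `X` is trivial: it has a section without zeros. -/
def IsTriv (X : CSp) (L : Bd X.pt) : Prop :=
  ∃ s : L.ι → X.pt → ℂ, IsSecx X univ L s ∧ ∀ i, ∀ x ∈ L.U i, s i x ≠ 0

/-- `∑ e, σ e • D e ∼_ℝ 0`, where `L e` is the line bundle defined by `c e • D e`: the divisor is a
real combination of integral combinations whose line bundles are trivial. -/
def IsRTriv {K : ℕ} (X : CSp) (L : Fin K → Bd X.pt) (c : Fin K → ℕ) (σ : Fin K → ℝ) : Prop :=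
  ∃ (b : ℕ) (n : Fin b → Fin K → ℤ) (x : Fin b → ℝ), (∀ a, IsTriv X (Bd.lin L (n a))) ∧
    ∀ e, σ e = ∑ a, x a * (n a e * c e)

/-- (T5) Let `(X 0, B + M)` be any NQC generalized pair (no condition on the singularities and the
coefficients), `K + B + M = ∑ e, ρ e • D e`, and let `(X 0, Δ + N)` be an NQC generalized pair with
`K + Δ + N = ∑ e, σ e • D e ∼_ℝ 0`. If the discrepancies of `(X 0, Δ + N)` are `> 0` and the
coefficients of `Δ` are `< 1`, then there is no infinite sequence of flips of `K + B + M`. More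
generally, let `N 0` contain the images of the `G l` and `H i` for which this is not true (a zero
discrepancy is allowed if the discrepancy of `(X 0, B + M)` is `≥ 0`, a coefficient `1` of `Δ` is
allowed if the coefficient of `B` is `< 1`); then there are infinitely many flips with a flipped
surface contained in the total transform `N (j + 1)` of `N 0`. -/
def StT5A : Prop :=
  ∀ (Y : Type) [TopologicalSpace Y] [T2Space Y] [CompactSpace Y] [ChartedSpace (Cm 4) Y]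
    [IsManifold 𝓘(ℂ, Cm 4) ω Y] (χ : Chart 4 Y → Cm 4 → Matrix (Fin 4) (Fin 4) ℂ)
    (_ : IsKahler χ) (k s : ℕ) (M : Fin (k + s) → Bd Y) (_ : ∀ e, IsLB 4 (M e))
    (_ : ∀ e : Fin k, Nef χ (M (Fin.castAdd s e))) (m : Fin (k + s) → ℕ)
    (_ : ∀ e : Fin k, 1 ≤ m (Fin.castAdd s e)) (_ : ∀ i : Fin s, m (Fin.natAdd k i) = 0)
    (ρ σ : Fin (k + s) → ℝ) (_ : ∀ e, 0 ≤ ρ e) (_ : ∀ e, 0 ≤ σ e) (_ : ∀ e, 0 < ρ e + σ e)
    (_ : ∑ e, ρ e * m e = 1) (_ : ∑ e, σ e * m e = 1) (H : Fin s → Type)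
    [∀ i, TopologicalSpace (H i)] [∀ i, T2Space (H i)] [∀ i, CompactSpace (H i)]
    [∀ i, ConnectedSpace (H i)] [∀ i, ChartedSpace (Cm 3) (H i)]
    [∀ i, IsManifold 𝓘(ℂ, Cm 3) ω (H i)] (ι : ∀ i, H i → Y)
    (sg : ∀ i : Fin s, (M (Fin.natAdd k i)).ι → Y → ℂ)
    (_ : ∀ i, IsBd (ι i) (M (Fin.natAdd k i)) (sg i))
    (_ : Pairwise fun i j => Disjoint (range (ι i)) (range (ι j)))
    (W : CSp) (X Z : ℕ → CSp) (r : ℕ) (v : Y → W.pt) (p : W.pt → (X 0).pt) (P : Bd W.pt)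
    (G : Fin r → Set Y) (_ : T2.IsRes v p P G) (_ : ∀ i, ¬ range (ι i) ⊆ ⋃ l, G l)
    (f : ∀ j, (X j).pt → (Z j).pt) (f' : ∀ j, (X (j + 1)).pt → (Z j).pt)
    (A : ∀ j, Set (Z j).pt) (L : ∀ j, Fin (k + s) → Bd (X j).pt) (c : ℕ → Fin (k + s) → ℕ)
    (_ : ∀ j e, 1 ≤ c j e) (n : Fin (k + s) → Fin r → ℤ)
    (_ : ∃ t, T2.IsCmpV (fun y => p (v y)) (L 0)
      (fun e => (((Bd.can 4 Y).pow (m e)).mul (M e)).pow (c 0 e)) G n t)
    (_ : ∀ j, IsFlipR (X j) (Z j) (X (j + 1)) (f j) (f' j) (A j) (L j) (L (j + 1)) (c j)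
      (c (j + 1)) ρ) (_ : IsRTriv (X 0) (L 0) (c 0) σ) (N : ∀ j, Set (X j).pt)
    (_ : ∀ l, (∑ e, σ e * n e l / c 0 e < 0 ∨
      (∑ e, σ e * n e l / c 0 e = 0 ∧ ∑ e, ρ e * n e l / c 0 e < 0)) → ∀ y ∈ G l, p (v y) ∈ N 0)
    (_ : ∀ i : Fin s, (1 < σ (Fin.natAdd k i) ∨
      (σ (Fin.natAdd k i) = 1 ∧ 1 ≤ ρ (Fin.natAdd k i))) → ∀ h, p (v (ι i h)) ∈ N 0)
    (_ : ∀ j, ∀ x ∈ N j, ∀ x', f' j x' = f j x → x' ∈ N (j + 1))
    (_ : ∀ j, DimLe (X (j + 1)) 1 {x | x ∈ N (j + 1) ∧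
      ∃ y y', f j y = f' j x ∧ f j y' = f' j x ∧ y ≠ y'}), False

end Vale.Agent.P277.T3
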