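import Vale.Agent.P277.Stmts34

/-!
# P277, (WZD): pairs with a weak Zariski decomposition
-/

open scoped Manifold ContDiff Topology
open Vale.Agent.P272.K Vale.Agent.P285.H281.FD Vale.Agent.P267.H175 Set Metric Filter

noncomputable section

namespace Vale.Agent.P277

/-- the pull back of the line bundle `L` by `v` -/
def Bd.pull {Y X : Type} (v : Y → X) (L : Bd X) : Bd Y where
  ι := L.ι
  U i := v ⁻¹' L.U i
  g i j y := L.g i j (v y)

namespace T3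

/-- `v^* D ∼_ℝ P + N` on `Y`, where `D = ∑ e, ρ e • D e`, and `L e` is the line bundle defined by
`c e • D e`, `P = ∑ b ∈ I, x b • N b` is a nonnegative combination of nef line bundles, and
`N = ∑ b ∉ I, x b • N b` is effective with support `E`: the line bundle `N b` has the section `τ b`, for
`b ∉ I`. -/
def IsWZ {Y : Type} [TopologicalSpace Y] [ChartedSpace (Cm 4) Y] {X : CSp} {K : ℕ}
    (χ : Chart 4 Y → Cm 4 → Matrix (Fin 4) (Fin 4) ℂ) (v : Y → X.pt) (L : Fin K → Bd X.pt)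
    (c : Fin K → ℕ) (ρ : Fin K → ℝ) (E : Set Y) : Prop :=
  ∃ (q : ℕ) (N : Fin q → Bd Y) (I : Set (Fin q)) (τ : ∀ b, (N b).ι → Y → ℂ) (x : Fin q → ℝ),
    (∀ b, IsLB 4 (N b)) ∧ (∀ b, 0 < x b) ∧ (∀ b ∈ I, Nef χ (N b)) ∧
    (∀ b ∉ I, IsSec 4 (N b) (τ b)) ∧
    (∀ y, y ∈ E ↔ ∃ b ∉ I, ∃ i, y ∈ (N b).U i ∧ τ b i y = 0) ∧
    ∃ (a : ℕ) (n : Fin a → Fin K → ℤ) (ν : Fin a → Fin q → ℤ) (u : Fin a → ℝ),
      (∀ l, ∃ θ, IsSec 4 ((Bd.lin (fun e => Bd.pull v (L e)) (n l)).mul (Bd.lin N (ν l))) θ ∧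
        ∀ y, NZ ((Bd.lin (fun e => Bd.pull v (L e)) (n l)).mul (Bd.lin N (ν l))) θ y) ∧
      (∀ e, ρ e = ∑ l, u l * (n l e * c e)) ∧ ∀ b, -x b = ∑ l, u l * ν l b

/-- (WZD) Let `(X j)` be an infinite sequence of flips of `D = K + B + M` as in (T8A). Assume that
infinitely many of the flipped loci have dimension two, or that infinitely many of the spaces `X j` have
resolutions. Let the pull back of `D` to the log resolution `Y` be `∼_ℝ P + N`, where `P` is nef (a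
nonnegative combination of nef line bundles), and `N ≥ 0` is an effective divisor with support `E`.
First part: `(1)` or `(2)` holds for infinitely many `j`:
(1) there is a flipped surface `S ⊆ X (j + 1)` such that the blow-up of `S` is exceptional over `Y`, and
centred on `Y` in the intersection of `E` and the set of the points of `Y` hit after the step `j` with an
`H i` with `b i ≥ 1`, or with a `G l` with `a l ≤ -1`, or with a `G l ⊆ E` with `-1 < a l < 0` which is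
hit infinitely often, or with an intersection `G l ∩ G l'` or `G l ∩ H i` with `-1 < a l < 0`,
`-1 < a l' < 0`,
(2) the space `X (j + 1)` is singular along a flipped surface which is contained in the total transform
of `C j` as in (T8A).
Second part: if `(X 0, B + M)` is klt (`a l > -1`, `b i < 1`), and the `G l` with `a l < 0` are
disjoint from each other and from the `H i`, then there is a `G l` with `a l < 0`, `G l ⊆ E`, which is
hit infinitely often. -/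
def StWZD : Prop :=
  ∀ (Y : Type) [TopologicalSpace Y] [T2Space Y] [CompactSpace Y] [ChartedSpace (Cm 4) Y]
    [IsManifold 𝓘(ℂ, Cm 4) ω Y] (χ : Chart 4 Y → Cm 4 → Matrix (Fin 4) (Fin 4) ℂ)
    (_ : IsKahler χ) (k s : ℕ) (M : Fin (k + s) → Bd Y) (_ : ∀ e, IsLB 4 (M e))
    (_ : ∀ e : Fin k, Nef χ (M (Fin.castAdd s e))) (m : Fin (k + s) → ℕ)
    (_ : ∀ e : Fin k, 1 ≤ m (Fin.castAdd s e)) (_ : ∀ i : Fin s, m (Fin.natAdd k i) = 0)
    (ρ : Fin (k + s) → ℝ) (_ : ∀ e, 0 < ρ e) (_ : ∑ e, ρ e * m e = 1) (H : Fin s → Type)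
    [∀ i, TopologicalSpace (H i)] [∀ i, T2Space (H i)] [∀ i, CompactSpace (H i)]
    [∀ i, ConnectedSpace (H i)] [∀ i, ChartedSpace (Cm 3) (H i)]
    [∀ i, IsManifold 𝓘(ℂ, Cm 3) ω (H i)] (ι : ∀ i, H i → Y)
    (sg : ∀ i : Fin s, (M (Fin.natAdd k i)).ι → Y → ℂ)
    (_ : ∀ i, IsBd (ι i) (M (Fin.natAdd k i)) (sg i))
    (_ : Pairwise fun i j => Disjoint (range (ι i)) (range (ι j)))
    (W : CSp) (X Z : ℕ → CSp) (r : ℕ) (v : Y → W.pt) (p : W.pt → (X 0).pt) (P : Bd W.pt)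
    (G : Fin r → Set Y) (_ : T2.IsRes v p P G) (_ : ∀ i, ¬ range (ι i) ⊆ ⋃ l, G l)
    (f : ∀ j, (X j).pt → (Z j).pt) (f' : ∀ j, (X (j + 1)).pt → (Z j).pt)
    (A : ∀ j, Set (Z j).pt) (L : ∀ j, Fin (k + s) → Bd (X j).pt) (c : ℕ → Fin (k + s) → ℕ)
    (_ : ∀ j e, 1 ≤ c j e) (n : Fin (k + s) → Fin r → ℤ)
    (_ : ∃ t, T2.IsCmpV (fun y => p (v y)) (L 0)
      (fun e => (((Bd.can 4 Y).pow (m e)).mul (M e)).pow (c 0 e)) G n t)
    (_ : ∀ j, IsFlipR (X j) (Z j) (X (j + 1)) (f j) (f' j) (A j) (L j) (L (j + 1)) (c j)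
      (c (j + 1)) ρ)
    (a : Fin r → ℝ) (_ : ∀ l, a l = ∑ e, ρ e * n e l / c 0 e) (E : Set Y)
    (_ : IsWZ χ (fun y => p (v y)) (L 0) (c 0) ρ E)
    (_ : ∀ N, ∃ j ≥ N, HasRes (X j) ∨ ¬ DimLe (X (j + 1)) 1 {x | f' j x ∈ Amin (f j)}),
    (¬ ∃ J, ∀ j ≥ J,
      DimLe (X (j + 1)) 1 {x | BadPt {x | f' j x ∈ Amin (f j)}
        (Cor (⋃ l, G l) (fun y => p (v y)) f f' (j + 1))
        (((bad ι G {l | a l < 0 ∧ (a l ≤ -1 ∨
              G l ⊆ E ∧ ZT (⋃ l, G l) (fun y => p (v y)) f f' (G l))}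
            {i | 1 ≤ ρ (Fin.natAdd k i)} ∪
          cross ι G {l | -1 < a l ∧ a l < 0}) ∩
            hitT (⋃ l, G l) (fun y => p (v y)) f f' j) ∩ E) x} ∧
      DimLe (X (j + 1)) 1 {x | f' j x ∈ Amin (f j) ∧ ¬ IsReg 4 (X (j + 1)) x ∧
        x ∈ Tot (Cor (⋃ l, G l) (fun y => p (v y)) f f' (j + 1))
          (closure ((bad ι G {l | a l < -1} {i | 1 < ρ (Fin.natAdd k i)} ∪
            cross ι G {l | -1 ≤ a l ∧ a l < 0}) ∩
              hitT (⋃ l, G l) (fun y => p (v y)) f f' j))}) ∧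
    ((∀ i : Fin s, ρ (Fin.natAdd k i) < 1) → (∀ l, -1 < a l) →
      (∀ l l', l ≠ l' → a l < 0 → a l' < 0 → Disjoint (G l) (G l')) →
      (∀ l i, a l < 0 → Disjoint (G l) (range (ι i))) →
      ∃ l, a l < 0 ∧ G l ⊆ E ∧ ZT (⋃ l, G l) (fun y => p (v y)) f f' (G l))

end Vale.Agent.P277.T3
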