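import Vale.Agent.P277.Stmts10

/-!
# P277, real coefficients and boundary: the core of REG (regularity at the generic points of the
flipped surfaces)
-/

open scoped Manifold ContDiff Topology
open Vale.Agent.P272.K Vale.Agent.P285.H281.FD Vale.Agent.P267.H175 Set Metric Filter

noncomputable section

namespace Vale.Agent.P277.T2

section
variable {Y : Type} [TopologicalSpace Y] [ChartedSpace (Cm 4) Y]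

/-- The wedge `φ` of `X` has at `w₁` a lift `γ` to `Y`, along which the functions `T e ^ K` are
`w 0 ^ ν e` times a unit, and the Jacobian is `O (w 0 ^ J)`, with
`∑ e, ρ e * ν e / (Q e * K) + J > 0`. -/
def LiftV {k : ℕ} {X : CSp} (O : Set Y) (v : Y → X.pt) (L : Fin k → Bd X.pt) (M : Fin k → Bd Y)
    (m Q : Fin k → ℕ)
    (T : ∀ e, (L e).ι → ((((Bd.can 4 Y).pow (m e)).mul (M e)).pow (Q e)).ι → Y → ℂ)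
    (ρ : Fin k → ℝ) (φ : Cm 4 → X.pt) (w₁ : Cm 4) : Prop :=
  ∃ (γ : Cm 4 → Y) (ch : Chart 4 Y) (μ : ∀ e, (M e).ι) (i : ∀ e, (L e).ι) (K : ℕ)
    (ν : Fin k → ℤ) (Φ : Fin k → Cm 4 → ℂ) (J : ℕ) (C : ℝ), 1 ≤ K ∧
    ContinuousAt γ w₁ ∧ At ch (γ w₁) ∧ (∀ e, γ w₁ ∈ (M e).U (μ e)) ∧
    AnalyticAt ℂ (fun w => ch (γ w)) w₁ ∧
    (∀ᶠ w in 𝓝 w₁, φ w ∈ v '' O → γ w ∈ O ∧ v (γ w) = φ w) ∧ (∀ e, φ w₁ ∈ (L e).U (i e)) ∧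
    (∀ e, AnalyticAt ℂ (Φ e) w₁ ∧ Φ e w₁ ≠ 0) ∧
    (∀ e, ∀ᶠ w in 𝓝 w₁, γ w ∈ O → w 0 ≠ 0 → T e (i e) (ch, μ e) (γ w) ^ K = w 0 ^ ν e * Φ e w) ∧
    (∀ᶠ w in 𝓝 w₁, ‖(fderiv ℂ (fun w => ch (γ w)) w).det‖ ≤ C * ‖w 0‖ ^ J) ∧
    0 < ∑ e, ρ e * ν e / (Q e * K) + J

end

/-- (REG core) if all wedges centred in `S` have a lift as in `LiftV`, then the generic points of `S`
are regular points of `X`. -/
def StRegCore : Prop :=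
  ∀ (Y : Type) [TopologicalSpace Y] [T2Space Y] [CompactSpace Y] [ChartedSpace (Cm 4) Y]
    [IsManifold 𝓘(ℂ, Cm 4) ω Y] (χ : Chart 4 Y → Cm 4 → Matrix (Fin 4) (Fin 4) ℂ)
    (_ : IsKahler χ) (k : ℕ) (M : Fin k → Bd Y) (_ : ∀ e, IsLB 4 (M e)) (_ : ∀ e, Nef χ (M e))
    (m : Fin k → ℕ) (_ : ∀ e, 1 ≤ m e) (ρ : Fin k → ℝ) (_ : ∀ e, 0 < ρ e)
    (_ : ∑ e, ρ e * m e = 1)
    (X : CSp) (_ : IsNormal 4 X) (O : Set Y) (v : Y → X.pt) (_ : IsOpenEmb X O v)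
    (_ : DimLe X 2 (v '' O)ᶜ) (L : Fin k → Bd X.pt) (_ : ∀ e, IsLBx X (L e)) (Q : Fin k → ℕ)
    (_ : ∀ e, 1 ≤ Q e)
    (T : ∀ e, (L e).ι → ((((Bd.can 4 Y).pow (m e)).mul (M e)).pow (Q e)).ι → Y → ℂ)
    (_ : ∀ e, IsIsoY O v (L e) ((((Bd.can 4 Y).pow (m e)).mul (M e)).pow (Q e)) (T e))
    (S : Set X.pt) (_ : IsAn X univ S) (_ : S ⊆ (v '' O)ᶜ)
    (_ : ∀ (W : Set (Cm 4)) (w₀ : Cm 4) (φ : Cm 4 → X.pt), IsOpen W → w₀ ∈ W → w₀ 0 = 0 →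
      (∀ w ∈ W, HolAt X φ w) → (∀ w ∈ W, w 0 = 0 → φ w ∈ S) →
      W ⊆ closure {w | w ∈ W ∧ φ w ∈ v '' O} →
      ∃ w₁ ∈ W, w₁ 0 = 0 ∧ LiftV O v L M m Q T ρ φ w₁),
    DimLe X 1 {x | x ∈ S ∧ ¬ IsReg 4 X x}

end Vale.Agent.P277.T2
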