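import Vale.Agent.P277.StmtsP

/-!
# P277, (P), localized
-/

open scoped Manifold ContDiff Topology
open Vale.Agent.P272.K Vale.Agent.P285.H281.FD Vale.Agent.P267.H175 Set Metric Filter

noncomputable section

namespace Vale.Agent.P277.T3

section

variable {Y : Type} [TopologicalSpace Y] [ChartedSpace (Cm 4) Y] {X : CSp}

/-- As `BadPN`; moreover `E` is centred in `C`. -/
def BadPC (S : Set X.pt) (Cr : Y → X.pt → Prop) (C Bad : Set Y) (Fs : Set (Set Y × ℝ))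
    (θ : X.pt → ℝ) (x : X.pt) : Prop :=
  ∃ (ξ : Cm 4 → X.pt) (r : ℝ) (W : Set (Cm 4)) (w₀ : Cm 4) (γ : Cm 4 → Y) (ch : Chart 4 Y),
    0 < r ∧ InjOn ξ (ball 0 r) ∧ (∀ W ⊆ ball 0 r, IsOpen W → IsOpen (ξ '' W)) ∧
    (∀ z ∈ ball (0 : Cm 4) r, ContinuousAt ξ z ∧
      ∀ f : X.pt → ℂ, X.Hol f (ξ z) ↔ AnalyticAt ℂ (f ∘ ξ) z) ∧
    (∀ z ∈ ball (0 : Cm 4) r, z 0 = 0 → z 1 = 0 → ξ z ∈ S) ∧
    IsOpen W ∧ w₀ ∈ W ∧ w₀ 0 = 0 ∧ ξ (bl w₀) = x ∧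
    (∀ w ∈ W, bl w ∈ ball (0 : Cm 4) r ∧ (∀ y, Cr y (ξ (bl w)) → γ w = y) ∧
      ContinuousAt γ w ∧ At ch (γ w) ∧ AnalyticAt ℂ (fun w => ch (γ w)) w ∧
      (w 0 = 0 → γ w ∈ C ∧ (fderiv ℂ (fun w => ch (γ w)) w).det = 0)) ∧
    ((∀ w ∈ W, w 0 = 0 → γ w ∈ Bad) ∨ ∃ q ∈ Fs, ∃ (g : ℕ) (ζ : Y → ℂ), 1 ≤ g ∧
      (∀ w ∈ W, w 0 = 0 → γ w ∈ q.1) ∧ T2.IsLEq q.1 (γ w₀) ζ ∧ OrdW (fun w => ζ (γ w)) g w₀ ∧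
      OrdW (fun w => (fderiv ℂ (fun w => ch (γ w)) w).det) g w₀ ∧ (1 - q.2) * g < 1 - θ x)

end

end Vale.Agent.P277.T3
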