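import Vale.Agent.P277.Stmts

/-!
# P277: statements of the packages for Theorem T1 (blueprint)
-/

open scoped Manifold ContDiff Topology
open Vale.Agent.P272.K Vale.Agent.P285.H281.FD Vale.Agent.P267.H175 Set

noncomputable section

namespace Vale.Agent.P277

/-- the points of `Z` with at least two preimages -/
def Amin {X Z : CSp} (f : X.pt → Z.pt) : Set Z.pt := {z | ∃ x x', f x = z ∧ f x' = z ∧ x ≠ x'}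

/-- (D0) one can take for `A` the set of points with at least two preimages. -/
def StD0 : Prop :=
  ∀ (X Z X' : CSp) (f : X.pt → Z.pt) (f' : X'.pt → Z.pt) (A : Set Z.pt) (L : Bd X.pt)
    (L' : Bd X'.pt), IsFlip X Z X' f f' A L L' → IsFlip X Z X' f f' (Amin f) L L' ∧
      Amin f = Amin f' ∧ Amin f ⊆ A

/-- `t` is an isomorphism of the line bundles `v^* L` and `M` over `O ⊆ Y`. -/
structure IsIsoY {Y : Type} [TopologicalSpace Y] [ChartedSpace (Cm 4) Y] {X : CSp} (O : Set Y)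
    (v : Y → X.pt) (L : Bd X.pt) (M : Bd Y) (t : L.ι → M.ι → Y → ℂ) : Prop where
  holo : ∀ y ∈ O, ∀ i j (e : Chart 4 Y), At e y → v y ∈ L.U i → y ∈ M.U j →
    AnalyticAt ℂ (fun z => t i j (e.symm z)) (e y) ∧ t i j y ≠ 0
  change : ∀ y ∈ O, ∀ i i₁ j j₁, v y ∈ L.U i → v y ∈ L.U i₁ → y ∈ M.U j → y ∈ M.U j₁ →
    t i₁ j₁ y = L.g i i₁ (v y) * t i j y * M.g j₁ j y

/-- (TA) a two-dimensional analytic set contains a coordinate bidisc through a regular point. -/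
def StTA : Prop :=
  ∀ (X : CSp) (S : Set X.pt), IsAn X univ S → DimLe X 2 S → ¬ DimLe X 1 S →
    DimLe X 1 {x | ¬ IsReg 4 X x} →
    ∃ (ξ : Cm 4 → X.pt) (r : ℝ), 0 < r ∧ InjOn ξ (Metric.ball 0 r) ∧
      (∀ W ⊆ Metric.ball 0 r, IsOpen W → IsOpen (ξ '' W)) ∧
      (∀ w ∈ Metric.ball (0 : Cm 4) r, ContinuousAt ξ w ∧
        ∀ f : X.pt → ℂ, X.Hol f (ξ w) ↔ AnalyticAt ℂ (f ∘ ξ) w) ∧
      ∀ w ∈ Metric.ball (0 : Cm 4) r, w 0 = 0 → w 1 = 0 → ξ w ∈ S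

/-- (TB) lifting wedges through a flip, and comparison of the orders along `{w 0 = 0}`. -/
def StTB : Prop :=
  ∀ (X Z X' : CSp) (f : X.pt → Z.pt) (f' : X'.pt → Z.pt) (A : Set Z.pt) (L : Bd X.pt)
    (L' : Bd X'.pt) (_ : IsFlip X Z X' f f' A L L') (_ : A = Amin f)
    (t : L.ι → L'.ι → Z.pt → ℂ) (_ : IsIso f f' A L L' t)
    (W : Set (Cm 4)) (_ : IsOpen W) (w₀ : Cm 4) (_ : w₀ ∈ W) (_ : w₀ 0 = 0)
    (γ' : Cm 4 → X'.pt) (_ : ∀ w ∈ W, HolAt X' γ' w)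
    (_ : W ⊆ closure {w | w ∈ W ∧ f' (γ' w) ∉ A}),
    ∃ w₁ ∈ W, w₁ 0 = 0 ∧ ∃ (W₁ : Set (Cm 4)) (γ : Cm 4 → X.pt) (k : ℕ), IsOpen W₁ ∧ w₁ ∈ W₁ ∧
      W₁ ⊆ W ∧ (∀ w ∈ W₁, HolAt X γ w ∧ f (γ w) = f' (γ' w)) ∧ 1 ≤ k ∧
      ∀ i j, (∀ w ∈ W₁, γ w ∈ L.U i) → (∀ w ∈ W₁, γ' w ∈ L'.U j) →
        ∃ H : Cm 4 → ℂ, (∀ w ∈ W₁, AnalyticAt ℂ H w) ∧
          (∀ w ∈ W₁, f (γ w) ∉ A → H w * t i j (f (γ w)) ^ k = 1) ∧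
          ((∀ w ∈ W, w 0 = 0 → f' (γ' w) ∈ A) → ∀ w ∈ W₁, w 0 = 0 → H w = 0)

/-- The blow-up chart. -/
def bl (w : Cm 4) : Cm 4 := ![w 0, w 0 * w 1, w 2, w 3]

/-- (TD) nef line bundles: a section without zeros outside a set of codimension 2 does not tend to
zero on the exceptional divisor. -/
def StTD : Prop :=
  ∀ (Y : Type) [TopologicalSpace Y] [T2Space Y] [CompactSpace Y] [ChartedSpace (Cm 4) Y]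
    [IsManifold 𝓘(ℂ, Cm 4) ω Y] (χ : Chart 4 Y → Cm 4 → Matrix (Fin 4) (Fin 4) ℂ)
    (_ : IsKahler χ) (M : Bd Y) (_ : IsLB 4 M) (_ : Nef χ M) (q : ℕ) (r : ℝ) (_ : 0 < r)
    (E₀ : Set (Cm 4)) (_ : IsOpen (Metric.ball (0 : Cm 4) r \ E₀))
    (Ω : ℕ → Set (Cm 2)) (g : ℕ → Cm 2 → Cm 4) (_ : ∀ k, IsOpen (Ω k))
    (_ : ∀ k, ∀ p ∈ Ω k, AnalyticAt ℂ (g k) p) (_ : E₀ ⊆ ⋃ k, g k '' Ω k)
    (ρ : Cm 4 → Y) (_ : ∀ x ∈ Metric.ball (0 : Cm 4) r \ E₀, ContinuousAt ρ x ∧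
      ∀ e : Chart 4 Y, At e (ρ x) → AnalyticAt ℂ (fun z => e (ρ z)) x)
    (n : M.ι → Cm 4 → ℂ) (_ : ∀ i, ∀ x ∈ Metric.ball (0 : Cm 4) r \ E₀, ρ x ∈ M.U i →
      AnalyticAt ℂ (n i) x ∧ n i x ≠ 0)
    (_ : ∀ i j, ∀ x ∈ Metric.ball (0 : Cm 4) r \ E₀, ρ x ∈ M.U i → ρ x ∈ M.U j →
      n i x = M.g i j (ρ x) ^ q * n j x)
    (w₀ : Cm 4) (_ : w₀ 0 = 0) (_ : bl w₀ ∈ Metric.ball (0 : Cm 4) r) (γ₀ : Cm 4 → Y)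
    (_ : ContinuousAt γ₀ w₀) (_ : ∀ e : Chart 4 Y, At e (γ₀ w₀) →
      AnalyticAt ℂ (fun z => e (γ₀ z)) w₀)
    (_ : ∀ᶠ w in 𝓝 w₀, bl w ∉ E₀ → γ₀ w = ρ (bl w)) (i : M.ι) (_ : γ₀ w₀ ∈ M.U i)
    (ν : ℕ) (_ : 1 ≤ ν) (Φ : Cm 4 → ℂ) (_ : ContinuousAt Φ w₀) (_ : Φ w₀ ≠ 0)
    (_ : ∀ᶠ w in 𝓝 w₀, bl w ∉ E₀ → n i (bl w) = w 0 ^ ν * Φ w), False

/-- (T1) `Y` compact Kähler fourfold, `M` a nef line bundle, `D = K_Y + (1/m) M`: a sequence of `N`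
`D`-flips starting with `X 0 = Y`, such that the `X j` are smooth in codimension two, has length
`N ≤ b_4(Y)`. -/
def StT1 : Prop :=
  ∀ (Y : Type) [TopologicalSpace Y] [T2Space Y] [CompactSpace Y] [ChartedSpace (Cm 4) Y]
    [IsManifold 𝓘(ℂ, Cm 4) ω Y] (χ : Chart 4 Y → Cm 4 → Matrix (Fin 4) (Fin 4) ℂ)
    (_ : IsKahler χ) (M : Bd Y) (_ : IsLB 4 M) (_ : Nef χ M) (m : ℕ) (_ : 1 ≤ m)
    (b : ℕ) (a : Fin b → Fm 4 Y)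
    (_ : ∀ c : Fm 4 Y, (∀ y, SmAt c y ∧ dF c y = 0) → ∃ (t : Fin b → ℝ) (β : Fm 3 Y),
      (∀ y, SmAt β y) ∧ ∀ y, c y = ∑ i, t i • a i y + dF β y)
    (N : ℕ) (X Z : ℕ → CSp) (v : Y → (X 0).pt) (_ : IsOpenEmb (X 0) univ v)
    (_ : Function.Surjective v) (f : ∀ j, (X j).pt → (Z j).pt)
    (f' : ∀ j, (X (j + 1)).pt → (Z j).pt) (A : ∀ j, Set (Z j).pt) (L : ∀ j, Bd (X j).pt)
    (_ : ∃ c : ℕ, 1 ≤ c ∧ ∃ t, IsIsoY univ v (L 0) ((((Bd.can 4 Y).pow m).mul M).pow c) t)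
    (_ : ∀ j < N, ∃ p q : ℕ, 1 ≤ p ∧ 1 ≤ q ∧
      IsFlip (X j) (Z j) (X (j + 1)) (f j) (f' j) (A j) ((L j).pow p) ((L (j + 1)).pow q))
    (_ : ∀ j ≤ N, DimLe (X j) 1 {x | ¬ IsReg 4 (X j) x}), N ≤ b

end Vale.Agent.P277
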