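import Vale.Agent.P277.Stmts6

/-!
# P277, Theorem T3 (boundary): wedges with centre in a smooth hypersurface
-/

open scoped Manifold ContDiff Topology
open Vale.Agent.P272.K Vale.Agent.P285.H281.FD Vale.Agent.P267.H175 Set Metric Filter

noncomputable section

namespace Vale.Agent.P277.T3

/-- `ψ` is a local isomorphism at `w`. -/
def LocIso (ψ : Cm 4 → Cm 4) (w : Cm 4) : Prop := AnalyticAt ℂ ψ w ∧ (fderiv ℂ ψ w).det ≠ 0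

/-- The chart of the weighted blow-up of the surface `{z 0 = z 1 = 0}` with the weights `(g, 1)`. -/
def bet (g : ℕ) (w : Cm 4) : Cm 4 := ![w 0 ^ g * w 1, w 0, w 2, w 3]

/-- (FAC) a wedge `γ` with centre in the hypersurface `{z 0 = 0}`, `g` the order of `z 0` and `J` the
order of the Jacobian: `J ≥ g - 1`; if `J = g - 1`, the centre is open in the hypersurface; if
`J = g`, then `γ` is, near generic points of `{w 0 = 0}`, the chart `bet g` up to local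
isomorphisms. -/
def StFac : Prop :=
  ∀ (γ : Cm 4 → Cm 4) (w₁ : Cm 4) (_ : AnalyticAt ℂ γ w₁) (_ : w₁ 0 = 0) (g J : ℕ) (_ : 1 ≤ g)
    (u u' : Cm 4 → ℂ) (_ : AnalyticAt ℂ u w₁) (_ : u w₁ ≠ 0) (_ : AnalyticAt ℂ u' w₁)
    (_ : u' w₁ ≠ 0) (_ : ∀ᶠ w in 𝓝 w₁, γ w 0 = w 0 ^ g * u w)
    (_ : ∀ᶠ w in 𝓝 w₁, (fderiv ℂ γ w).det = w 0 ^ J * u' w),
    g ≤ J + 1 ∧
      (J + 1 = g →
        (Matrix.of fun i j : Fin 3 => fderiv ℂ γ w₁ (Pi.single j.succ 1) i.succ).det ≠ 0) ∧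
      (J = g → ∃ᶠ w₂ in 𝓝 w₁, w₂ 0 = 0 ∧ ∃ ψ Ψ : Cm 4 → Cm 4, LocIso ψ w₂ ∧
        LocIso Ψ (bet g (ψ w₂)) ∧ (∀ᶠ w in 𝓝 w₂, ψ w 0 = 0 ↔ w 0 = 0) ∧
        (∀ᶠ z in 𝓝 (bet g (ψ w₂)), Ψ z 0 = 0 ↔ z 0 = 0) ∧
        ∀ᶠ w in 𝓝 w₂, γ w = Ψ (bet g (ψ w)))

end Vale.Agent.P277.T3
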