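import Vale.Agent.P277.Stmts13

/-!
# P277, Theorem T4 (arbitrary NQC generalized pairs): the flips must meet the non-canonical locus

There are no conditions on the singularities of the pair. `N 0 ⊆ X 0` contains the images of the
exceptional hypersurfaces `G l` with negative discrepancy and the components `B i` of the boundary
with coefficient `≥ 1`, and `N (j + 1) ⊆ X (j + 1)` is the inverse image of the image of `N j`. If no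
flipped surface is contained in `N (j + 1)`, then the sequence of flips is finite.
-/

open scoped Manifold ContDiff Topology
open Vale.Agent.P272.K Vale.Agent.P285.H281.FD Vale.Agent.P267.H175 Set Metric Filter

noncomputable section

namespace Vale.Agent.P277.T3

/-- the union of the hypersurfaces `G l`, `l ∈ I`, and `H i`, `i ∈ I'` -/
def bad {Y : Type} {s r : ℕ} {H : Fin s → Type} (ι : ∀ i, H i → Y) (G : Fin r → Set Y)
    (I : Set (Fin r)) (I' : Set (Fin s)) : Set Y := (⋃ l ∈ I, G l) ∪ ⋃ i ∈ I', range (ι i)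

/-- A sequence of flips starting with an NQC generalized pair `(X 0, B + M)`, which is canonical with
`⌊B⌋ = 0` outside the set `N 0` (the image of `G l`, `l ∈ I`, and `H i`, `i ∈ I'`). No flipped surface
is contained in the total transform `N (j + 1)` of `N 0`. -/
structure IsPN {Y : Type} [TopologicalSpace Y] [ChartedSpace (Cm 4) Y]
    (χ : Chart 4 Y → Cm 4 → Matrix (Fin 4) (Fin 4) ℂ) {k s : ℕ} (M : Fin (k + s) → Bd Y)
    (m : Fin (k + s) → ℕ) (ρ : Fin (k + s) → ℝ) {H : Fin s → Type} [∀ i, TopologicalSpace (H i)]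
    [∀ i, ChartedSpace (Cm 3) (H i)] (ι : ∀ i, H i → Y)
    (sg : ∀ i : Fin s, (M (Fin.natAdd k i)).ι → Y → ℂ) {W : CSp} {X Z : ℕ → CSp} {r : ℕ}
    (v₀ : Y → W.pt) (p : W.pt → (X 0).pt) (P : Bd W.pt) (G : Fin r → Set Y)
    (f : ∀ j, (X j).pt → (Z j).pt) (f' : ∀ j, (X (j + 1)).pt → (Z j).pt)
    (A : ∀ j, Set (Z j).pt) (L : ∀ j, Fin (k + s) → Bd (X j).pt) (c : ℕ → Fin (k + s) → ℕ)
    (σ : ∀ j, ∀ i : Fin s, (L j (Fin.natAdd k i)).ι → (X j).pt → ℂ)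
    (n : Fin (k + s) → Fin r → ℤ) (t : ∀ e, (L 0 e).ι →
      ((((Bd.can 4 Y).pow (m e)).mul (M e)).pow (c 0 e)).ι → Y → ℂ)
    (I : Set (Fin r)) (I' : Set (Fin s)) (N : ∀ j, Set (X j).pt) : Prop where
  kahler : IsKahler χ
  lb : ∀ e, IsLB 4 (M e)
  nef : ∀ e : Fin k, Nef χ (M (Fin.castAdd s e))
  pos : ∀ e : Fin k, 1 ≤ m (Fin.castAdd s e)
  m0 : ∀ i : Fin s, m (Fin.natAdd k i) = 0
  rho : ∀ e, 0 < ρ e
  sum : ∑ e, ρ e * m e = 1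
  lt : ∀ i : Fin s, i ∉ I' → ρ (Fin.natAdd k i) < 1
  bd : ∀ i, IsBd (ι i) (M (Fin.natAdd k i)) (sg i)
  disj : Pairwise fun i j => Disjoint (range (ι i)) (range (ι j))
  res : T2.IsRes v₀ p P G
  ne : ∀ i, ¬ range (ι i) ⊆ ⋃ l, G l
  c1 : ∀ j e, 1 ≤ c j e
  cmp : T2.IsCmpV (fun y => p (v₀ y)) (L 0)
    (fun e => (((Bd.can 4 Y).pow (m e)).mul (M e)).pow (c 0 e)) G n t
  corr : ∀ i a ch b y, y ∉ ⋃ l, G l → p (v₀ y) ∈ (L 0 (Fin.natAdd k i)).U a → At ch y →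
    y ∈ (M (Fin.natAdd k i)).U b →
      σ 0 i a (p (v₀ y)) * t (Fin.natAdd k i) a (ch, b) y = sg i b y ^ c 0 (Fin.natAdd k i)
  canon : ∀ l ∉ I, 0 ≤ ∑ e, ρ e * n e l / c 0 e
  flip : ∀ j, IsFlipB (X j) (Z j) (X (j + 1)) (f j) (f' j) (A j) (L j) (L (j + 1)) (c j)
    (c (j + 1)) ρ (σ j) (σ (j + 1))
  N0 : N 0 = (fun y => p (v₀ y)) '' bad ι G I I'
  Nsucc : ∀ j, N (j + 1) = f' j ⁻¹' (f j '' N j)
  N1 : ∀ j, DimLe (X (j + 1)) 1 (N (j + 1) ∩ f' j ⁻¹' Amin (f j))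

/-- (T4) there is no infinite sequence of flips for which no flipped surface is contained in the total
transform of the non-canonical locus of the NQC generalized pair `(X 0, B + M)`. -/
def StT4 : Prop :=
  ∀ (Y : Type) [TopologicalSpace Y] [T2Space Y] [CompactSpace Y] [ChartedSpace (Cm 4) Y]
    [IsManifold 𝓘(ℂ, Cm 4) ω Y] (χ : Chart 4 Y → Cm 4 → Matrix (Fin 4) (Fin 4) ℂ) (k s : ℕ)
    (M : Fin (k + s) → Bd Y) (m : Fin (k + s) → ℕ) (ρ : Fin (k + s) → ℝ) (H : Fin s → Type)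
    [∀ i, TopologicalSpace (H i)] [∀ i, T2Space (H i)] [∀ i, CompactSpace (H i)]
    [∀ i, ConnectedSpace (H i)] [∀ i, ChartedSpace (Cm 3) (H i)]
    [∀ i, IsManifold 𝓘(ℂ, Cm 3) ω (H i)] (ι : ∀ i, H i → Y)
    (sg : ∀ i : Fin s, (M (Fin.natAdd k i)).ι → Y → ℂ) (W : CSp) (X Z : ℕ → CSp) (r : ℕ)
    (v₀ : Y → W.pt) (p : W.pt → (X 0).pt) (P : Bd W.pt) (G : Fin r → Set Y)
    (f : ∀ j, (X j).pt → (Z j).pt) (f' : ∀ j, (X (j + 1)).pt → (Z j).pt)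
    (A : ∀ j, Set (Z j).pt) (L : ∀ j, Fin (k + s) → Bd (X j).pt) (c : ℕ → Fin (k + s) → ℕ)
    (σ : ∀ j, ∀ i : Fin s, (L j (Fin.natAdd k i)).ι → (X j).pt → ℂ)
    (n : Fin (k + s) → Fin r → ℤ) (t : ∀ e, (L 0 e).ι →
      ((((Bd.can 4 Y).pow (m e)).mul (M e)).pow (c 0 e)).ι → Y → ℂ)
    (I : Set (Fin r)) (I' : Set (Fin s)) (N : ∀ j, Set (X j).pt),
    ¬ IsPN χ M m ρ ι sg v₀ p P G f f' A L c σ n t I I' N

/-- (REGN) in a sequence of flips as in T4 the generic points of the flipped surfaces are regular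
points. -/
def StRegN : Prop :=
  ∀ (Y : Type) [TopologicalSpace Y] [T2Space Y] [CompactSpace Y] [ChartedSpace (Cm 4) Y]
    [IsManifold 𝓘(ℂ, Cm 4) ω Y] (χ : Chart 4 Y → Cm 4 → Matrix (Fin 4) (Fin 4) ℂ) (k s : ℕ)
    (M : Fin (k + s) → Bd Y) (m : Fin (k + s) → ℕ) (ρ : Fin (k + s) → ℝ) (H : Fin s → Type)
    [∀ i, TopologicalSpace (H i)] [∀ i, T2Space (H i)] [∀ i, CompactSpace (H i)]
    [∀ i, ConnectedSpace (H i)] [∀ i, ChartedSpace (Cm 3) (H i)]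
    [∀ i, IsManifold 𝓘(ℂ, Cm 3) ω (H i)] (ι : ∀ i, H i → Y)
    (sg : ∀ i : Fin s, (M (Fin.natAdd k i)).ι → Y → ℂ) (W : CSp) (X Z : ℕ → CSp) (r : ℕ)
    (v₀ : Y → W.pt) (p : W.pt → (X 0).pt) (P : Bd W.pt) (G : Fin r → Set Y)
    (f : ∀ j, (X j).pt → (Z j).pt) (f' : ∀ j, (X (j + 1)).pt → (Z j).pt)
    (A : ∀ j, Set (Z j).pt) (L : ∀ j, Fin (k + s) → Bd (X j).pt) (c : ℕ → Fin (k + s) → ℕ)
    (σ : ∀ j, ∀ i : Fin s, (L j (Fin.natAdd k i)).ι → (X j).pt → ℂ)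
    (n : Fin (k + s) → Fin r → ℤ) (t : ∀ e, (L 0 e).ι →
      ((((Bd.can 4 Y).pow (m e)).mul (M e)).pow (c 0 e)).ι → Y → ℂ)
    (I : Set (Fin r)) (I' : Set (Fin s)) (N : ∀ j, Set (X j).pt)
    (_ : IsPN χ M m ρ ι sg v₀ p P G f f' A L c σ n t I I' N),
    ∀ j, DimLe (X (j + 1)) 1 {x | x ∈ f' j ⁻¹' Amin (f j) ∧ ¬ IsReg 4 (X (j + 1)) x}

/-- (P7N) Let `β` be a real number. If the surfaces of `H μ` are eventually not contracted, for all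
`μ ∉ I'` with `b μ > β`, then the flipped surfaces are eventually not contained in `B ν`, for all `ν`
with `b ν ≥ β`, and, if `β ≤ 0`, there are eventually no flipped surfaces. -/
def StP7N : Prop :=
  ∀ (Y : Type) [TopologicalSpace Y] [T2Space Y] [CompactSpace Y] [ChartedSpace (Cm 4) Y]
    [IsManifold 𝓘(ℂ, Cm 4) ω Y] (χ : Chart 4 Y → Cm 4 → Matrix (Fin 4) (Fin 4) ℂ) (k s : ℕ)
    (M : Fin (k + s) → Bd Y) (m : Fin (k + s) → ℕ) (ρ : Fin (k + s) → ℝ) (H : Fin s → Type)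
    [∀ i, TopologicalSpace (H i)] [∀ i, T2Space (H i)] [∀ i, CompactSpace (H i)]
    [∀ i, ConnectedSpace (H i)] [∀ i, ChartedSpace (Cm 3) (H i)]
    [∀ i, IsManifold 𝓘(ℂ, Cm 3) ω (H i)] (ι : ∀ i, H i → Y)
    (sg : ∀ i : Fin s, (M (Fin.natAdd k i)).ι → Y → ℂ) (W : CSp) (X Z : ℕ → CSp) (r : ℕ)
    (v₀ : Y → W.pt) (p : W.pt → (X 0).pt) (P : Bd W.pt) (G : Fin r → Set Y)
    (f : ∀ j, (X j).pt → (Z j).pt) (f' : ∀ j, (X (j + 1)).pt → (Z j).pt)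
    (A : ∀ j, Set (Z j).pt) (L : ∀ j, Fin (k + s) → Bd (X j).pt) (c : ℕ → Fin (k + s) → ℕ)
    (σ : ∀ j, ∀ i : Fin s, (L j (Fin.natAdd k i)).ι → (X j).pt → ℂ)
    (n : Fin (k + s) → Fin r → ℤ) (t : ∀ e, (L 0 e).ι →
      ((((Bd.can 4 Y).pow (m e)).mul (M e)).pow (c 0 e)).ι → Y → ℂ)
    (I : Set (Fin r)) (I' : Set (Fin s)) (N : ∀ j, Set (X j).pt)
    (_ : IsPN χ M m ρ ι sg v₀ p P G f f' A L c σ n t I I' N)
    (O : ℕ → Set Y) (v : ∀ j, Y → (X j).pt) (_ : IsSeq X Z f f' (fun j => Amin (f j)) O v)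
    (_ : O 0 = (⋃ l, G l)ᶜ) (_ : v 0 = fun y => p (v₀ y)) (β : ℝ)
    (_ : ∀ μ : Fin s, μ ∉ I' → β < ρ (Fin.natAdd k μ) →
      ∃ J, ∀ j ≥ J, ThinM 3 1 (ι μ ⁻¹' O j \ ι μ ⁻¹' O (j + 1))),
    ∃ J, ∀ j ≥ J, DimLe (X (j + 1)) 1 {x | x ∈ f' j ⁻¹' Amin (f j) ∧
      (β ≤ 0 ∨ ∃ ν : Fin s, β ≤ ρ (Fin.natAdd k ν) ∧
        x ∈ zer (L (j + 1) (Fin.natAdd k ν)) (σ (j + 1) ν))}

/-- (T4F) Theorem T4: there is no infinite sequence of flips, starting with an NQC generalized pair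
`(X 0, B + M)`, such that no flipped surface is contained in the total transform `N (j + 1)` of the
non-canonical locus `N 0`. Here `N 0` contains the images of the `G l` with negative discrepancy and
of the `H i` with coefficient `b i ≥ 1`. -/
def StT4F : Prop :=
  ∀ (Y : Type) [TopologicalSpace Y] [T2Space Y] [CompactSpace Y] [ChartedSpace (Cm 4) Y]
    [IsManifold 𝓘(ℂ, Cm 4) ω Y] (χ : Chart 4 Y → Cm 4 → Matrix (Fin 4) (Fin 4) ℂ)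
    (_ : IsKahler χ) (k s : ℕ) (M : Fin (k + s) → Bd Y) (_ : ∀ e, IsLB 4 (M e))
    (_ : ∀ e : Fin k, Nef χ (M (Fin.castAdd s e))) (m : Fin (k + s) → ℕ)
    (_ : ∀ e : Fin k, 1 ≤ m (Fin.castAdd s e)) (_ : ∀ i : Fin s, m (Fin.natAdd k i) = 0)
    (ρ : Fin (k + s) → ℝ) (_ : ∀ e, 0 < ρ e) (_ : ∑ e, ρ e * m e = 1) (H : Fin s → Type)
    [∀ i, TopologicalSpace (H i)] [∀ i, T2Space (H i)] [∀ i, CompactSpace (H i)]
    [∀ i, ConnectedSpace (H i)] [∀ i, ChartedSpace (Cm 3) (H i)]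
    [∀ i, IsManifold 𝓘(ℂ, Cm 3) ω (H i)] (ι : ∀ i, H i → Y)
    (sg : ∀ i : Fin s, (M (Fin.natAdd k i)).ι → Y → ℂ)
    (_ : ∀ i, IsBd (ι i) (M (Fin.natAdd k i)) (sg i))
    (_ : Pairwise fun i j => Disjoint (range (ι i)) (range (ι j)))
    (W : CSp) (X Z : ℕ → CSp) (r : ℕ) (v : Y → W.pt) (p : W.pt → (X 0).pt) (P : Bd W.pt)
    (G : Fin r → Set Y) (_ : T2.IsRes v p P G) (_ : ∀ i, ¬ range (ι i) ⊆ ⋃ l, G l)
    (f : ∀ j, (X j).pt → (Z j).pt) (f' : ∀ j, (X (j + 1)).pt → (Z j).pt)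
    (A : ∀ j, Set (Z j).pt) (L : ∀ j, Fin (k + s) → Bd (X j).pt) (c : ℕ → Fin (k + s) → ℕ)
    (_ : ∀ j e, 1 ≤ c j e) (n : Fin (k + s) → Fin r → ℤ)
    (_ : ∃ t, T2.IsCmpV (fun y => p (v y)) (L 0)
      (fun e => (((Bd.can 4 Y).pow (m e)).mul (M e)).pow (c 0 e)) G n t)
    (_ : ∀ j, IsFlipR (X j) (Z j) (X (j + 1)) (f j) (f' j) (A j) (L j) (L (j + 1)) (c j)
      (c (j + 1)) ρ)
    (N : ∀ j, Set (X j).pt)
    (_ : ∀ l, ∑ e, ρ e * n e l / c 0 e < 0 → ∀ y ∈ G l, p (v y) ∈ N 0)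
    (_ : ∀ i : Fin s, 1 ≤ ρ (Fin.natAdd k i) → ∀ h, p (v (ι i h)) ∈ N 0)
    (_ : ∀ j, ∀ x ∈ N j, ∀ x', f' j x' = f j x → x' ∈ N (j + 1))
    (_ : ∀ j, DimLe (X (j + 1)) 1 {x | x ∈ N (j + 1) ∧ ∃ y y', f j y = f' j x ∧ f j y' = f' j x ∧
      y ≠ y'}), False

end Vale.Agent.P277.T3
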