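import Vale.Agent.P277.Stmts16

/-!
# P277, Theorem T5: arbitrary NQC pairs, and flips which are nonpositive for a canonical pair
-/

open scoped Manifold ContDiff Topology
open Vale.Agent.P272.K Vale.Agent.P285.H281.FD Vale.Agent.P267.H175 Set Metric Filter

noncomputable section

namespace Vale.Agent.P277.T3

/-- (T5N) Let `(X 0, B + M)` be any NQC generalized pair (no condition on the singularities and the
coefficients), `D = K + B + M = ∑ e, ρ e • D e`, and let `(X 0, Δ + N)` be an NQC generalized pair,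
`D' = K + Δ + N = ∑ e, σ e • D e`. We consider sequences of flips of `D` which are nonpositive for
`D'`: the maps `X j ⇢ X (j + 1)` are flips of `t D + (1 - t) D'` for all `0 < t ≤ 1` (for a flip of
`D` this means that `-D'` is `f j`-nef and the strict transform of `D'` is `f' j`-nef; it is true if
`D' ∼_ℝ λ D`, `λ ≥ 0`). If the discrepancies of `(X 0, Δ + N)` are `> 0` and the coefficients of `Δ`
are `< 1`, then there is no infinite sequence of such flips. More generally, let `N 0` contain the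
images of the `G l` and `H i` for which this is not true (a zero discrepancy is allowed if the
discrepancy of `(X 0, B + M)` is `≥ 0`, a coefficient `1` of `Δ` is allowed if the coefficient of `B`
is `< 1`); then, in an infinite sequence of flips, some flipped surface is contained in the total
transform `N (j + 1)` of `N 0`. -/
def StT5N : Prop :=
  ∀ (Y : Type) [TopologicalSpace Y] [T2Space Y] [CompactSpace Y] [ChartedSpace (Cm 4) Y]
    [IsManifold 𝓘(ℂ, Cm 4) ω Y] (χ : Chart 4 Y → Cm 4 → Matrix (Fin 4) (Fin 4) ℂ)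
    (_ : IsKahler χ) (k s : ℕ) (M : Fin (k + s) → Bd Y) (_ : ∀ e, IsLB 4 (M e))
    (_ : ∀ e : Fin k, Nef χ (M (Fin.castAdd s e))) (m : Fin (k + s) → ℕ)
    (_ : ∀ e : Fin k, 1 ≤ m (Fin.castAdd s e)) (_ : ∀ i : Fin s, m (Fin.natAdd k i) = 0)
    (ρ σ : Fin (k + s) → ℝ) (_ : ∀ e, 0 ≤ ρ e) (_ : ∀ e, 0 ≤ σ e) (_ : ∀ e, 0 < ρ e + σ e)
    (_ : ∑ e, ρ e * m e = 1) (_ : ∑ e, σ e * m e = 1) (H : Fin s → Type)
    [∀ i, TopologicalSpace (H i)] [∀ i, T2Space (H i)] [∀ i, CompactSpace (H i)]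
    [∀ i, ConnectedSpace (H i)] [∀ i, ChartedSpace (Cm 3) (H i)]
    [∀ i, IsManifold 𝓘(ℂ, Cm 3) ω (H i)] (ι : ∀ i, H i → Y)
    (sg : ∀ i : Fin s, (M (Fin.natAdd k i)).ι → Y → ℂ)
    (_ : ∀ i, IsBd (ι i) (M (Fin.natAdd k i)) (sg i))
    (_ : Pairwise fun i j => Disjoint (range (ι i)) (range (ι j)))
    (W : CSp) (X Z : ℕ → CSp) (r : ℕ) (v : Y → W.pt) (p : W.pt → (X 0).pt) (P : Bd W.pt)
    (G : Fin r → Set Y) (_ : T2.IsRes v p P G) (_ : ∀ i, ¬ range (ι i) ⊆ ⋃ l, G l)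
    (f : ∀ j, (X j).pt → (Z j).pt) (f' : ∀ j, (X (j + 1)).pt → (Z j).pt)
    (A : ∀ j, Set (Z j).pt) (L : ∀ j, Fin (k + s) → Bd (X j).pt) (c : ℕ → Fin (k + s) → ℕ)
    (_ : ∀ j e, 1 ≤ c j e) (n : Fin (k + s) → Fin r → ℤ)
    (_ : ∃ t, T2.IsCmpV (fun y => p (v y)) (L 0)
      (fun e => (((Bd.can 4 Y).pow (m e)).mul (M e)).pow (c 0 e)) G n t)
    (_ : ∀ j, ∀ t : ℝ, 0 < t → t ≤ 1 → IsFlipR (X j) (Z j) (X (j + 1)) (f j) (f' j) (A j) (L j)
      (L (j + 1)) (c j) (c (j + 1)) fun e => t * ρ e + (1 - t) * σ e)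
    (N : ∀ j, Set (X j).pt)
    (_ : ∀ l, (∑ e, σ e * n e l / c 0 e < 0 ∨
      (∑ e, σ e * n e l / c 0 e = 0 ∧ ∑ e, ρ e * n e l / c 0 e < 0)) → ∀ y ∈ G l, p (v y) ∈ N 0)
    (_ : ∀ i : Fin s, (1 < σ (Fin.natAdd k i) ∨
      (σ (Fin.natAdd k i) = 1 ∧ 1 ≤ ρ (Fin.natAdd k i))) → ∀ h, p (v (ι i h)) ∈ N 0)
    (_ : ∀ j, ∀ x ∈ N j, ∀ x', f' j x' = f j x → x' ∈ N (j + 1))
    (_ : ∀ j, DimLe (X (j + 1)) 1 {x | x ∈ N (j + 1) ∧
      ∃ y y', f j y = f' j x ∧ f j y' = f' j x ∧ y ≠ y'}), False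

end Vale.Agent.P277.T3
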