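import Vale.Agent.P277.Stmts23

/-!
# P277, (E): flips inside a closed analytic set `E`; the `G l` which are not contained in the preimage
of `E` are harmless
-/

open scoped Manifold ContDiff Topology
open Vale.Agent.P272.K Vale.Agent.P285.H281.FD Vale.Agent.P267.H175 Set Metric Filter

noncomputable section

namespace Vale.Agent.P277.T3

/-- The flips take place inside `E`: `E 0` is a closed analytic subset of `X 0`, the flipping loci are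
contained in `E j`, and `E (j + 1)` is contained in the total transform of `E j`. -/
structure FlipsIn {X Z : ℕ → CSp} (f : ∀ j, (X j).pt → (Z j).pt)
    (f' : ∀ j, (X (j + 1)).pt → (Z j).pt) (E : ∀ j, Set (X j).pt) : Prop where
  an : IsAn (X 0) univ (E 0)
  locus : ∀ j x, f j x ∈ Amin (f j) → x ∈ E j
  trans : ∀ j x x', f j x = f' j x' → x' ∈ E (j + 1) → x ∈ E j

/-- (REGE) The generic points of the flipped surfaces are regular points, if this is true for the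
surfaces in the total transform of the intersections with the preimage of `E 0` of the `G l`, `l ∈ I`,
of the `H i`, `i ∈ I'`, and of the intersections of the `G l`, `l ∈ K`, with each other and with the
`H i`, and for the surfaces in the centres of the `G l`, `l ∈ K`, which are contained in the preimage
of `E 0`. -/
def StRegE : Prop :=
  ∀ (Y : Type) [TopologicalSpace Y] [T2Space Y] [CompactSpace Y] [ChartedSpace (Cm 4) Y]
    [IsManifold 𝓘(ℂ, Cm 4) ω Y] (χ : Chart 4 Y → Cm 4 → Matrix (Fin 4) (Fin 4) ℂ) (k s : ℕ)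
    (M : Fin (k + s) → Bd Y) (m : Fin (k + s) → ℕ) (ρ : Fin (k + s) → ℝ) (H : Fin s → Type)
    [∀ i, TopologicalSpace (H i)] [∀ i, T2Space (H i)] [∀ i, CompactSpace (H i)]
    [∀ i, ConnectedSpace (H i)] [∀ i, ChartedSpace (Cm 3) (H i)]
    [∀ i, IsManifold 𝓘(ℂ, Cm 3) ω (H i)] (ι : ∀ i, H i → Y)
    (sg : ∀ i : Fin s, (M (Fin.natAdd k i)).ι → Y → ℂ) (W : CSp) (X Z : ℕ → CSp) (r : ℕ)
    (v₀ : Y → W.pt) (p : W.pt → (X 0).pt) (P : Bd W.pt) (G : Fin r → Set Y)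
    (f : ∀ j, (X j).pt → (Z j).pt) (f' : ∀ j, (X (j + 1)).pt → (Z j).pt)
    (A : ∀ j, Set (Z j).pt) (L : ∀ j, Fin (k + s) → Bd (X j).pt) (c : ℕ → Fin (k + s) → ℕ)
    (σ : ∀ j, ∀ i : Fin s, (L j (Fin.natAdd k i)).ι → (X j).pt → ℂ)
    (n : Fin (k + s) → Fin r → ℤ) (t : ∀ e, (L 0 e).ι →
      ((((Bd.can 4 Y).pow (m e)).mul (M e)).pow (c 0 e)).ι → Y → ℂ)
    (_ : IsPG χ M m ρ ι sg v₀ p P G f f' A L c σ n t)
    (E : ∀ j, Set (X j).pt) (_ : FlipsIn f f' E)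
    (I K : Set (Fin r)) (I' : Set (Fin s))
    (_ : ∀ l, l ∉ I → l ∉ K → 0 ≤ ∑ e, ρ e * n e l / c 0 e)
    (_ : ∀ i ∉ I', ρ (Fin.natAdd k i) ≤ 1) (_ : ∀ l ∈ K, -1 ≤ ∑ e, ρ e * n e l / c 0 e)
    (_ : ∀ j, DimLe (X (j + 1)) 1 {x | x ∈ f' j ⁻¹' Amin (f j) ∧ ¬ IsReg 4 (X (j + 1)) x ∧
      (x ∈ Tot (Cor (⋃ l, G l) (fun y => p (v₀ y)) f f' (j + 1))
        ((bad ι G I I' ∪ cross ι G K) ∩ {y | p (v₀ y) ∈ E 0}) ∨
        x ∈ closure (Val (Cor (⋃ l, G l) (fun y => p (v₀ y)) f f' (j + 1))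
          (⋃ l ∈ {l | l ∈ K ∧ G l ⊆ {y | p (v₀ y) ∈ E 0}}, G l)))}),
    ∀ j, DimLe (X (j + 1)) 1 {x | x ∈ f' j ⁻¹' Amin (f j) ∧ ¬ IsReg 4 (X (j + 1)) x}

/-- (T4EF) Let `(X j)` be an infinite sequence of flips of `K + B + M`, starting with an NQC
generalized pair `(X 0, B + M)` (no condition on the singularities and the coefficients). Suppose that
the flips take place inside the closed analytic set `E 0 ⊆ X 0` (and its transforms), with preimage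
`Eh ⊆ Y`. Then
(1) for infinitely many `j` there is a flipped surface `S ⊆ X (j + 1)` such that the blow-up of `S` is
exceptional over `Y`, and centred on `Y` in the intersection of `Eh` with an `H i` with `b i ≥ 1`, or
with a `G l` with discrepancy `a l < 0`, and with `a l ≤ -1` or `G l ⊆ Eh`, or with an intersection
`G l ∩ G l'` or `G l ∩ H i` with `-1 < a l < 0`, `-1 < a l' < 0`, or
(2) there is a flipped surface `S ⊆ X (j + 1)` such that `X (j + 1)` is singular along `S`, and `S` is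
the centre of a `G l ⊆ Eh` with `-1 ≤ a l < 0`, or is contained in the total transform of the
intersections with `Eh` of the `G l` with `a l < -1`, of the `H i` with `b i > 1`, and of the
intersections `G l ∩ G l'` and `G l ∩ H i` with `a l < 0`, `a l' < 0`. -/
def StT4EF : Prop :=
  ∀ (Y : Type) [TopologicalSpace Y] [T2Space Y] [CompactSpace Y] [ChartedSpace (Cm 4) Y]
    [IsManifold 𝓘(ℂ, Cm 4) ω Y] (χ : Chart 4 Y → Cm 4 → Matrix (Fin 4) (Fin 4) ℂ)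
    (_ : IsKahler χ) (k s : ℕ) (M : Fin (k + s) → Bd Y) (_ : ∀ e, IsLB 4 (M e))
    (_ : ∀ e : Fin k, Nef χ (M (Fin.castAdd s e))) (m : Fin (k + s) → ℕ)
    (_ : ∀ e : Fin k, 1 ≤ m (Fin.castAdd s e)) (_ : ∀ i : Fin s, m (Fin.natAdd k i) = 0)
    (ρ : Fin (k + s) → ℝ) (_ : ∀ e, 0 < ρ e) (_ : ∑ e, ρ e * m e = 1) (H : Fin s → Type)
    [∀ i, TopologicalSpace (H i)] [∀ i, T2Space (H i)] [∀ i, CompactSpace (H i)]
    [∀ i, ConnectedSpace (H i)] [∀ i, ChartedSpace (Cm 3) (H i)]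
    [∀ i, IsManifold 𝓘(ℂ, Cm 3) ω (H i)] (ι : ∀ i, H i → Y)
    (sg : ∀ i : Fin s, (M (Fin.natAdd k i)).ι → Y → ℂ)
    (_ : ∀ i, IsBd (ι i) (M (Fin.natAdd k i)) (sg i))
    (_ : Pairwise fun i j => Disjoint (range (ι i)) (range (ι j)))
    (W : CSp) (X Z : ℕ → CSp) (r : ℕ) (v : Y → W.pt) (p : W.pt → (X 0).pt) (P : Bd W.pt)
    (G : Fin r → Set Y) (_ : T2.IsRes v p P G) (_ : ∀ i, ¬ range (ι i) ⊆ ⋃ l, G l)
    (f : ∀ j, (X j).pt → (Z j).pt) (f' : ∀ j, (X (j + 1)).pt → (Z j).pt)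
    (A : ∀ j, Set (Z j).pt) (L : ∀ j, Fin (k + s) → Bd (X j).pt) (c : ℕ → Fin (k + s) → ℕ)
    (_ : ∀ j e, 1 ≤ c j e) (n : Fin (k + s) → Fin r → ℤ)
    (_ : ∃ t, T2.IsCmpV (fun y => p (v y)) (L 0)
      (fun e => (((Bd.can 4 Y).pow (m e)).mul (M e)).pow (c 0 e)) G n t)
    (_ : ∀ j, IsFlipR (X j) (Z j) (X (j + 1)) (f j) (f' j) (A j) (L j) (L (j + 1)) (c j)
      (c (j + 1)) ρ)
    (E : ∀ j, Set (X j).pt) (_ : FlipsIn f f' E)
    (a : Fin r → ℝ) (_ : ∀ l, a l = ∑ e, ρ e * n e l / c 0 e)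
    (_ : ∀ j, DimLe (X (j + 1)) 1 {x | f' j x ∈ Amin (f j) ∧ ¬ IsReg 4 (X (j + 1)) x ∧
      (x ∈ Tot (Cor (⋃ l, G l) (fun y => p (v y)) f f' (j + 1))
        ((bad ι G {l | a l < -1} {i | 1 < ρ (Fin.natAdd k i)} ∪
          cross ι G {l | -1 ≤ a l ∧ a l < 0}) ∩ {y | p (v y) ∈ E 0}) ∨
      x ∈ closure (Val (Cor (⋃ l, G l) (fun y => p (v y)) f f' (j + 1))
        (⋃ l ∈ {l | (-1 ≤ a l ∧ a l < 0) ∧ G l ⊆ {y | p (v y) ∈ E 0}}, G l)))})
    (_ : ∃ J, ∀ j ≥ J, DimLe (X (j + 1)) 1 {x | BadPt {x | f' j x ∈ Amin (f j)}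
      (Cor (⋃ l, G l) (fun y => p (v y)) f f' (j + 1))
      ((bad ι G {l | a l < 0 ∧ (a l ≤ -1 ∨ G l ⊆ {y | p (v y) ∈ E 0})}
          {i | 1 ≤ ρ (Fin.natAdd k i)} ∪
        cross ι G {l | (-1 < a l ∧ a l < 0) ∧ ¬ G l ⊆ {y | p (v y) ∈ E 0}}) ∩
          {y | p (v y) ∈ E 0}) x}), False

/-- (T4EK) Termination for klt pairs: let `(X 0, B + M)` be a klt NQC generalized pair (`a l > -1`,
`b i < 1`) with a log resolution such that the `G l` with `a l < 0` are disjoint from each other and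
from the `H i`. There is no infinite sequence of flips which takes place inside a closed analytic set
`E 0 ⊆ X 0` which contains no centre `p (v (G l))` with `a l < 0`. -/
def StT4EK : Prop :=
  ∀ (Y : Type) [TopologicalSpace Y] [T2Space Y] [CompactSpace Y] [ChartedSpace (Cm 4) Y]
    [IsManifold 𝓘(ℂ, Cm 4) ω Y] (χ : Chart 4 Y → Cm 4 → Matrix (Fin 4) (Fin 4) ℂ)
    (_ : IsKahler χ) (k s : ℕ) (M : Fin (k + s) → Bd Y) (_ : ∀ e, IsLB 4 (M e))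
    (_ : ∀ e : Fin k, Nef χ (M (Fin.castAdd s e))) (m : Fin (k + s) → ℕ)
    (_ : ∀ e : Fin k, 1 ≤ m (Fin.castAdd s e)) (_ : ∀ i : Fin s, m (Fin.natAdd k i) = 0)
    (ρ : Fin (k + s) → ℝ) (_ : ∀ e, 0 < ρ e) (_ : ∑ e, ρ e * m e = 1) (H : Fin s → Type)
    [∀ i, TopologicalSpace (H i)] [∀ i, T2Space (H i)] [∀ i, CompactSpace (H i)]
    [∀ i, ConnectedSpace (H i)] [∀ i, ChartedSpace (Cm 3) (H i)]
    [∀ i, IsManifold 𝓘(ℂ, Cm 3) ω (H i)] (ι : ∀ i, H i → Y)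
    (sg : ∀ i : Fin s, (M (Fin.natAdd k i)).ι → Y → ℂ)
    (_ : ∀ i, IsBd (ι i) (M (Fin.natAdd k i)) (sg i))
    (_ : Pairwise fun i j => Disjoint (range (ι i)) (range (ι j)))
    (_ : ∀ i : Fin s, ρ (Fin.natAdd k i) < 1)
    (W : CSp) (X Z : ℕ → CSp) (r : ℕ) (v : Y → W.pt) (p : W.pt → (X 0).pt) (P : Bd W.pt)
    (G : Fin r → Set Y) (_ : T2.IsRes v p P G) (_ : ∀ i, ¬ range (ι i) ⊆ ⋃ l, G l)
    (f : ∀ j, (X j).pt → (Z j).pt) (f' : ∀ j, (X (j + 1)).pt → (Z j).pt)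
    (A : ∀ j, Set (Z j).pt) (L : ∀ j, Fin (k + s) → Bd (X j).pt) (c : ℕ → Fin (k + s) → ℕ)
    (_ : ∀ j e, 1 ≤ c j e) (n : Fin (k + s) → Fin r → ℤ)
    (_ : ∃ t, T2.IsCmpV (fun y => p (v y)) (L 0)
      (fun e => (((Bd.can 4 Y).pow (m e)).mul (M e)).pow (c 0 e)) G n t)
    (_ : ∀ j, IsFlipR (X j) (Z j) (X (j + 1)) (f j) (f' j) (A j) (L j) (L (j + 1)) (c j)
      (c (j + 1)) ρ)
    (a : Fin r → ℝ) (_ : ∀ l, a l = ∑ e, ρ e * n e l / c 0 e) (_ : ∀ l, -1 < a l)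
    (_ : ∀ l l', l ≠ l' → a l < 0 → a l' < 0 → Disjoint (G l) (G l'))
    (_ : ∀ l i, a l < 0 → Disjoint (G l) (range (ι i)))
    (E : ∀ j, Set (X j).pt) (_ : FlipsIn f f' E)
    (_ : ∀ l, a l < 0 → ∃ y ∈ G l, p (v y) ∉ E 0), False

end Vale.Agent.P277.T3
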