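import Vale.Agent.P277.Stmts24
import Vale.Agent.P277.Stmts17

/-!
# P277, (E): flips of effective divisors
-/

open scoped Manifold ContDiff Topology
open Vale.Agent.P272.K Vale.Agent.P285.H281.FD Vale.Agent.P267.H175 Set Metric Filter

noncomputable section

namespace Vale.Agent.P277.T3

/-- `D = ∑ e, ρ e • D e ∼_ℝ F ≥ 0` with support `E`, where `L e` is the line bundle defined by
`c e • D e`: here `F = ∑ b, x b • F b`, `x b > 0`, and `F b` is the effective Cartier divisor of the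
section `τ b` of the line bundle `N b`. The relation `D - F ∼_ℝ 0` means that `D - F` is a real
combination of integral combinations of the `L e` and `N b` which are trivial line bundles. -/
def IsREff {K : ℕ} (X : CSp) (L : Fin K → Bd X.pt) (c : Fin K → ℕ) (ρ : Fin K → ℝ)
    (E : Set X.pt) : Prop :=
  ∃ (q : ℕ) (N : Fin q → Bd X.pt) (τ : ∀ b, (N b).ι → X.pt → ℂ) (x : Fin q → ℝ),
    (∀ b, IsLBx X (N b)) ∧ (∀ b, IsSecx X univ (N b) (τ b)) ∧ (∀ b, 0 < x b) ∧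
    (∀ y, y ∈ E ↔ ∃ b i, y ∈ (N b).U i ∧ τ b i y = 0) ∧
    ∃ (a : ℕ) (n : Fin a → Fin K → ℤ) (ν : Fin a → Fin q → ℤ) (u : Fin a → ℝ),
      (∀ l, IsTriv X ((Bd.lin L (n l)).mul (Bd.lin N (ν l)))) ∧
      (∀ e, ρ e = ∑ l, u l * (n l e * c e)) ∧ ∀ b, -x b = ∑ l, u l * ν l b

/-- (T4ES) Termination for klt pairs with effective `K + B + M`: let `(X 0, B + M)` be a klt NQC
generalized pair (`a l > -1`, `b i < 1`) with a log resolution such that the `G l` with `a l < 0` are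
disjoint from each other and from the `H i`. If `K + B + M ∼_ℝ F ≥ 0` and no centre `p (v (G l))` with
`a l < 0` is contained in the support `E₀` of `F`, then there is no infinite sequence of flips. -/
def StT4ES : Prop :=
  ∀ (Y : Type) [TopologicalSpace Y] [T2Space Y] [CompactSpace Y] [ChartedSpace (Cm 4) Y]
    [IsManifold 𝓘(ℂ, Cm 4) ω Y] (χ : Chart 4 Y → Cm 4 → Matrix (Fin 4) (Fin 4) ℂ)
    (_ : IsKahler χ) (k s : ℕ) (M : Fin (k + s) → Bd Y) (_ : ∀ e, IsLB 4 (M e))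
    (_ : ∀ e : Fin k, Nef χ (M (Fin.castAdd s e))) (m : Fin (k + s) → ℕ)
    (_ : ∀ e : Fin k, 1 ≤ m (Fin.castAdd s e)) (_ : ∀ i : Fin s, m (Fin.natAdd k i) = 0)
    (ρ : Fin (k + s) → ℝ) (_ : ∀ e, 0 < ρ e) (_ : ∑ e, ρ e * m e = 1) (H : Fin s → Type)
    [∀ i, TopologicalSpace (H i)] [∀ i, T2Space (H i)] [∀ i, CompactSpace (H i)]
    [∀ i, ConnectedSpace (H i)] [∀ i, ChartedSpace (Cm 3) (H i)]
    [∀ i, IsManifold 𝓘(ℂ, Cm 3) ω (H i)] (ι : ∀ i, H i → Y)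
    (sg : ∀ i : Fin s, (M (Fin.natAdd k i)).ι → Y → ℂ)
    (_ : ∀ i, IsBd (ι i) (M (Fin.natAdd k i)) (sg i))
    (_ : Pairwise fun i j => Disjoint (range (ι i)) (range (ι j)))
    (_ : ∀ i : Fin s, ρ (Fin.natAdd k i) < 1)
    (W : CSp) (X Z : ℕ → CSp) (r : ℕ) (v : Y → W.pt) (p : W.pt → (X 0).pt) (P : Bd W.pt)
    (G : Fin r → Set Y) (_ : T2.IsRes v p P G) (_ : ∀ i, ¬ range (ι i) ⊆ ⋃ l, G l)
    (f : ∀ j, (X j).pt → (Z j).pt) (f' : ∀ j, (X (j + 1)).pt → (Z j).pt)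
    (A : ∀ j, Set (Z j).pt) (L : ∀ j, Fin (k + s) → Bd (X j).pt) (c : ℕ → Fin (k + s) → ℕ)
    (_ : ∀ j e, 1 ≤ c j e) (n : Fin (k + s) → Fin r → ℤ)
    (_ : ∃ t, T2.IsCmpV (fun y => p (v y)) (L 0)
      (fun e => (((Bd.can 4 Y).pow (m e)).mul (M e)).pow (c 0 e)) G n t)
    (_ : ∀ j, IsFlipR (X j) (Z j) (X (j + 1)) (f j) (f' j) (A j) (L j) (L (j + 1)) (c j)
      (c (j + 1)) ρ)
    (a : Fin r → ℝ) (_ : ∀ l, a l = ∑ e, ρ e * n e l / c 0 e) (_ : ∀ l, -1 < a l)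
    (_ : ∀ l l', l ≠ l' → a l < 0 → a l' < 0 → Disjoint (G l) (G l'))
    (_ : ∀ l i, a l < 0 → Disjoint (G l) (range (ι i)))
    (E₀ : Set (X 0).pt) (_ : IsREff (X 0) (L 0) (c 0) ρ E₀)
    (_ : ∀ l, a l < 0 → ∃ y ∈ G l, p (v y) ∉ E₀), False

end Vale.Agent.P277.T3
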