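import Vale.Agent.P277.Stmts27
import Vale.Agent.P277.Stmts29

/-!
# P277, (T6H): the singular flipped surfaces
-/

open scoped Manifold ContDiff Topology
open Vale.Agent.P272.K Vale.Agent.P285.H281.FD Vale.Agent.P267.H175 Set Metric Filter

noncomputable section

namespace Vale.Agent.P277.T3

/-- (T6H) Let `(X j)` be an infinite sequence of flips as in (T7H), and `Hith ⊆ Y` the preimage of the
set of the points of `X 0` hit by the flips. Let `C` be the closure of the intersection with `Hith` of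
the `G l` with `a l < -1`, of the `H i` with `b i > 1`, and of the intersections `G l ∩ G l'` and
`G l ∩ H i` with `a l < 0`, `a l' < 0`.
First part: for all but finitely many `j`, the space `X (j + 1)` is generically regular along all the
flipped surfaces which are not contained in the total transform of `C`.
Second part: if infinitely many of the spaces `X j` have resolutions, then `(1)` or `(2)` holds for
infinitely many `j`:
(1) as in (T7H): there is a flipped surface `S ⊆ X (j + 1)` such that the blow-up of `S` is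
exceptional over `Y`, and centred on `Y` in the intersection of `Hith` with an `H i` with `b i ≥ 1`, or
with a `G l` with discrepancy `a l ≤ -1`, or with a `G l` with `-1 < a l < 0` which is hit, or with an
intersection `G l ∩ G l'` or `G l ∩ H i` with `-1 < a l < 0`, `-1 < a l' < 0`,
(2) the space `X (j + 1)` is singular along a flipped surface which is contained in the total transform
of `C`. -/
def StT6H : Prop :=
  ∀ (Y : Type) [TopologicalSpace Y] [T2Space Y] [CompactSpace Y] [ChartedSpace (Cm 4) Y]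
    [IsManifold 𝓘(ℂ, Cm 4) ω Y] (χ : Chart 4 Y → Cm 4 → Matrix (Fin 4) (Fin 4) ℂ)
    (_ : IsKahler χ) (k s : ℕ) (M : Fin (k + s) → Bd Y) (_ : ∀ e, IsLB 4 (M e))
    (_ : ∀ e : Fin k, Nef χ (M (Fin.castAdd s e))) (m : Fin (k + s) → ℕ)
    (_ : ∀ e : Fin k, 1 ≤ m (Fin.castAdd s e)) (_ : ∀ i : Fin s, m (Fin.natAdd k i) = 0)
    (ρ : Fin (k + s) → ℝ) (_ : ∀ e, 0 < ρ e) (_ : ∑ e, ρ e * m e = 1) (H : Fin s → Type)
    [∀ i, TopologicalSpace (H i)] [∀ i, T2Space (H i)] [∀ i, CompactSpace (H i)]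
    [∀ i, ConnectedSpace (H i)] [∀ i, ChartedSpace (Cm 3) (H i)]
    [∀ i, IsManifold 𝓘(ℂ, Cm 3) ω (H i)] (ι : ∀ i, H i → Y)
    (sg : ∀ i : Fin s, (M (Fin.natAdd k i)).ι → Y → ℂ)
    (_ : ∀ i, IsBd (ι i) (M (Fin.natAdd k i)) (sg i))
    (_ : Pairwise fun i j => Disjoint (range (ι i)) (range (ι j)))
    (W : CSp) (X Z : ℕ → CSp) (r : ℕ) (v : Y → W.pt) (p : W.pt → (X 0).pt) (P : Bd W.pt)
    (G : Fin r → Set Y) (_ : T2.IsRes v p P G) (_ : ∀ i, ¬ range (ι i) ⊆ ⋃ l, G l)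
    (f : ∀ j, (X j).pt → (Z j).pt) (f' : ∀ j, (X (j + 1)).pt → (Z j).pt)
    (A : ∀ j, Set (Z j).pt) (L : ∀ j, Fin (k + s) → Bd (X j).pt) (c : ℕ → Fin (k + s) → ℕ)
    (_ : ∀ j e, 1 ≤ c j e) (n : Fin (k + s) → Fin r → ℤ)
    (_ : ∃ t, T2.IsCmpV (fun y => p (v y)) (L 0)
      (fun e => (((Bd.can 4 Y).pow (m e)).mul (M e)).pow (c 0 e)) G n t)
    (_ : ∀ j, IsFlipR (X j) (Z j) (X (j + 1)) (f j) (f' j) (A j) (L j) (L (j + 1)) (c j)
      (c (j + 1)) ρ)
    (a : Fin r → ℝ) (_ : ∀ l, a l = ∑ e, ρ e * n e l / c 0 e),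
    (∃ J, ∀ j ≥ J, DimLe (X (j + 1)) 1 {x | f' j x ∈ Amin (f j) ∧ ¬ IsReg 4 (X (j + 1)) x ∧
      x ∉ Tot (Cor (⋃ l, G l) (fun y => p (v y)) f f' (j + 1))
        (closure ((bad ι G {l | a l < -1} {i | 1 < ρ (Fin.natAdd k i)} ∪
          cross ι G {l | -1 ≤ a l ∧ a l < 0}) ∩ {y | p (v y) ∈ hit f f'}))}) ∧
    ((∀ N, ∃ j ≥ N, HasRes (X j)) → ¬ ∃ J, ∀ j ≥ J,
      DimLe (X (j + 1)) 1 {x | BadPt {x | f' j x ∈ Amin (f j)}
        (Cor (⋃ l, G l) (fun y => p (v y)) f f' (j + 1))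
        ((bad ι G {l | a l < 0 ∧ (a l ≤ -1 ∨ ZD (fun y => p (v y)) (hit f f') (G l))}
            {i | 1 ≤ ρ (Fin.natAdd k i)} ∪
          cross ι G {l | -1 < a l ∧ a l < 0}) ∩ {y | p (v y) ∈ hit f f'}) x} ∧
      DimLe (X (j + 1)) 1 {x | f' j x ∈ Amin (f j) ∧ ¬ IsReg 4 (X (j + 1)) x ∧
        x ∈ Tot (Cor (⋃ l, G l) (fun y => p (v y)) f f' (j + 1))
          (closure ((bad ι G {l | a l < -1} {i | 1 < ρ (Fin.natAdd k i)} ∪
            cross ι G {l | -1 ≤ a l ∧ a l < 0}) ∩ {y | p (v y) ∈ hit f f'}))})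

end Vale.Agent.P277.T3
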