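import Vale.Agent.P277.Stmts31

/-!
# P277, (T8): the hit points, for the tails of the sequence
-/

open scoped Manifold ContDiff Topology
open Vale.Agent.P272.K Vale.Agent.P285.H281.FD Vale.Agent.P267.H175 Set Metric Filter

noncomputable section

namespace Vale.Agent.P277.T3

/-- The points `y` of `Y` which are hit after the step `J`: the map `Y ⇢ X J` is not continuous at `y`
(has no limit), or the image of `y` in some `X j`, `j ≥ J`, is contained in the flipping locus. -/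
def hitT {Y : Type} [TopologicalSpace Y] {X Z : ℕ → CSp} (D : Set Y) (v : Y → (X 0).pt)
    (f : ∀ j, (X j).pt → (Z j).pt) (f' : ∀ j, (X (j + 1)).pt → (Z j).pt) (J : ℕ) : Set Y :=
  {y | ¬ ∀ j ≥ J, ∃ x, f j x ∉ Amin (f j) ∧
    ∀ U ∈ 𝓝 x, ∀ᶠ y' in 𝓝 y, ∀ x', Cor D v f f' j y' x' → x' ∈ U}

/-- for every `J` the points of `B` which are hit after the step `J` are Zariski dense in `B` -/
def ZT {Y : Type} [TopologicalSpace Y] [ChartedSpace (Cm 4) Y] {X Z : ℕ → CSp} (D : Set Y)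
    (v : Y → (X 0).pt) (f : ∀ j, (X j).pt → (Z j).pt) (f' : ∀ j, (X (j + 1)).pt → (Z j).pt)
    (B : Set Y) : Prop :=
  ∀ J C, IsClosed C → (∀ y, IsAnAt 4 C y) → B ∩ hitT D v f f' J ⊆ C → B ⊆ C

/-- (T8) Let `(X j)` be an infinite sequence of flips of `D = K + B + M`, starting with an NQC
generalized pair `(X 0, B + M)` (no condition on the singularities and the coefficients), with a log
resolution `Y`. Suppose that infinitely many of the spaces `X j` have resolutions. Call `G l` hit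
infinitely often if, for every `J`, the points of `G l` which are hit after the step `J` are Zariski
dense in `G l`.
First part: `(1)` or `(2)` holds for infinitely many `j`, where
(1) there is a flipped surface `S ⊆ X (j + 1)` such that the blow-up of `S` is exceptional over `Y`, and
centred on `Y` in the intersection of the set of the points hit after the step `j` with an `H i` with
`b i ≥ 1`, or with a `G l` with discrepancy `a l ≤ -1`, or with a `G l` with `-1 < a l < 0` which is hit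
infinitely often, or with an intersection `G l ∩ G l'` or `G l ∩ H i` with `-1 < a l < 0`,
`-1 < a l' < 0`,
(2) the space `X (j + 1)` is singular along a flipped surface which is contained in the total transform
of the closure of the intersection with the preimage of the hit points of the `G l` with `a l < -1`, of
the `H i` with `b i > 1`, and of the intersections `G l ∩ G l'` and `G l ∩ H i` with `a l < 0`,
`a l' < 0`.
Second part: if `(X 0, B + M)` is klt (`a l > -1`, `b i < 1`), and the `G l` with `a l < 0` are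
disjoint from each other and from the `H i`, then a `G l` with `a l < 0` is hit infinitely often. -/
def StT8 : Prop :=
  ∀ (Y : Type) [TopologicalSpace Y] [T2Space Y] [CompactSpace Y] [ChartedSpace (Cm 4) Y]
    [IsManifold 𝓘(ℂ, Cm 4) ω Y] (χ : Chart 4 Y → Cm 4 → Matrix (Fin 4) (Fin 4) ℂ)
    (_ : IsKahler χ) (k s : ℕ) (M : Fin (k + s) → Bd Y) (_ : ∀ e, IsLB 4 (M e))
    (_ : ∀ e : Fin k, Nef χ (M (Fin.castAdd s e))) (m : Fin (k + s) → ℕ)
    (_ : ∀ e : Fin k, 1 ≤ m (Fin.castAdd s e)) (_ : ∀ i : Fin s, m (Fin.natAdd k i) = 0)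
    (ρ : Fin (k + s) → ℝ) (_ : ∀ e, 0 < ρ e) (_ : ∑ e, ρ e * m e = 1) (H : Fin s → Type)
    [∀ i, TopologicalSpace (H i)] [∀ i, T2Space (H i)] [∀ i, CompactSpace (H i)]
    [∀ i, ConnectedSpace (H i)] [∀ i, ChartedSpace (Cm 3) (H i)]
    [∀ i, IsManifold 𝓘(ℂ, Cm 3) ω (H i)] (ι : ∀ i, H i → Y)
    (sg : ∀ i : Fin s, (M (Fin.natAdd k i)).ι → Y → ℂ)
    (_ : ∀ i, IsBd (ι i) (M (Fin.natAdd k i)) (sg i))
    (_ : Pairwise fun i j => Disjoint (range (ι i)) (range (ι j)))
    (W : CSp) (X Z : ℕ → CSp) (r : ℕ) (v : Y → W.pt) (p : W.pt → (X 0).pt) (P : Bd W.pt)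
    (G : Fin r → Set Y) (_ : T2.IsRes v p P G) (_ : ∀ i, ¬ range (ι i) ⊆ ⋃ l, G l)
    (f : ∀ j, (X j).pt → (Z j).pt) (f' : ∀ j, (X (j + 1)).pt → (Z j).pt)
    (A : ∀ j, Set (Z j).pt) (L : ∀ j, Fin (k + s) → Bd (X j).pt) (c : ℕ → Fin (k + s) → ℕ)
    (_ : ∀ j e, 1 ≤ c j e) (n : Fin (k + s) → Fin r → ℤ)
    (_ : ∃ t, T2.IsCmpV (fun y => p (v y)) (L 0)
      (fun e => (((Bd.can 4 Y).pow (m e)).mul (M e)).pow (c 0 e)) G n t)
    (_ : ∀ j, IsFlipR (X j) (Z j) (X (j + 1)) (f j) (f' j) (A j) (L j) (L (j + 1)) (c j)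
      (c (j + 1)) ρ)
    (_ : ∀ N, ∃ j ≥ N, HasRes (X j))
    (a : Fin r → ℝ) (_ : ∀ l, a l = ∑ e, ρ e * n e l / c 0 e),
    (¬ ∃ J, ∀ j ≥ J,
      DimLe (X (j + 1)) 1 {x | BadPt {x | f' j x ∈ Amin (f j)}
        (Cor (⋃ l, G l) (fun y => p (v y)) f f' (j + 1))
        ((bad ι G {l | a l < 0 ∧ (a l ≤ -1 ∨
            ZT (⋃ l, G l) (fun y => p (v y)) f f' (G l))} {i | 1 ≤ ρ (Fin.natAdd k i)} ∪
          cross ι G {l | -1 < a l ∧ a l < 0}) ∩
            hitT (⋃ l, G l) (fun y => p (v y)) f f' j) x} ∧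
      DimLe (X (j + 1)) 1 {x | f' j x ∈ Amin (f j) ∧ ¬ IsReg 4 (X (j + 1)) x ∧
        x ∈ Tot (Cor (⋃ l, G l) (fun y => p (v y)) f f' (j + 1))
          (closure ((bad ι G {l | a l < -1} {i | 1 < ρ (Fin.natAdd k i)} ∪
            cross ι G {l | -1 ≤ a l ∧ a l < 0}) ∩ {y | p (v y) ∈ hit f f'}))}) ∧
    ((∀ i : Fin s, ρ (Fin.natAdd k i) < 1) → (∀ l, -1 < a l) →
      (∀ l l', l ≠ l' → a l < 0 → a l' < 0 → Disjoint (G l) (G l')) →
      (∀ l i, a l < 0 → Disjoint (G l) (range (ι i))) →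
      ∃ l, a l < 0 ∧ ZT (⋃ l, G l) (fun y => p (v y)) f f' (G l))

end Vale.Agent.P277.T3
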