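import Vale.Agent.P277.Stmts26
import Mathlib.Data.Prod.Lex
import Mathlib.Algebra.Order.Group.PiLex

/-!
# P277, (T7), lexicographic form: flips which are nonpositive for a second divisor
-/

open scoped Manifold ContDiff Topology
open Vale.Agent.P272.K Vale.Agent.P285.H281.FD Vale.Agent.P267.H175 Set Metric Filter

noncomputable section

namespace Vale.Agent.P277.T3

/-- (T7G) Let `D = K + B + M = ∑ e, ρ e • D e` and `D' = K + Δ + N = ∑ e, σ e • D e` be the divisors of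
two NQC generalized pairs on `X 0` (no condition on the singularities and the coefficients), and let
`(X j)` be an infinite sequence of flips of `D` which are nonpositive for `D'`: the maps
`X j ⇢ X (j + 1)` are flips of `t D + (1 - t) D'` for all `0 < t ≤ 1` (this is no condition if
`D' = D`). Let `a l` be the pair (discrepancy of `G l` for `D'`, discrepancy of `G l` for `D`) and `b i`
the pair (coefficient of `H i` for `D'`, coefficient of `H i` for `D`), in `ℝ × ℝ` with the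
lexicographic order, `0 = (0, 0)`, `1 = (1, 1)`, `-1 = (-1, -1)`. Suppose that `D ∼_ℝ F ≥ 0` with
support `E₀`, or that the flips take place inside the closed analytic set `E₀` and its transforms (this
is no condition if `E₀ = X 0`); let `Eh ⊆ Y` be the preimage of `E₀`.
First part: `(1)` or `(2)` holds, where
(1) for infinitely many `j` there is a flipped surface `S ⊆ X (j + 1)` such that the blow-up of `S` is
exceptional over `Y`, and centred on `Y` in the intersection of `Eh` with an `H i` with `b i ≥ 1`, or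
with a `G l` with `a l < 0`, and with `a l ≤ -1` or `G l ⊆ Eh`, or with an intersection
`G l ∩ G l'` or `G l ∩ H i` with `-1 < a l < 0`, `-1 < a l' < 0`,
(2) there is a flipped surface `S ⊆ X (j + 1)` such that `X (j + 1)` is singular along `S`, and `S` is
the centre of a `G l ⊆ Eh` with `-1 ≤ a l < 0`, or is contained in the total transform of the
intersections with `Eh` of the `G l` with `a l < -1`, of the `H i` with `b i > 1`, and of the
intersections `G l ∩ G l'` and `G l ∩ H i` with `-1 ≤ a l < 0`, `-1 ≤ a l' < 0`.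
Second part: it is impossible that `a l > -1`, `b i < 1`, the `G l` with `a l < 0` are disjoint from
each other and from the `H i`, and no centre `p (v (G l))` with `a l < 0` is contained in `E₀`. -/
def StT7G : Prop :=
  ∀ (Y : Type) [TopologicalSpace Y] [T2Space Y] [CompactSpace Y] [ChartedSpace (Cm 4) Y]
    [IsManifold 𝓘(ℂ, Cm 4) ω Y] (χ : Chart 4 Y → Cm 4 → Matrix (Fin 4) (Fin 4) ℂ)
    (_ : IsKahler χ) (k s : ℕ) (M : Fin (k + s) → Bd Y) (_ : ∀ e, IsLB 4 (M e))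
    (_ : ∀ e : Fin k, Nef χ (M (Fin.castAdd s e))) (m : Fin (k + s) → ℕ)
    (_ : ∀ e : Fin k, 1 ≤ m (Fin.castAdd s e)) (_ : ∀ i : Fin s, m (Fin.natAdd k i) = 0)
    (ρ σ : Fin (k + s) → ℝ) (_ : ∀ e, 0 ≤ ρ e) (_ : ∀ e, 0 ≤ σ e) (_ : ∀ e, 0 < ρ e + σ e)
    (_ : ∑ e, ρ e * m e = 1) (_ : ∑ e, σ e * m e = 1) (H : Fin s → Type)
    [∀ i, TopologicalSpace (H i)] [∀ i, T2Space (H i)] [∀ i, CompactSpace (H i)]
    [∀ i, ConnectedSpace (H i)] [∀ i, ChartedSpace (Cm 3) (H i)]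
    [∀ i, IsManifold 𝓘(ℂ, Cm 3) ω (H i)] (ι : ∀ i, H i → Y)
    (sg : ∀ i : Fin s, (M (Fin.natAdd k i)).ι → Y → ℂ)
    (_ : ∀ i, IsBd (ι i) (M (Fin.natAdd k i)) (sg i))
    (_ : Pairwise fun i j => Disjoint (range (ι i)) (range (ι j)))
    (W : CSp) (X Z : ℕ → CSp) (r : ℕ) (v : Y → W.pt) (p : W.pt → (X 0).pt) (P : Bd W.pt)
    (G : Fin r → Set Y) (_ : T2.IsRes v p P G) (_ : ∀ i, ¬ range (ι i) ⊆ ⋃ l, G l)
    (f : ∀ j, (X j).pt → (Z j).pt) (f' : ∀ j, (X (j + 1)).pt → (Z j).pt)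
    (A : ∀ j, Set (Z j).pt) (L : ∀ j, Fin (k + s) → Bd (X j).pt) (c : ℕ → Fin (k + s) → ℕ)
    (_ : ∀ j e, 1 ≤ c j e) (n : Fin (k + s) → Fin r → ℤ)
    (_ : ∃ t, T2.IsCmpV (fun y => p (v y)) (L 0)
      (fun e => (((Bd.can 4 Y).pow (m e)).mul (M e)).pow (c 0 e)) G n t)
    (_ : ∀ j, ∀ t : ℝ, 0 < t → t ≤ 1 → IsFlipR (X j) (Z j) (X (j + 1)) (f j) (f' j) (A j)
      (L j) (L (j + 1)) (c j) (c (j + 1)) fun e => t * ρ e + (1 - t) * σ e)
    (E₀ : Set (X 0).pt)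
    (_ : IsREff (X 0) (L 0) (c 0) ρ E₀ ∨ ∃ E : ∀ j, Set (X j).pt, E 0 = E₀ ∧ FlipsIn f f' E)
    (a : Fin r → ℝ ×ₗ ℝ)
    (_ : ∀ l, a l = toLex (∑ e, σ e * n e l / c 0 e, ∑ e, ρ e * n e l / c 0 e))
    (b : Fin s → ℝ ×ₗ ℝ) (_ : ∀ i, b i = toLex (σ (Fin.natAdd k i), ρ (Fin.natAdd k i))),
    ¬ ((∃ J, ∀ j ≥ J, DimLe (X (j + 1)) 1 {x | BadPt {x | f' j x ∈ Amin (f j)}
      (Cor (⋃ l, G l) (fun y => p (v y)) f f' (j + 1))
      ((bad ι G {l | a l < 0 ∧ (a l ≤ -1 ∨ G l ⊆ {y | p (v y) ∈ E₀})} {i | 1 ≤ b i} ∪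
        cross ι G {l | (-1 < a l ∧ a l < 0) ∧ ¬ G l ⊆ {y | p (v y) ∈ E₀}}) ∩
          {y | p (v y) ∈ E₀}) x}) ∧
      ∀ j, DimLe (X (j + 1)) 1 {x | f' j x ∈ Amin (f j) ∧ ¬ IsReg 4 (X (j + 1)) x ∧
        (x ∈ Tot (Cor (⋃ l, G l) (fun y => p (v y)) f f' (j + 1))
          ((bad ι G {l | a l < -1} {i | 1 < b i} ∪ cross ι G {l | -1 ≤ a l ∧ a l < 0}) ∩
            {y | p (v y) ∈ E₀}) ∨
        x ∈ closure (Val (Cor (⋃ l, G l) (fun y => p (v y)) f f' (j + 1))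
          (⋃ l ∈ {l | (-1 ≤ a l ∧ a l < 0) ∧ G l ⊆ {y | p (v y) ∈ E₀}}, G l)))}) ∧
    ¬ ((∀ i, b i < 1) ∧ (∀ l, -1 < a l) ∧
      (∀ l l', l ≠ l' → a l < 0 → a l' < 0 → Disjoint (G l) (G l')) ∧
      (∀ l i, a l < 0 → Disjoint (G l) (range (ι i))) ∧ ∀ l, a l < 0 → ∃ y ∈ G l, p (v y) ∉ E₀)

end Vale.Agent.P277.T3
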